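import Vale.Agent.P262.M2.Cls
import Vale.Agent.P262.H713.CF1c

/-!
# P262, milestone 2: the cut-off field on `S : M2.Sys E`

`fld p m`: the field below the node `p` at state `m`, real valued, in the coordinates of `p`, payoff
`pf p m` = indicator of the complement of the body; threshold of the field: `(M + 1) * A` (the rule
uses `M * A`).  `Fr p m x` = its mean over the label `x` (`ofReal (Fr p m x) = F p m x`).
All lemmas which need measurability take `hL : S.LabOK m`.
-/

set_option linter.all false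

open MeasureTheory ProbabilityTheory Set
open scoped ENNReal RealInnerProductSpace
open Vale.Agent.P262.H395 (fib mix Inv Fixes measurable_fib fib_tower fib_mono)
open Vale.Agent.P262.H847 (UI)
open Vale.Agent.P262.H713 (Pa FT NodeOK LabF sft ch fN fC good_sft above_sft good_ch above_ch
  fr_congr fib_congr fr_sel fr_fix fl_ch wt_ch kt_ch sl_ch hid_ch al_ch fN_succ fC_eq)
open Vale.Agent.P262.H654 (tr phi sg Bd InvR fr fr_mono fr_const fr_add fr_tower ofReal_fr
  invR_fr)

namespace Vale.Agent.P262.M2.Sys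

variable {E : Type*} [NormedAddCommGroup E] [InnerProductSpace ℝ E] [FiniteDimensional ℝ E]
  [MeasurableSpace E] [BorelSpace E] (S : Sys E)

/-! ### the truncation -/

omit [NormedAddCommGroup E] [InnerProductSpace ℝ E] [FiniteDimensional ℝ E] [MeasurableSpace E]
  [BorelSpace E] in
lemma trE_ofReal {c y : ℝ} (hc : 0 ≤ c) (hc' : c ≤ 1 / 16) (hy : 0 ≤ y) :
    trE (ENNReal.ofReal c) (ENNReal.ofReal y) = ENNReal.ofReal (tr c y) := by
  unfold trE H654.tr
  have h8 : (1 / 8 : ℝ≥0∞) = ENNReal.ofReal (1 / 8) := by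
    rw [ENNReal.ofReal_div_of_pos (by norm_num)]; simp
  by_cases h1 : y ≤ c
  · rw [if_pos h1, if_pos (ENNReal.ofReal_le_ofReal h1)]; simp
  · rw [if_neg h1, if_neg (fun h => h1 ((ENNReal.ofReal_le_ofReal_iff hc).1 h)), h8]
    by_cases h2 : y < 1 / 8
    · rw [if_pos h2, if_pos ((ENNReal.ofReal_lt_ofReal_iff (by norm_num)).2 h2),
        ENNReal.ofReal_div_of_pos (by linarith), ENNReal.ofReal_sub _ hc,
        ENNReal.ofReal_sub _ (by positivity), ENNReal.ofReal_mul (by norm_num)]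
      simp
    · rw [if_neg h2, if_neg (fun h => h2 ((ENNReal.ofReal_lt_ofReal_iff (by norm_num)).1 h))]

/-! ### bodies -/

lemma X_cons_f (c : ℕ) (p : List ℕ) (m : ℕ) :
    S.X (c :: p) m = (fun x => S.mv.Q m (c :: p) x) ⁻¹' S.X p m := rfl

lemma mem_X_cons_f (c : ℕ) (p : List ℕ) (m : ℕ) (x : E) :
    x ∈ S.X (c :: p) m ↔ S.mv.Q m (c :: p) x ∈ S.X p m := Iff.rfl

/-! ### the arrays of a state -/

/-- path arrays of the state `m` -/
noncomputable def pa (m : ℕ) : Pa E := ⟨fun p => S.W p m, fun p => S.mv.Q m p, fun p => S.Leaf p m⟩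

/-- cut-off of the field: `(M + 1) * A` -/
noncomputable def cf (m : ℕ) (p : List ℕ) (x : E) : ℝ := (S.M + 1) * (S.A p m x).toReal

/-- bound of the cut-offs -/
noncomputable def cc : ℝ := (S.M + 1) * S.b0

lemma b0_pos_f : 0 < S.b0 := S.hA0.trans_le S.hAb

lemma cc_nonneg : 0 ≤ S.cc := by
  have := S.b0_pos_f; have := S.hM; unfold cc; positivity

lemma cc_le : S.cc ≤ 1 / 32 := by have := S.hMb; unfold cc; linarith

lemma cc_le' : S.cc ≤ 1 / 16 := S.cc_le.trans (by norm_num)

lemma Q_fix (c : ℕ) (p : List ℕ) (m : ℕ) : Fixes (S.mv.Q m (c :: p)) (S.W p m) :=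
  fun x hx => S.mv.fix m c p x hx

lemma pa_ok (m : ℕ) : (S.pa m).Ok := ⟨fun c p => S.Q_fix c p m, fun c p => S.W_le c p m⟩

/-- the label functions of the state are admissible -/
def LabOK (m : ℕ) : Prop :=
  LabF (S.pa m) S.cc (S.cf m) (fun p => S.Z p m) (fun p => S.kl p m)

lemma tm_lt_f {m : ℕ} (hm : m ≤ S.mT) : S.mv.tm m < S.T := by
  refine S.mv.tm_lt_of_lt ?_
  have h1 : 0 < S.mv.n S.T := by
    have := S.mv.n_strictMono S.hT
    omega
  unfold mT at hm
  omega

lemma ofReal_cf (m : ℕ) (p : List ℕ) (x : E) :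
    ENNReal.ofReal (S.cf m p x) = ENNReal.ofReal (S.M + 1) * S.A p m x := by
  unfold cf
  rw [ENNReal.ofReal_mul (by have := S.hM; linarith), ENNReal.ofReal_toReal (S.A_ne_top p m x)]

lemma cf_nonneg (m : ℕ) (p : List ℕ) (x : E) : 0 ≤ S.cf m p x :=
  mul_nonneg (by have := S.hM; linarith) ENNReal.toReal_nonneg

lemma toReal_A_le_f {m : ℕ} {p : List ℕ} {x : E} (h : x ∉ S.Z p m) :
    (S.A p m x).toReal ≤ S.b0 := by
  have h1 := ENNReal.toReal_mono ENNReal.ofReal_ne_top (S.A_le_of_not_Z h)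
  rwa [ENNReal.toReal_ofReal S.b0_pos_f.le] at h1

lemma cf_le {m : ℕ} {p : List ℕ} {x : E} (h : x ∉ S.Z p m) : S.cf m p x ≤ S.cc :=
  mul_le_mul_of_nonneg_left (S.toReal_A_le_f h) (by have := S.hM; linarith)

/-- **the label functions of every state are admissible** -/
theorem labOK {m : ℕ} (hm : m ≤ S.mT) : S.LabOK m := by
  refine ⟨fun p => ⟨?_, ?_, S.measurableSet_Z p m, S.Z_inv p m, S.cf_nonneg m p,
    fun x hx => S.cf_le hx, measurable_kl p m, kl_inv p (S.tm_lt_f hm)⟩⟩
  · exact ((S.A_meas p m).ennreal_toReal).const_mul _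
  · intro x w hw
    show (S.M + 1) * (S.A p m (x + w)).toReal = (S.M + 1) * (S.A p m x).toReal
    rw [S.A_inv p m x w hw]

lemma leaf_of_length_f {m : ℕ} (hm : m ≤ S.mT) {p : List ℕ}
    (h : Module.finrank ℝ E ≤ p.length + 1) : S.Leaf p m := S.K.leaf_of_length (S.tm_lt_f hm) h

/-! ### the trees -/

/-- the tree of the child `k` of `p` with `n` levels, in the coordinates of `p` -/
noncomputable def tCn (n : ℕ) (p : List ℕ) (m k : ℕ) : FT E Unit :=
  ch (S.pa m) (S.cf m) (fun p => S.Z p m) (fun p => S.kl p m) n p k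

/-- the tree of the child `k` of `p`, in the coordinates of `p` -/
noncomputable def tC (p : List ℕ) (m k : ℕ) : FT E Unit := S.tCn (Module.finrank ℝ E) p m k

lemma tCn_zero (p : List ℕ) (m k : ℕ) : S.tCn 0 p m k = .leaf () := by
  unfold tCn H713.ch
  split_ifs
  · rfl
  · rfl

open Classical in
lemma tCn_succ (n : ℕ) (p : List ℕ) (m k : ℕ) : S.tCn (n + 1) p m k =
    if S.Leaf p m then .leaf () else FT.mp (S.mv.Q m (k :: p))
      (.node (S.W (k :: p) m) (S.cf m (k :: p)) (S.Z (k :: p) m) (S.kl (k :: p) m)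
        (S.tCn n (k :: p) m)) := rfl

/-- long enough trees do not depend on the fuel -/
lemma tCn_fuel {m : ℕ} (hm : m ≤ S.mT) : ∀ (n : ℕ) (p : List ℕ),
    Module.finrank ℝ E ≤ p.length + n + 1 → ∀ k, S.tCn n p m k = S.tCn (n + 1) p m k := by
  intro n
  induction n with
  | zero =>
    intro p hp k
    have hl : S.Leaf p m := S.leaf_of_length_f hm (by omega)
    rw [tCn_zero, tCn_succ, if_pos hl]
  | succ n ih =>
    intro p hp k
    rw [tCn_succ, tCn_succ]
    by_cases hl : S.Leaf p m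
    · rw [if_pos hl, if_pos hl]
    · rw [if_neg hl, if_neg hl]
      have e : S.tCn n (k :: p) m = S.tCn (n + 1) (k :: p) m :=
        funext fun k' => ih (k :: p) (by simp only [List.length_cons]; omega) k'
      rw [e]

lemma tCn_eq {m : ℕ} (hm : m ≤ S.mT) {n : ℕ} {p : List ℕ}
    (h : Module.finrank ℝ E ≤ p.length + n + 1) (h' : n ≤ Module.finrank ℝ E) (k : ℕ) :
    S.tCn n p m k = S.tC p m k := by
  unfold tC
  obtain ⟨j, hj⟩ := Nat.exists_eq_add_of_le h'
  rw [hj]
  clear hj h'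
  induction j with
  | zero => rfl
  | succ j ih => rw [ih, ← Nat.add_assoc, S.tCn_fuel hm (n + j) p (by omega) k]

open Classical in
/-- **one level of the tree** -/
lemma tC_eq {m : ℕ} (hm : m ≤ S.mT) (p : List ℕ) (k : ℕ) : S.tC p m k =
    if S.Leaf p m then .leaf () else FT.mp (S.mv.Q m (k :: p))
      (.node (S.W (k :: p) m) (S.cf m (k :: p)) (S.Z (k :: p) m) (S.kl (k :: p) m)
        (S.tC (k :: p) m)) := by
  have hd := S.hd2
  obtain ⟨n, hn⟩ : ∃ n, Module.finrank ℝ E = n + 1 := ⟨Module.finrank ℝ E - 1, by omega⟩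
  have e : S.tC p m k = S.tCn (n + 1) p m k := by unfold tC; rw [hn]
  rw [e, tCn_succ]
  have e2 : S.tCn n (k :: p) m = S.tC (k :: p) m :=
    funext fun k' => S.tCn_eq hm (by simp only [List.length_cons]; omega) (by omega) k'
  rw [e2]

/-! ### the field -/

/-- the payoff: `0` on the body, `1` outside, coordinates of `p` -/
noncomputable def pf (p : List ℕ) (m : ℕ) : E → ℝ := (S.X p m)ᶜ.indicator fun _ => 1

/-- **the field below the node `p`**, in the coordinates of `p` -/
noncomputable def fld (p : List ℕ) (m : ℕ) (x : E) : ℝ :=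
  FT.fl (S.tC p m (S.kl p m x)) (fun _ => S.pf p m) x

/-- **the mean of the field** over the label `x` of `p` -/
noncomputable def Fr (p : List ℕ) (m : ℕ) (x : E) : ℝ := fr (S.W p m) (S.fld p m) x

/-- the hidden field -/
noncomputable def hdn (p : List ℕ) (m : ℕ) (x : E) : ℝ :=
  FT.hid (S.tC p m (S.kl p m x)) (fun _ => S.pf p m) x

/-- indicator of the points which are killed at no level below `p` -/
noncomputable def alr (p : List ℕ) (m : ℕ) (x : E) : ℝ := FT.al (S.tC p m (S.kl p m x)) x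

lemma pf_UI (p : List ℕ) (m : ℕ) : UI (S.pf p m) :=
  ⟨measurable_const.indicator (S.measurableSet_X p m).compl,
    fun x => indicator_nonneg (fun _ _ => zero_le_one) x, fun x => by
      unfold pf
      by_cases h : x ∈ (S.X p m)ᶜ
      · rw [indicator_of_mem h]
      · rw [indicator_of_notMem h]; exact zero_le_one⟩

lemma pf_mem {p : List ℕ} {m : ℕ} {x : E} (h : x ∈ S.X p m) : S.pf p m x = 0 :=
  indicator_of_notMem (not_not.mpr h) _

lemma pf_notMem {p : List ℕ} {m : ℕ} {x : E} (h : x ∉ S.X p m) : S.pf p m x = 1 :=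
  indicator_of_mem (show x ∈ (S.X p m)ᶜ from h) _

lemma pf_cons (c : ℕ) (p : List ℕ) (m : ℕ) (y : E) :
    S.pf (c :: p) m y = S.pf p m (S.mv.Q m (c :: p) y) := by
  by_cases h : y ∈ S.X (c :: p) m
  · rw [S.pf_mem h, S.pf_mem ((S.mem_X_cons_f c p m y).mp h)]
  · rw [S.pf_notMem h, S.pf_notMem (fun h' => h ((S.mem_X_cons_f c p m y).mpr h'))]

lemma ofReal_pf (p : List ℕ) (m : ℕ) (x : E) :
    ENNReal.ofReal (S.pf p m x) = (S.X p m)ᶜ.indicator 1 x := by
  by_cases h : x ∈ S.X p m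
  · rw [S.pf_mem h, indicator_of_notMem (not_not.mpr h)]; simp
  · rw [S.pf_notMem h, indicator_of_mem (show x ∈ (S.X p m)ᶜ from h)]; simp

lemma ofReal_fr_pf (W : Submodule ℝ E) (p : List ℕ) (m : ℕ) (x : E) :
    ENNReal.ofReal (fr W (S.pf p m) x) = fib W ((S.X p m)ᶜ.indicator 1) x := by
  rw [ofReal_fr (Bd.of_UI (S.pf_UI p m)) (S.pf_UI p m).nonneg]
  congr 1
  funext y
  exact S.ofReal_pf p m y

variable {S}

section lab

variable {m : ℕ} (hL : S.LabOK m) {p : List ℕ} {k n : ℕ} {x y : E}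
include hL

lemma LabOK.kl_meas : Measurable (S.kl p m) := (hL.ok p).mcls

lemma LabOK.kl_inv : H395.Tree.InvN (S.W p m) (S.kl p m) := (hL.ok p).icls

lemma LabOK.kl_eq (h : (S.W p m).starProjection y = (S.W p m).starProjection x) :
    S.kl p m y = S.kl p m x := hL.kl_inv.eq_of h

lemma LabOK.good_tCn : FT.Good S.cc (S.tCn n p m k) := good_ch (S.pa_ok m) hL n p k

lemma LabOK.above_tCn : FT.Above (S.W p m) (S.tCn n p m k) := above_ch (S.pa_ok m) hL n p k

lemma LabOK.good_tC : FT.Good S.cc (S.tC p m k) := hL.good_tCn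

lemma LabOK.above_tC : FT.Above (S.W p m) (S.tC p m k) := hL.above_tCn

lemma LabOK.fld_UI : UI (S.fld p m) :=
  H713.UI_sel (fun k => FT.fl_UI (hL.good_tC (k := k)) S.cc_le' fun _ => S.pf_UI p m) hL.kl_meas

lemma LabOK.hdn_UI : UI (S.hdn p m) :=
  H713.UI_sel (fun k => FT.hid_UI (hL.good_tC (k := k)) S.cc_le' fun _ => S.pf_UI p m) hL.kl_meas

lemma LabOK.alr_UI : UI (S.alr p m) :=
  H713.UI_sel (F := fun k => FT.al (S.tC p m k)) (fun k => FT.al_UI (hL.good_tC (k := k)))
    hL.kl_meas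

lemma LabOK.Fr_UI : UI (S.Fr p m) := H654.UI.fr hL.fld_UI _

/-- on the fibre of a label the class is constant -/
lemma LabOK.fld_fibre (h : (S.W p m).starProjection y = (S.W p m).starProjection x) :
    S.fld p m y = FT.fl (S.tC p m (S.kl p m x)) (fun _ => S.pf p m) y := by
  unfold fld; rw [hL.kl_eq h]

lemma LabOK.hdn_fibre (h : (S.W p m).starProjection y = (S.W p m).starProjection x) :
    S.hdn p m y = FT.hid (S.tC p m (S.kl p m x)) (fun _ => S.pf p m) y := by
  unfold hdn; rw [hL.kl_eq h]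

lemma LabOK.alr_fibre (h : (S.W p m).starProjection y = (S.W p m).starProjection x) :
    S.alr p m y = FT.al (S.tC p m (S.kl p m x)) y := by
  unfold alr; rw [hL.kl_eq h]

lemma LabOK.Fr_eq : S.Fr p m x
    = fr (S.W p m) (FT.fl (S.tC p m (S.kl p m x)) fun _ => S.pf p m) x :=
  fr_congr fun y hy => hL.fld_fibre hy

/-- the mean as the value of the node `p` -/
lemma LabOK.val_eq : FT.val (S.W p m) (S.kl p m) (S.tC p m) (fun _ => S.pf p m) x
    = S.Fr p m x := rfl

/-- **balance**: visible, hidden and alive mass -/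
lemma LabOK.balance : S.Fr p m x + fr (S.W p m) (S.hdn p m) x
    + fr (S.W p m) (fun y => S.alr p m y * (1 - S.pf p m y)) x = 1 := by
  have h := FT.fr_sum (hL.good_tC (p := p) (k := S.kl p m x)) S.cc_le'
    (fun _ => S.pf_UI p m) (S.W p m) x
  rw [hL.Fr_eq]
  have e1 : fr (S.W p m) (S.hdn p m) x
      = fr (S.W p m) (FT.hid (S.tC p m (S.kl p m x)) fun _ => S.pf p m) x :=
    fr_congr fun y hy => hL.hdn_fibre hy
  have e2 : fr (S.W p m) (fun y => S.alr p m y * (1 - S.pf p m y)) x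
      = fr (S.W p m) (fun y => FT.al (S.tC p m (S.kl p m x)) y
        * (1 - FT.pay (S.tC p m (S.kl p m x)) (fun _ => S.pf p m) y)) x :=
    fr_congr fun y hy => by rw [hL.alr_fibre hy]; rfl
  rw [e1, e2]
  exact h

/-! ### one level -/

/-- the field at a leaf node -/
lemma fld_leaf (hm : m ≤ S.mT) (hl : S.Leaf p m) (x : E) : S.fld p m x = S.pf p m x := by
  unfold fld
  rw [S.tC_eq hm, if_pos hl]
  rfl

open Classical in
/-- **the recursion of the field**: `q` the child of the label, `y` the coordinates of `q` -/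
theorem fld_node (hm : m ≤ S.mT) (hl : ¬ S.Leaf p m) (x : E) :
    S.fld p m x = if (S.mv.Q m (S.kl p m x :: p)).symm x ∈ S.Z (S.kl p m x :: p) m then 1 else
      phi (S.cf m (S.kl p m x :: p) ((S.mv.Q m (S.kl p m x :: p)).symm x))
        (S.Fr (S.kl p m x :: p) m ((S.mv.Q m (S.kl p m x :: p)).symm x))
        * S.fld (S.kl p m x :: p) m ((S.mv.Q m (S.kl p m x :: p)).symm x) := by
  set q := S.kl p m x :: p with hq
  unfold fld
  rw [S.tC_eq hm, if_neg hl]
  have h1 := FT.fl_mp (R := S.mv.Q m q) (.node (S.W q m) (S.cf m q) (S.Z q m) (S.kl q m)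
    (S.tC q m)) (fun _ : Unit => S.pf p m) ((S.mv.Q m q).symm x)
  rw [LinearIsometryEquiv.apply_symm_apply] at h1
  rw [h1, FT.fl_node]
  have e : (fun (_ : Unit) (y : E) => S.pf p m (S.mv.Q m q y)) = fun _ => S.pf q m := by
    funext _ y
    exact (S.pf_cons _ p m y).symm
  rw [e]
  rfl

/-- mean of the field with `n` levels -/
lemma LabOK.fr_tCn_succ (hl : ¬ S.Leaf p m) (n : ℕ) (x : E) :
    fr (S.W p m) (FT.fl (S.tCn (n + 1) p m (S.kl p m x)) fun _ => S.pf p m) x
      = fr (S.W p m) (FT.fl (.node (S.W (S.kl p m x :: p) m) (S.cf m (S.kl p m x :: p))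
          (S.Z (S.kl p m x :: p) m) (S.kl (S.kl p m x :: p) m) (S.tCn n (S.kl p m x :: p) m))
          fun _ => S.pf (S.kl p m x :: p) m) x := by
  set q := S.kl p m x :: p with hq
  rw [tCn_succ, if_neg hl]
  have e : FT.fl (FT.mp (S.mv.Q m q) (.node (S.W q m) (S.cf m q) (S.Z q m) (S.kl q m)
      (S.tCn n q m))) (fun _ : Unit => S.pf p m)
      = fun y => FT.fl (.node (S.W q m) (S.cf m q) (S.Z q m) (S.kl q m) (S.tCn n q m))
        (fun _ : Unit => S.pf q m) ((S.mv.Q m q).symm y) := by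
    funext y
    have h1 := FT.fl_mp (R := S.mv.Q m q) (.node (S.W q m) (S.cf m q) (S.Z q m) (S.kl q m)
      (S.tCn n q m)) (fun _ : Unit => S.pf p m) ((S.mv.Q m q).symm y)
    rw [LinearIsometryEquiv.apply_symm_apply] at h1
    rw [h1]
    have e : (fun (_ : Unit) (y : E) => S.pf p m (S.mv.Q m q y)) = fun _ => S.pf q m := by
      funext _ y
      exact (S.pf_cons _ p m y).symm
    rw [e]
  rw [e]
  exact fr_fix (R := (S.mv.Q m q).symm) (S.Q_fix _ p m).symm _ x

/-- **`Fk` is the mean of the field with `k` levels** -/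
theorem LabOK.Fk_eq (n : ℕ) : ∀ (p : List ℕ) (x : E), S.Fk n p m x
    = ENNReal.ofReal (fr (S.W p m) (FT.fl (S.tCn n p m (S.kl p m x)) fun _ => S.pf p m) x) := by
  induction n with
  | zero =>
    intro p x
    rw [tCn_zero, FT.fl_leaf, S.ofReal_fr_pf]
    rfl
  | succ n ih =>
    intro p x
    by_cases hl : S.Leaf p m
    · rw [tCn_succ, if_pos hl, FT.fl_leaf, S.ofReal_fr_pf, Fk, if_pos hl]
      rfl
    · rw [hL.fr_tCn_succ hl, Fk, if_neg hl]
      set q := S.kl p m x :: p with hq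
      have hg := hL.good_tCn (n := n + 1) (p := p) (k := S.kl p m x)
      have hu : UI (FT.fl (.node (S.W q m) (S.cf m q) (S.Z q m) (S.kl q m) (S.tCn n q m))
          fun _ : Unit => S.pf q m) := by
        refine FT.fl_UI (c0 := S.cc) ?_ S.cc_le' fun _ => S.pf_UI q m
        exact ⟨hL.ok q, fun k => hL.above_tCn, fun k => hL.good_tCn⟩
      rw [← fr_tower (S.W_le (S.kl p m x) p m) (Bd.of_UI hu) x,
        ofReal_fr (Bd.of_UI (H654.UI.fr hu _)) (H654.UI.fr hu _).nonneg]
      congr 1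
      funext y
      have key := FT.fr_fl_node (W := S.W q m) (c := S.cf m q) (Z := S.Z q m) (cls := S.kl q m)
        (T := S.tCn n q m) (g := fun _ : Unit => S.pf q m) (hL.ok q) (fun k => hL.good_tCn)
        S.cc_le' (fun _ => S.pf_UI q m) y
      rw [← hq, key]
      by_cases hy : y ∈ S.Z q m
      · rw [if_pos hy, if_pos hy]; simp
      · rw [if_neg hy, if_neg hy, ih q y, ← S.ofReal_cf]
        have e : fr (S.W q m) (FT.fl (S.tCn n q m (S.kl q m y)) fun _ => S.pf q m) y
            = FT.val (S.W q m) (S.kl q m) (S.tCn n q m) (fun _ => S.pf q m) y :=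
          (fr_sel hL.kl_inv (fun k => FT.fl (S.tCn n q m k) fun _ => S.pf q m) y).symm
        rw [e]
        exact trE_ofReal (S.cf_nonneg m q y) ((S.cf_le hy).trans S.cc_le')
          ((FT.val_UI (hL.ok q) (fun k => hL.good_tCn) S.cc_le' fun _ => S.pf_UI q m).nonneg y)

/-- **`F` is the mean of the field** -/
theorem LabOK.F_eq : S.F p m x = ENNReal.ofReal (S.Fr p m x) := by
  unfold F
  rw [hL.Fk_eq, hL.Fr_eq]
  rfl

end lab

end Vale.Agent.P262.M2.Sys
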