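import Vale.Agent.P262.M2.Cls

/-!
# P262, milestone 2: paths of labels, towers, lives

`nb p m x k` is the node `k` levels below `p` on the path of `x`, `nd m x j = nb [] m x j`.
-/

set_option linter.all false

open MeasureTheory ProbabilityTheory Set
open scoped ENNReal RealInnerProductSpace
open Vale.Agent.P262.H118 (Iv st en ON rotE tau wd wrd Mg Piece K2 El2 paths Cl cl_paths mem_paths
  iv_st)
open Vale.Agent.P262.H274 (Slow Cost)
open Vale.Agent.P262.H395 (fib mix Inv inv_fib measurable_fib fib_mono)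
open Vale.Agent.P262.H395.Tree (InvN)
open Vale.Agent.P262.H44 (InvS)
open Vale.Agent.P262.H493 (star)

namespace Vale.Agent.P262.M2.Sys

variable {E : Type*} [NormedAddCommGroup E] [InnerProductSpace ℝ E] [FiniteDimensional ℝ E]
  [MeasurableSpace E] [BorelSpace E] {S : Sys E}

/-! ### paths -/

lemma nb_zero (p : List ℕ) (m : ℕ) (x : E) : S.nb p m x 0 = p := rfl
lemma nb_succ (p : List ℕ) (m : ℕ) (x : E) (k : ℕ) :
    S.nb p m x (k + 1) = S.kl (S.nb p m x k) m x :: S.nb p m x k := rfl
lemma nd_zero (m : ℕ) (x : E) : S.nd m x 0 = [] := rfl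
lemma nd_succ (m : ℕ) (x : E) (j : ℕ) :
    S.nd m x (j + 1) = S.kl (S.nd m x j) m x :: S.nd m x j := rfl

lemma nb_add (p : List ℕ) (m : ℕ) (x : E) (j k : ℕ) :
    S.nb p m x (j + k) = S.nb (S.nb p m x j) m x k := by
  induction k with
  | zero => rfl
  | succ k ih => rw [← add_assoc, nb_succ, nb_succ, ih]

lemma nb_succ' (p : List ℕ) (m : ℕ) (x : E) (k : ℕ) :
    S.nb p m x (k + 1) = S.nb (S.kl p m x :: p) m x k := by
  rw [add_comm, nb_add]; rfl

lemma nd_add (m : ℕ) (x : E) (j k : ℕ) : S.nd m x (j + k) = S.nb (S.nd m x j) m x k :=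
  nb_add [] m x j k

lemma suffix_nb (p : List ℕ) (m : ℕ) (x : E) (k : ℕ) : p <:+ S.nb p m x k := by
  induction k with
  | zero => exact List.suffix_refl p
  | succ k ih => exact ih.trans (List.suffix_cons _ _)

lemma nb_suffix_nb (p : List ℕ) (m : ℕ) (x : E) {i k : ℕ} (h : i ≤ k) :
    S.nb p m x i <:+ S.nb p m x k := by
  obtain ⟨l, rfl⟩ := Nat.exists_eq_add_of_le h
  rw [nb_add]
  exact suffix_nb _ _ _ _

lemma nd_suffix_nd (m : ℕ) (x : E) {i k : ℕ} (h : i ≤ k) : S.nd m x i <:+ S.nd m x k :=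
  nb_suffix_nb [] m x h

lemma length_nb (p : List ℕ) (m : ℕ) (x : E) (k : ℕ) :
    (S.nb p m x k).length = p.length + k := by
  induction k with
  | zero => rfl
  | succ k ih => rw [nb_succ, List.length_cons, ih]; rfl

lemma length_nd (m : ℕ) (x : E) (j : ℕ) : (S.nd m x j).length = j := by
  unfold nd; rw [length_nb]; simp

lemma le_cm_of_mem_nb {p : List ℕ} (hp : ∀ c ∈ p, c ≤ S.cm) (m : ℕ) (x : E) (k : ℕ) :
    ∀ c ∈ S.nb p m x k, c ≤ S.cm := by
  induction k with
  | zero => exact hp
  | succ k ih =>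
    intro c hc
    rw [nb_succ, List.mem_cons] at hc
    rcases hc with rfl | hc
    · exact kl_le_cm _ _ _
    · exact ih c hc

lemma le_cm_of_mem_nd (m : ℕ) (x : E) (j : ℕ) : ∀ c ∈ S.nd m x j, c ≤ S.cm :=
  le_cm_of_mem_nb (by simp) m x j

lemma nd_mem_G (m : ℕ) (x : E) {j : ℕ} (hj : j ≤ Module.finrank ℝ E) :
    S.nd m x j ∈ paths S.cm (Module.finrank ℝ E) := by
  rw [mem_paths, length_nd]
  exact ⟨hj, le_cm_of_mem_nd m x j⟩

/-- a node which is not a leaf has depth at most `dim - 2` -/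
lemma length_le_of_not_leaf {p : List ℕ} {m : ℕ} (hm : S.mv.tm m < S.T) (h : ¬ S.Leaf p m) :
    p.length + 2 ≤ Module.finrank ℝ E := by
  have h2 : 2 ≤ Module.finrank ℝ (S.W p m)ᗮ := by unfold Leaf at h; omega
  have h3 := S.K.length_le hm h2
  have h4 := S.K.dim_perp p (S.mv.tm m)
  unfold W at h2
  omega

lemma le_of_mem_NL {j m : ℕ} {x : E} (hm : S.mv.tm m < S.T) (h : x ∈ S.NL j m) :
    j + 2 ≤ Module.finrank ℝ E := by
  have := length_le_of_not_leaf hm h
  rwa [length_nd] at this

/-- non leaf labels are in the finite set of nodes, with their children -/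
lemma child_mem_G {j m : ℕ} {x : E} (hm : S.mv.tm m < S.T) (h : x ∈ S.NL j m) :
    S.nd m x (j + 1) ∈ paths S.cm (Module.finrank ℝ E) :=
  nd_mem_G m x (by have := le_of_mem_NL hm h; omega)

/-! ### invariance -/

/-- the path of `x` down to level `k + 1` is a function of the label of level `k` -/
lemma nb_inv (p : List ℕ) {m : ℕ} (hm : S.mv.tm m < S.T) (x : E) (k : ℕ) {w : E}
    (hw : w ∈ (S.W (S.nb p m x k) m)ᗮ) :
    ∀ i ≤ k + 1, S.nb p m (x + w) i = S.nb p m x i := by
  intro i
  induction i with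
  | zero => intro _; rfl
  | succ i ih =>
    intro hi
    have h1 := ih (by omega)
    rw [nb_succ, nb_succ, h1]
    congr 1
    refine kl_inv _ hm x w ?_
    exact Submodule.orthogonal_le (S.W_mono (nb_suffix_nb p m x (by omega)) m) hw

lemma nd_inv {m : ℕ} (hm : S.mv.tm m < S.T) (x : E) (k : ℕ) {w : E}
    (hw : w ∈ (S.W (S.nd m x k) m)ᗮ) : ∀ i ≤ k + 1, S.nd m (x + w) i = S.nd m x i :=
  nb_inv [] hm x k hw

lemma mix_eq_add (W : Submodule ℝ E) (x z : E) : ∃ w ∈ Wᗮ, mix W x z = x + w :=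
  ⟨mix W x z - x, by
    rw [← Submodule.starProjection_apply_eq_zero_iff, map_sub]
    unfold mix
    rw [map_add, map_sub, H395.proj_proj, H395.proj_proj]; simp, by abel⟩

lemma nb_mix (p : List ℕ) {m : ℕ} (hm : S.mv.tm m < S.T) (x : E) (k : ℕ) (z : E) :
    ∀ i ≤ k + 1, S.nb p m (mix (S.W (S.nb p m x k) m) x z) i = S.nb p m x i := by
  obtain ⟨w, hw, h⟩ := mix_eq_add (S.W (S.nb p m x k) m) x z
  rw [h]
  exact nb_inv p hm x k hw

lemma nd_mix {m : ℕ} (hm : S.mv.tm m < S.T) (x : E) (k : ℕ) (z : E) :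
    ∀ i ≤ k + 1, S.nd m (mix (S.W (S.nd m x k) m) x z) i = S.nd m x i := nb_mix [] hm x k z

/-! ### measurability -/

/-- functions of (node of the path, point) -/
lemma measurable_nb (p : List ℕ) (m k : ℕ) {F : List ℕ → E → ℝ≥0∞} (hF : ∀ r, Measurable (F r)) :
    Measurable fun x => F (S.nb p m x k) x := by
  induction k generalizing F with
  | zero => exact hF p
  | succ k ih =>
    have := ih (F := fun r x => F (S.kl r m x :: r) x) fun r =>
      measurable_of_kl (F := fun c => F (c :: r)) fun c => hF _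
    exact this

lemma measurable_nd (m j : ℕ) {F : List ℕ → E → ℝ≥0∞} (hF : ∀ r, Measurable (F r)) :
    Measurable fun x => F (S.nd m x j) x := measurable_nb [] m j hF

lemma measurableSet_nb (p : List ℕ) (m k : ℕ) {s : List ℕ → Set E}
    (hs : ∀ r, MeasurableSet (s r)) : MeasurableSet {x | x ∈ s (S.nb p m x k)} := by
  have h := measurable_nb (S := S) p m k (F := fun r => (s r).indicator (1 : E → ℝ≥0∞))
    fun r => measurable_one.indicator (hs r)
  have h2 : {x | x ∈ s (S.nb p m x k)} =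
      (fun x => (s (S.nb p m x k)).indicator (1 : E → ℝ≥0∞) x) ⁻¹' {1} := by
    ext x
    simp only [mem_setOf_eq, mem_preimage, mem_singleton_iff]
    by_cases hx : x ∈ s (S.nb p m x k)
    · rw [indicator_of_mem hx]; simp [hx]
    · rw [indicator_of_notMem hx]; simp [hx]
  rw [h2]
  exact h (measurableSet_singleton _)

lemma measurableSet_nd (m j : ℕ) {s : List ℕ → Set E} (hs : ∀ r, MeasurableSet (s r)) :
    MeasurableSet {x | x ∈ s (S.nd m x j)} := measurableSet_nb [] m j hs

lemma measurableSet_OL (j m : ℕ) : MeasurableSet (S.OL j m) := by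
  have e : S.OL j m = ⋂ (i : ℕ), ⋂ (_ : i < j), {x | x ∈ (fun r => S.om r m) (S.nd m x i)} := by
    ext x
    simp only [OL, mem_setOf_eq, mem_iInter]
  rw [e]
  refine MeasurableSet.iInter fun i => MeasurableSet.iInter fun _ => ?_
  exact measurableSet_nd m i fun r => measurableSet_om r m

lemma measurableSet_NL (j m : ℕ) : MeasurableSet (S.NL j m) := by
  classical
  have h := measurableSet_nd (S := S) m j (s := fun r => if S.Leaf r m then ∅ else univ)
    (fun r => by
      split_ifs
      · exact MeasurableSet.empty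
      · exact MeasurableSet.univ)
  have e : S.NL j m = {x | x ∈ (fun r => if S.Leaf r m then (∅ : Set E) else univ)
      (S.nd m x j)} := by
    ext x
    simp only [mem_setOf_eq, NL]
    split_ifs with h
    · simp [h]
    · simp [h]
  rw [e]
  exact h

lemma measurableSet_OMb (p : List ℕ) (m k : ℕ) : MeasurableSet (S.OMb p m k) := by
  have e : S.OMb p m k = ⋂ (i : ℕ), ⋂ (_ : 1 ≤ i), ⋂ (_ : i ≤ k),
      {x | x ∈ (fun r => S.om r m) (S.nb p m x i)} := by
    ext x
    simp only [OMb, mem_setOf_eq, mem_iInter]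
  rw [e]
  refine MeasurableSet.iInter fun i => MeasurableSet.iInter fun _ => MeasurableSet.iInter fun _ => ?_
  exact measurableSet_nb p m i fun r => measurableSet_om r m

/-! ### towers -/

/-- **tower** for functions of (node, point): averaging first over the fibre of the label `k`
levels below. -/
theorem tower (p : List ℕ) {m : ℕ} (hm : S.mv.tm m < S.T) (k : ℕ) {F : List ℕ → E → ℝ≥0∞}
    (hF : ∀ r, Measurable (F r)) (x : E) :
    fib (S.W p m) (fun y => fib (S.W (S.nb p m y k) m) (F (S.nb p m y k)) y) x =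
      fib (S.W p m) (fun y => F (S.nb p m y k) y) x := by
  induction k generalizing F with
  | zero => exact H395.fib_tower le_rfl (hF p) x
  | succ k ih =>
    have hG : ∀ r, Measurable fun y =>
        fib (S.W (S.kl r m y :: r) m) (F (S.kl r m y :: r)) y := fun r =>
      measurable_of_kl (F := fun c => fib (S.W (c :: r) m) (F (c :: r))) fun c =>
        measurable_fib (hF _)
    have hH : ∀ r, Measurable fun y => F (S.kl r m y :: r) y := fun r =>
      measurable_of_kl (F := fun c => F (c :: r)) fun c => hF _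
    have e1 := ih hG
    have e2 := ih hH
    have e3 : ∀ r y, fib (S.W r m)
        (fun y => fib (S.W (S.kl r m y :: r) m) (F (S.kl r m y :: r)) y) y =
        fib (S.W r m) (fun y => F (S.kl r m y :: r) y) y := by
      intro r y
      have hk := kl_inv (S := S) r hm
      rw [H395.Tree.fib_sel hk (fun c => fib (S.W (c :: r) m) (F (c :: r))) y,
        H395.Tree.fib_sel hk (fun c => F (c :: r)) y]
      exact H395.fib_tower (S.W_le _ _ _) (hF _) y
    simp_rw [e3] at e1
    exact e1.symm.trans e2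

/-- the same for the integral over all points -/
theorem int_tower {m : ℕ} (hm : S.mv.tm m < S.T) (j : ℕ) {F : List ℕ → E → ℝ≥0∞}
    (hF : ∀ r, Measurable (F r)) :
    ∫⁻ x, fib (S.W (S.nd m x j) m) (F (S.nd m x j)) x ∂stdGaussian E =
      ∫⁻ x, F (S.nd m x j) x ∂stdGaussian E := by
  have h := tower (S := S) [] hm j hF 0
  rw [S.W_nil, H395.fib_bot, H395.fib_bot] at h
  exact h

/-- with a label function as a weight -/
theorem int_mul_fib {m : ℕ} (hm : S.mv.tm m < S.T) (j : ℕ) {g F : List ℕ → E → ℝ≥0∞}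
    (hg : ∀ r, Inv (S.W r m) (g r)) (hgm : ∀ r, Measurable (g r)) (hF : ∀ r, Measurable (F r)) :
    ∫⁻ x, g (S.nd m x j) x * fib (S.W (S.nd m x j) m) (F (S.nd m x j)) x ∂stdGaussian E =
      ∫⁻ x, g (S.nd m x j) x * F (S.nd m x j) x ∂stdGaussian E := by
  have h := int_tower (S := S) hm j (F := fun r x => g r x * F r x) fun r => (hgm r).mul (hF r)
  rw [← h]
  congr 1
  funext x
  rw [H395.fib_mul (hg _) (hF _)]

/-- with a label function as a weight, below the node `p` -/
theorem fib_mul_fib (p : List ℕ) {m : ℕ} (hm : S.mv.tm m < S.T) (k : ℕ) {g F : List ℕ → E → ℝ≥0∞}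
    (hg : ∀ r, Inv (S.W r m) (g r)) (hgm : ∀ r, Measurable (g r)) (hF : ∀ r, Measurable (F r))
    (x : E) :
    fib (S.W p m) (fun y => g (S.nb p m y k) y *
      fib (S.W (S.nb p m y k) m) (F (S.nb p m y k)) y) x =
      fib (S.W p m) (fun y => g (S.nb p m y k) y * F (S.nb p m y k) y) x := by
  have h := tower (S := S) p hm k (F := fun r x => g r x * F r x) (fun r => (hgm r).mul (hF r)) x
  rw [← h]
  congr 1
  funext y
  rw [H395.fib_mul (hg _) (hF _)]

/-! ### lives -/

/-- **the path is constant on the lives of its nodes** -/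
theorem nb_same {p : List ℕ} {m l : ℕ} {x : E} {k : ℕ}
    (h : S.Same (S.K.nw (S.nb p m x k)) m l) (hm : S.mv.tm m < S.T) :
    ∀ i ≤ k, S.nb p l x i = S.nb p m x i := by
  intro i
  induction i with
  | zero => intro _; rfl
  | succ i ih =>
    intro hi
    rw [nb_succ, nb_succ, ih (by omega)]
    congr 1
    refine kl_same (h.mono ?_ (zero_mem_BB _ _ _) hm) hm
    have h1 : S.BB (S.nb p m x i) m x ⊆ S.K.nw (S.nb p m x (i + 1)) := by
      rw [nb_succ]
      exact S.K.B_sub_nw _ _
    exact h1.trans (S.K.nw_mono (nb_suffix_nb p m x hi))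

/-- on a block the path is constant one level further -/
theorem nb_same_block {p : List ℕ} {m l : ℕ} {x : E} {k : ℕ}
    (h : S.Same (S.BB (S.nb p m x k) m x) m l) (hm : S.mv.tm m < S.T) :
    ∀ i ≤ k + 1, S.nb p l x i = S.nb p m x i := by
  intro i hi
  have h1 := nb_same (h.mono (nw_sub_BB _ _ _) (S.K.zero_mem_nw _) hm) hm
  rcases Nat.lt_or_ge i (k + 1) with h2 | h2
  · exact h1 i (by omega)
  · have : i = k + 1 := by omega
    subst this
    rw [nb_succ, nb_succ, h1 k le_rfl, kl_same h hm]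

theorem nd_same {m l : ℕ} {x : E} {k : ℕ} (h : S.Same (S.K.nw (S.nd m x k)) m l)
    (hm : S.mv.tm m < S.T) : ∀ i ≤ k, S.nd l x i = S.nd m x i := nb_same h hm

theorem nd_same_block {m l : ℕ} {x : E} {k : ℕ} (h : S.Same (S.BB (S.nd m x k) m x) m l)
    (hm : S.mv.tm m < S.T) : ∀ i ≤ k + 1, S.nd l x i = S.nd m x i := nb_same_block h hm

/-- the life of a child is inside the block of the label -/
lemma same_block_of_life {m l : ℕ} {x : E} {p : List ℕ}
    (h : S.Same (S.K.nw (S.kl p m x :: p)) m l) (hm : S.mv.tm m < S.T) :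
    S.Same (S.BB p m x) m l := h.mono (S.K.B_sub_nw _ _) (zero_mem_BB _ _ _) hm

/-- the counted ancestors are the same on a life -/
theorem OL_same {m l : ℕ} {x : E} {j : ℕ} (h : S.Same (S.K.nw (S.nd m x j)) m l)
    (hm : S.mv.tm m < S.T) : x ∈ S.OL j l ↔ x ∈ S.OL j m := by
  have h1 := nd_same h hm
  refine forall_congr' fun i => forall_congr' fun hi => ?_
  rw [h1 i hi.le]
  refine om_same (h.mono ?_ (zero_mem_BB _ _ _) hm) hm
  have h2 : S.BB (S.nd m x i) m x ⊆ S.K.nw (S.nd m x (i + 1)) := S.K.B_sub_nw _ _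
  exact h2.trans (S.K.nw_mono (nd_suffix_nd m x hi))

theorem OL_same_block {m l : ℕ} {x : E} {j : ℕ} (h : S.Same (S.BB (S.nd m x j) m x) m l)
    (hm : S.mv.tm m < S.T) : x ∈ S.OL j l ↔ x ∈ S.OL j m :=
  OL_same (h.mono (nw_sub_BB _ _ _) (S.K.zero_mem_nw _) hm) hm

theorem NL_same {m l : ℕ} {x : E} {j : ℕ} (h : S.Same (S.K.nw (S.nd m x j)) m l)
    (hm : S.mv.tm m < S.T) : x ∈ S.NL j l ↔ x ∈ S.NL j m := by
  unfold NL
  simp only [mem_setOf_eq]
  rw [nd_same h hm j le_rfl, h.leaf subset_rfl hm]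

/-! ### caps of children -/

/-- `W p < W (c :: p)` at non leaf nodes -/
lemma W_lt {p : List ℕ} {m : ℕ} (hm : S.mv.tm m < S.T) (h : ¬ S.Leaf p m) (c : ℕ) :
    S.W p m < S.W (c :: p) m := by
  have h2 : 2 ≤ Module.finrank ℝ (S.W p m)ᗮ := by unfold Leaf at h; omega
  have h3 := (S.K.dim_child (c := c) hm h2).1
  refine lt_of_le_of_ne (S.W_le c p m) fun h4 => ?_
  have h5 : Module.finrank ℝ (S.W p m) = Module.finrank ℝ (S.W (c :: p) m) := by rw [h4]
  unfold W at h5
  omega

/-- at a leaf the children have the same label space -/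
lemma W_leaf {p : List ℕ} {m : ℕ} (h : S.Leaf p m) (c : ℕ) : S.W (c :: p) m = S.W p m :=
  (S.K.leaf h c).1

theorem fib_As_child {ε : ℝ} (hε : 2 * (Real.sqrt 2 * Real.exp (-(S.qq / 4))) ≤ ε) (hε1 : ε < 1)
    {s : ℝ} (hs : 0 ≤ s) (hs2 : s ≤ 2) {p : List ℕ} {m : ℕ} (hm : S.mv.tm m < S.T)
    (h : ¬ S.Leaf p m) (c : ℕ) (x : E) :
    fib (S.W p m) (S.As s (c :: p) m) x ≤ ENNReal.ofReal ((1 - ε)⁻¹ *
      (S.kap ^ (Module.finrank ℝ (S.W (c :: p) m) - Module.finrank ℝ (S.W p m))) ^ s) *
        S.As s p m x := by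
  unfold Sys.As
  rw [chn]
  refine H962.fib_capS_le hε hε1 (fun V hV => S.le_of_mem_chn hV) (S.W_mem_chn p m)
    (List.pairwise_singleton _ _) (fun V hV => ?_) (S.W_le c p m) S.hA0 S.hkap hs hs2 S.hqq.le x
  rw [List.mem_singleton] at hV
  rw [hV]
  exact W_lt hm h c

/-! ### the root -/

lemma kl_root {m : ℕ} (hm : S.mv.tm m < S.T) (hH : ∀ k ≤ S.mT, S.Healthy k) (x : E) :
    S.kl [] m x ≠ 0 := by
  intro h0
  rw [kl_eq_zero_iff (by rw [S.Z_nil]; simp)] at h0
  obtain ⟨k, hk, hD⟩ := exists_Dw (S := S) [] 0 hm x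
  rw [← hD] at h0
  have hkT : S.mv.tm k < S.T := hk.lt hm
  have hroot : ∀ l, l ≤ S.mT → S.De [] l x ≤ ENNReal.ofReal (1 / 25) := by
    intro l hl
    have h1 : S.De [] l x = S.De [] l 0 := by
      have := S.De_inv [] l 0 x (by rw [S.W_nil, Submodule.bot_orthogonal_eq_top]; trivial)
      rw [zero_add] at this
      exact this
    rw [h1]; exact hH l hl
  have hk1 : k ≤ S.mT := by
    have := (S.mv.tm_spec k).2
    have h2 := S.mv.n_mono (Nat.succ_le_of_lt hkT)
    rw [Nat.succ_eq_add_one] at h2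
    unfold mT
    omega
  have h3 : ENNReal.ofReal (1 / 25) + ENNReal.ofReal (1 / 25) < S.thr 0 := by
    rw [thr_zero, ← ENNReal.ofReal_add (by norm_num) (by norm_num)]
    exact (ENNReal.ofReal_lt_ofReal_iff (by norm_num)).2 (by norm_num)
  have h4 : S.Dc [] k x ≤ ENNReal.ofReal (1 / 25) + ENNReal.ofReal (1 / 25) := by
    by_cases hre : S.mv.IsRe k
    · rw [S.Dc_re hre]
      exact (hroot k hk1).trans le_self_add
    · have hact := S.not_re_iff.1 hre
      refine (S.Dc_le_De_add_De hact x).trans (add_le_add (hroot k hk1) (hroot (k + 1) ?_))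
      have h5 := S.mv.tm_spec k
      have h6 := S.mv.n_mono (Nat.succ_le_of_lt hkT)
      rw [Nat.succ_eq_add_one] at h6
      have h7 : k + 1 < S.mv.n (S.mv.tm k + 1) := by
        rcases hact with h8 | h8
        · have := S.mv.n_succ (S.mv.tm k)
          unfold El2.IsStar at h8
          omega
        · exact h8.2
      unfold mT
      omega
  exact absurd (h0.trans h4) (not_le.2 h3)

/-! ### the field mass -/

omit [NormedAddCommGroup E] [InnerProductSpace ℝ E] [FiniteDimensional ℝ E] [MeasurableSpace E]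
  [BorelSpace E] in
lemma trE_le (c : ℝ≥0∞) (y : ℝ≥0∞) (hc : c ≤ 1 / 16) : trE c y ≤ y := by
  unfold trE
  split_ifs with h1 h2
  · exact zero_le
  · have h3 : (1 : ℝ≥0∞) - 8 * c ≠ 0 := by
      have : 8 * c ≤ 1 / 2 := by
        calc 8 * c ≤ 8 * (1 / 16) := by gcongr
          _ = 1 / 2 := by
            rw [← ENNReal.toReal_eq_toReal_iff' (by finiteness) (by finiteness)]
            simp; norm_num
      have h4 : 8 * c < 1 := this.trans_lt (by
        rw [← ENNReal.toReal_lt_toReal (by finiteness) (by finiteness)]; simp; norm_num)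
      exact (tsub_pos_of_lt h4).ne'
    rw [ENNReal.div_le_iff h3 (by finiteness)]
    push Not at h1
    have hy : y ≠ ⊤ := (h2.trans_le (by simp : (1 : ℝ≥0∞) / 8 ≤ 1)).ne_top
    have hct : c ≠ ⊤ := (hc.trans_lt (by finiteness)).ne
    have h8 : 8 * c ≤ 1 := by
      calc 8 * c ≤ 8 * (1 / 16) := by gcongr
        _ ≤ 1 := by
          rw [← ENNReal.toReal_le_toReal (by finiteness) (by finiteness)]
          simp; norm_num
    rw [ENNReal.mul_sub (fun _ _ => hy), mul_one]
    refine tsub_le_tsub_left ?_ y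
    calc y * (8 * c) ≤ (1 / 8) * (8 * c) := by gcongr
      _ = c := by
        rw [← mul_assoc, ENNReal.div_mul_cancel (by norm_num) (by norm_num), one_mul]
  · exact le_rfl

lemma measurable_trE : Measurable fun z : ℝ≥0∞ × ℝ≥0∞ => trE z.1 z.2 := by
  classical
  unfold trE
  refine Measurable.ite (measurableSet_le measurable_snd measurable_fst) measurable_const ?_
  refine Measurable.ite (measurableSet_lt measurable_snd measurable_const) ?_ measurable_snd
  exact (measurable_snd.sub measurable_fst).div (measurable_const.sub (measurable_fst.const_mul _))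

lemma Fk_meas (n : ℕ) (p : List ℕ) (m : ℕ) : Measurable (S.Fk n p m) := by
  classical
  induction n generalizing p with
  | zero => exact S.De_meas p m
  | succ n ih =>
    by_cases hl : S.Leaf p m
    · have : S.Fk (n + 1) p m = S.De p m := by funext x; rw [Fk, if_pos hl]
      rw [this]; exact S.De_meas p m
    · have : S.Fk (n + 1) p m = fun x => fib (S.W p m) (fun y =>
          if y ∈ S.Z (S.kl p m x :: p) m then 1
          else trE (ENNReal.ofReal (S.M + 1) * S.A (S.kl p m x :: p) m y)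
            (S.Fk n (S.kl p m x :: p) m y)) x := by
        funext x; rw [Fk, if_neg hl]
      rw [this]
      refine measurable_of_kl (F := fun c => fib (S.W p m) (fun y =>
          if y ∈ S.Z (c :: p) m then 1
          else trE (ENNReal.ofReal (S.M + 1) * S.A (c :: p) m y)
            (S.Fk n (c :: p) m y))) fun c => measurable_fib ?_
      refine Measurable.ite (S.measurableSet_Z _ m) measurable_const ?_
      exact measurable_trE.comp (((S.A_meas _ m).const_mul _).prodMk (ih _))

lemma Fk_inv (n : ℕ) (p : List ℕ) {m : ℕ} (hm : S.mv.tm m < S.T) :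
    Inv (S.W p m) (S.Fk n p m) := by
  intro x w hw
  cases n with
  | zero => exact S.De_inv p m x w hw
  | succ n =>
    rw [Fk, Fk]
    split_ifs with hl
    · exact S.De_inv p m x w hw
    · rw [kl_inv p hm x w hw]
      exact inv_fib _ _ x w hw

lemma field_const_le : ENNReal.ofReal (S.M + 1) * ENNReal.ofReal S.b0 ≤ 1 / 16 := by
  rw [← ENNReal.ofReal_mul (by linarith [S.hM])]
  have h := S.hMb
  have : (1 : ℝ≥0∞) / 16 = ENNReal.ofReal (1 / 16) := by
    rw [ENNReal.ofReal_div_of_pos (by norm_num)]; simp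
  rw [this]
  apply ENNReal.ofReal_le_ofReal
  have h1 := S.hA0
  have h2 := S.hAb
  have h3 := S.hM
  nlinarith

lemma Fk_le_one (n : ℕ) (p : List ℕ) (m : ℕ) (x : E) : S.Fk n p m x ≤ 1 := by
  induction n generalizing p x with
  | zero => exact S.De_le_one p m x
  | succ n ih =>
    rw [Fk]
    split_ifs with hl
    · exact S.De_le_one p m x
    · refine H395.fib_le_one (fun y => ?_) x
      split_ifs with hy
      · exact le_rfl
      · refine (trE_le _ _ ?_).trans (ih _ _)
        refine le_trans ?_ (field_const_le (S := S))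
        gcongr
        exact S.A_le_of_not_Z hy

/-- the fuel does not matter once the leaves are reached -/
lemma Fk_stable {n : ℕ} {p : List ℕ} {m : ℕ} (hm : S.mv.tm m < S.T)
    (hn : Module.finrank ℝ E ≤ n + p.length + 1) (x : E) :
    S.Fk n p m x = S.Fk (n + 1) p m x := by
  induction n generalizing p x with
  | zero =>
    have hl : S.Leaf p m := S.K.leaf_of_length hm (by omega)
    rw [Fk, Fk, if_pos hl]
  | succ n ih =>
    rw [Fk, Fk]
    split_ifs with hl
    · rfl
    · congr 1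
      funext y
      split_ifs with hy
      · rfl
      · rw [ih (p := S.kl p m x :: p) (by simp; omega)]

lemma F_meas (p : List ℕ) (m : ℕ) : Measurable (S.F p m) := Fk_meas _ p m
lemma F_inv (p : List ℕ) {m : ℕ} (hm : S.mv.tm m < S.T) : Inv (S.W p m) (S.F p m) :=
  Fk_inv _ p hm
lemma F_le_one (p : List ℕ) (m : ℕ) (x : E) : S.F p m x ≤ 1 := Fk_le_one _ p m x

lemma F_leaf {p : List ℕ} {m : ℕ} (h : S.Leaf p m) (x : E) : S.F p m x = S.De p m x := by
  have : Module.finrank ℝ E ≠ 0 := by have := S.hd2; omega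
  obtain ⟨n, hn⟩ := Nat.exists_eq_succ_of_ne_zero this
  unfold F
  rw [hn, Fk, if_pos h]

open Classical in
/-- **unfolding of the field mass, one level** -/
theorem F_node {p : List ℕ} {m : ℕ} (hm : S.mv.tm m < S.T) (h : ¬ S.Leaf p m) (x : E) :
    S.F p m x = fib (S.W p m) (fun y =>
      if y ∈ S.Z (S.kl p m x :: p) m then 1
      else trE (ENNReal.ofReal (S.M + 1) * S.A (S.kl p m x :: p) m y)
        (S.F (S.kl p m x :: p) m y)) x := by
  have : Module.finrank ℝ E ≠ 0 := by have := S.hd2; omega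
  obtain ⟨n, hn⟩ := Nat.exists_eq_succ_of_ne_zero this
  unfold F
  rw [hn, Nat.succ_eq_add_one]
  conv_lhs => rw [Fk, if_neg h]
  congr 1
  funext y
  split_ifs with hy
  · rfl
  · rw [Fk_stable hm (by rw [hn, List.length_cons]; omega)]

end Vale.Agent.P262.M2.Sys
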