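import Vale.Agent.P262.M2.Fld
import Vale.Agent.P262.H654.CapS
import Vale.Agent.P262.H752.StarF2

/-!
# P262, milestone 2: the field is close to the body

`Fr`, `F` against the plain deficit at every label which is not killed, every node.
-/

set_option linter.all false

open MeasureTheory ProbabilityTheory Set
open scoped ENNReal RealInnerProductSpace
open Vale.Agent.P262.H395 (fib mix Inv)
open Vale.Agent.P262.H654 (fr Bd)
open Vale.Agent.P262.H847 (UI)

namespace Vale.Agent.P262.M2.Sys

variable {E : Type*} [NormedAddCommGroup E] [InnerProductSpace ℝ E] [FiniteDimensional ℝ E]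
  [MeasurableSpace E] [BorelSpace E] {S : Sys E}

/-- the plain deficit is the mean of the payoff -/
lemma De_eq_fr (p : List ℕ) (m : ℕ) (x : E) :
    S.De p m x = ENNReal.ofReal (fr (S.W p m) (S.pf p m) x) := (S.ofReal_fr_pf _ p m x).symm

section close

variable (hε : 2 * (Real.sqrt 2 * Real.exp (-(S.qq / 4))) ≤ 1 / 2) (hk : S.kp 1 ≤ 1 / 2)
  (hA : 16 * (S.M + 1) * S.kp 1 ≤ 1) {m : ℕ} (hm : m ≤ S.mT) {p : List ℕ} {x : E}
  (hx : x ∉ S.Z p m)
include hε hk hA hm hx

/-- **closeness**, mean of the distance -/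
theorem fr_close_A : fr (S.W p m) (fun y => |S.pf p m y - S.fld p m y|) x
    ≤ (S.A p m x).toReal / 4 := by
  have hA0 : 0 ≤ (S.A p m x).toReal := ENNReal.toReal_nonneg
  by_cases hl : S.Leaf p m
  · have e : (fun y => |S.pf p m y - S.fld p m y|) = fun _ => (0 : ℝ) := by
      funext y
      rw [fld_leaf (S.labOK hm) hm hl, sub_self, abs_zero]
    rw [e, H654.fr_const]
    positivity
  · have h1 := fr_close hε hk hm hx
    have h2 : S.kp (S.kdm (S.kl p m x :: p) m) ≤ S.kp 1 :=
      kp_anti (one_le_kdm _ (S.tm_lt_f hm) hl)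
    have h3 := S.cf_nonneg m p x
    have h4 : 4 * S.kp (S.kdm (S.kl p m x :: p) m) * S.cf m p x ≤ 4 * S.kp 1 * S.cf m p x := by
      gcongr
    refine h1.trans (h4.trans ?_)
    unfold cf
    nlinarith

/-- **closeness**, real masses -/
theorem abs_Fr_sub_le : |S.Fr p m x - fr (S.W p m) (S.pf p m) x| ≤ (S.A p m x).toReal / 4 := by
  have hL := S.labOK hm
  have u := hL.fld_UI (p := p)
  have u' := S.pf_UI p m
  refine le_trans ?_ (fr_close_A hε hk hA hm hx)
  have e : S.Fr p m x - fr (S.W p m) (S.pf p m) x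
      = fr (S.W p m) (fun y => S.fld p m y - S.pf p m y) x :=
    (H654.fr_sub (Bd.of_UI u) (Bd.of_UI u') x).symm
  rw [e]
  refine (H654.abs_fr_le _ x).trans (le_of_eq ?_)
  congr 1
  funext y
  exact abs_sub_comm _ _

/-- **closeness**, extended masses -/
theorem close_F : (S.F p m x - S.De p m x) + (S.De p m x - S.F p m x) ≤ S.A p m x / 4 := by
  have hL := S.labOK hm
  have h1 := abs_Fr_sub_le hε hk hA hm hx
  have h2 : (S.F p m x - S.De p m x) + (S.De p m x - S.F p m x)
      = ENNReal.ofReal |S.Fr p m x - fr (S.W p m) (S.pf p m) x| := by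
    rw [hL.F_eq, De_eq_fr]
    exact H752.ed_ofReal (hL.Fr_UI.nonneg x) ((H654.UI.fr (S.pf_UI p m) (S.W p m)).nonneg x)
  rw [h2]
  refine (ENNReal.ofReal_le_ofReal h1).trans (le_of_eq ?_)
  rw [ENNReal.ofReal_div_of_pos (by norm_num), ENNReal.ofReal_toReal (S.A_ne_top p m x)]
  norm_num

theorem F_le_De : S.F p m x ≤ S.De p m x + S.A p m x / 4 := by
  have h := close_F hε hk hA hm hx
  have h1 : S.F p m x - S.De p m x ≤ S.A p m x / 4 := le_self_add.trans h
  rw [add_comm]
  exact tsub_le_iff_right.1 h1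

theorem De_le_F : S.De p m x ≤ S.F p m x + S.A p m x / 4 := by
  have h := close_F hε hk hA hm hx
  have h1 : S.De p m x - S.F p m x ≤ S.A p m x / 4 := le_add_self.trans h
  rw [add_comm]
  exact tsub_le_iff_right.1 h1

/-- the form of 44's window lemma -/
theorem dst_close : fib (S.W p m) (fun y => ENNReal.ofReal |S.fld p m y - S.pf p m y|) x
    ≤ S.A p m x / 4 := by
  have hL := S.labOK hm
  have hu := H752.UI.dist (hL.fld_UI (p := p)) (S.pf_UI p m)
  rw [H752.fib_ofReal hu]
  have h1 := fr_close_A hε hk hA hm hx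
  have e : fr (S.W p m) (fun y => |S.fld p m y - S.pf p m y|) x
      = fr (S.W p m) (fun y => |S.pf p m y - S.fld p m y|) x := by
    congr 1
    funext y
    exact abs_sub_comm _ _
  rw [e]
  refine (ENNReal.ofReal_le_ofReal h1).trans (le_of_eq ?_)
  rw [ENNReal.ofReal_div_of_pos (by norm_num), ENNReal.ofReal_toReal (S.A_ne_top p m x)]
  norm_num

end close

end Vale.Agent.P262.M2.Sys
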