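import Vale.Agent.P262.M2.Price

/-!
# P262, milestone 2: the interface Props for the concrete price array

Every Prop of `M2.Blocks` about the price array `GG Gi` follows from the same Prop about the part of
the price it sees: `Gst` (stars), `Gi` (inner rotations), `L1f` (outer rotations, reopenings).
-/

set_option linter.all false

open MeasureTheory ProbabilityTheory Set
open scoped ENNReal RealInnerProductSpace
open Vale.Agent.P262.H395 (fib mix Inv measurable_fib fib_mono inv_fib fib_add)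
open Vale.Agent.P262.H847 (UI)

namespace Vale.Agent.P262.M2.Sys

variable {E : Type*} [NormedAddCommGroup E] [InnerProductSpace ℝ E] [FiniteDimensional ℝ E]
  [MeasurableSpace E] [BorelSpace E] {S : Sys E} {Gi : List ℕ → ℕ → E → ℝ≥0∞} {p : List ℕ} {m : ℕ}

/-- the fields of nodes which are not related to the rotating node do not change -/
lemma L1f_eq_zero (h : S.mv.IsRot m) (hm : m < S.mT) (h1 : ¬ S.mv.jj m <:+ p)
    (h2 : ¬ p <:+ S.mv.jj m) (x : E) : S.L1f p m x = 0 := by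
  unfold L1f
  have e : (fun y => ENNReal.ofReal |S.fld p (m + 1) y - S.fld p m y|) = fun _ : E => (0 : ℝ≥0∞) := by
    funext y
    rw [rot_not_fld h hm h1 (fun h' => h2 ((List.suffix_cons _ _).trans h'))]
    simp
  rw [e]
  exact H395.fib_const _ _ _

lemma GG_rot_zero (h : S.mv.IsRot m) (hm : m < S.mT) (h1 : ¬ S.mv.jj m <:+ p)
    (h2 : ¬ p <:+ S.mv.jj m) (x : E) : S.GG Gi p m x = 0 := by
  rw [GG_rot hm h (fun h' => h2 h'.1)]
  exact L1f_eq_zero h hm h1 h2 x

/-- at levels above the rotating node the price is at most `Gi` -/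
lemma GG_in_le (h : S.mv.IsRot m) (hm : m < S.mT) (hp : p.length < (S.mv.jj m).length) (x : E) :
    S.GG Gi p m x ≤ Gi p m x := by
  by_cases h2 : p <:+ S.mv.jj m
  · rw [GG_in hm ⟨h, h2, fun h' => by rw [h'] at hp; exact lt_irrefl _ hp⟩]
  · rw [GG_rot_zero h hm (fun h' => absurd h'.length_le (not_le.2 hp)) h2]
    exact zero_le

/-! ### one move -/

lemma Pt_congr {G G' : List ℕ → ℕ → E → ℝ≥0∞} (l m : ℕ)
    (h : ∀ p : List ℕ, p.length = l → ∀ x, G p m x ≤ G' p m x) : S.Pt G l m ≤ S.Pt G' l m := by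
  unfold Pt
  refine lintegral_mono fun x => ?_
  gcongr
  exact h _ (length_nd m x l) x

lemma Pt_GG_in (h : S.mv.IsRot m) (hm : m < S.mT) {l : ℕ} (hl : l < (S.mv.jj m).length) :
    S.Pt (S.GG Gi) l m ≤ S.Pt Gi l m :=
  Pt_congr l m fun p hp x => GG_in_le h hm (hp ▸ hl) x

lemma Pt_GG_out (h : S.mv.IsRot m) (hm : m < S.mT) {l : ℕ} (hl : (S.mv.jj m).length ≤ l) :
    S.Pt (S.GG Gi) l m ≤ S.Pt S.L1f l m :=
  Pt_congr l m fun p hp x => by rw [GG_out hm h (hp ▸ hl)]

lemma Pt_GG_re (h : S.mv.IsRe m) (hm : m < S.mT) (l : ℕ) :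
    S.Pt (S.GG Gi) l m ≤ S.Pt S.L1f l m :=
  Pt_congr l m fun p hp x => by rw [GG_re hm h]

lemma Rt_GG (j : ℕ) : S.Rt (S.GG Gi) j = S.Rt S.Gst j := by
  classical
  unfold Rt
  refine Finset.sum_congr rfl fun m hm => ?_
  by_cases h : S.mv.IsStar m
  · rw [if_pos h, if_pos h]
    refine lintegral_congr fun x => ?_
    rw [GG_star (Finset.mem_range.1 hm) h]
  · rw [if_neg h, if_neg h]

/-! ### the Props -/

theorem ROTI_GG {H : ℕ → E → ℝ≥0∞} {C a : ℝ} (h : S.ROTI Gi H C a) : S.ROTI (S.GG Gi) H C a :=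
  fun m hm hr j hj l hl => (Pt_GG_in hr hm (by omega)).trans (h m hm hr j hj l hl)

theorem ROTO_GG {C a : ℝ} (h : S.ROTO S.L1f C a) : S.ROTO (S.GG Gi) C a :=
  fun m hm hr j hj l hl hl' => (Pt_GG_out hr hm (by omega)).trans (h m hm hr j hj l hl hl')

theorem REO_GG {ep b : ℝ} (h : S.REO S.L1f ep b) : S.REO (S.GG Gi) ep b := by
  classical
  intro l hl
  refine le_trans ?_ (h l hl)
  refine Finset.sum_le_sum fun m hm => ?_
  by_cases hr : S.mv.IsRe m
  · rw [if_pos hr, if_pos hr]; exact Pt_GG_re hr (Finset.mem_range.1 hm) l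
  · rw [if_neg hr, if_neg hr]

theorem STARF_GG {C : ℝ} (h : S.STARF S.Gst C) : S.STARF (S.GG Gi) C := by
  intro j hj m hm hs
  have e : (fun x => iw (S.omj j m) x * (S.sw (S.nd m x j) m x * S.GG Gi (S.nd m x j) m x))
      = fun x => iw (S.omj j m) x * (S.sw (S.nd m x j) m x * S.Gst (S.nd m x j) m x) := by
    funext x
    rw [GG_star hm hs]
  rw [e]
  exact h j hj m hm hs

end Vale.Agent.P262.M2.Sys
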