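import Vale.Agent.P262.M2.Cls

/-!
# P262, milestone 2: the interface of the blocks

`G p m x` = price of the move `m` at the label `x` of the node `p` (abstract array; the concrete one
is built from the fields), `H m x` = moment of the hidden part carried by the rotation `m`.
-/

set_option linter.all false

open MeasureTheory ProbabilityTheory Set
open scoped ENNReal RealInnerProductSpace
open Vale.Agent.P262.H118 (Iv st en K2 El2 paths)
open Vale.Agent.P262.H274 (Slow Cost)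
open Vale.Agent.P262.H395 (fib Inv)

namespace Vale.Agent.P262.M2.Sys

variable {E : Type*} [NormedAddCommGroup E] [InnerProductSpace ℝ E] [FiniteDimensional ℝ E]
  [MeasurableSpace E] [BorelSpace E] (S : Sys E)

/-- number of levels -/
noncomputable def nl (_ : Sys E) : ℕ := Module.finrank ℝ E

/-- counted non leaf labels of level `j` (all ancestors counted, the label itself counted) -/
def omj (j m : ℕ) : Set E := S.NL j m ∩ S.OL j m ∩ {x | x ∈ S.om (S.nd m x j) m}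

/-- the move `m` is inside the block of the label of level `j` -/
def inn (j m : ℕ) : Set E := {x | m < S.be (S.nd m x j) m x}

/-- `m` is the first or the last state of the block of the label of level `j` -/
def edg (j m : ℕ) : Set E := {x | S.bs (S.nd m x j) m x = m ∨ S.be (S.nd m x j) m x = m}

/-- `|F - D|` -/
noncomputable def hf (p : List ℕ) (m : ℕ) (x : E) : ℝ≥0∞ :=
  (S.F p m x - S.De p m x) + (S.De p m x - S.F p m x)

/-- weight of a move: the slope at the larger of the two masses -/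
noncomputable def sw (p : List ℕ) (m : ℕ) (x : E) : ℝ≥0∞ :=
  S.slp p m x (max (S.F p m x) (S.F p (m + 1) x))

/-- the same -/
noncomputable abbrev slm (p : List ℕ) (m : ℕ) (x : E) : ℝ≥0∞ := S.sw p m x

/-! ### totals of one level -/

open Classical in
/-- **`R_j`**: star activity -/
noncomputable def Rt (G : List ℕ → ℕ → E → ℝ≥0∞) (j : ℕ) : ℝ≥0∞ :=
  ∑ m ∈ Finset.range S.mT, if S.mv.IsStar m then
    ∫⁻ x, iw (S.omj j m) x * (S.sw (S.nd m x j) m x *
      G (S.nd m x j) m x) ∂stdGaussian E else 0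


/-- price of one move at level `j`, integrated over the counted labels whose block continues -/
noncomputable def Pt (G : List ℕ → ℕ → E → ℝ≥0∞) (j m : ℕ) : ℝ≥0∞ :=
  ∫⁻ x, iw (S.omj j m ∩ S.inn j m) x * (S.sw (S.nd m x j) m x *
      G (S.nd m x j) m x) ∂stdGaussian E

/-- the ends of the counted blocks of level `j` -/
noncomputable def Et (j : ℕ) : ℝ≥0∞ :=
  ∑ m ∈ Finset.range (S.mT + 1), ∫⁻ x, iw (S.omj j m ∩ S.edg j m) x *
    (S.slp (S.nd m x j) m x (S.De (S.nd m x j) m x) * S.hf (S.nd m x j) m x) ∂stdGaussian E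

open Classical in
/-- **`I_j`**: prices of the rotations and reopenings, ends of the blocks -/
noncomputable def It (G : List ℕ → ℕ → E → ℝ≥0∞) (j : ℕ) : ℝ≥0∞ :=
  (∑ m ∈ Finset.range S.mT, if S.mv.IsStar m then 0 else S.Pt G j m) + S.Et j

/-! ### rotations: throughput -/

/-- labels through the rotating node: level `j` of the path is the node which rotates -/
def thru (j m : ℕ) : Set E := {x | S.nd m x j = S.mv.jj m}

/-- not killed and not a leaf at the levels `j ≤ k < i` -/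
def alj (j i m : ℕ) : Set E :=
  {x | ∀ k, j ≤ k → k < i → x ∉ S.Z (S.nd m x k) m ∧ ¬ S.Leaf (S.nd m x k) m}

/-- change of the body, weighted with the slope -/
noncomputable def xd (p : List ℕ) (m : ℕ) (x : E) : ℝ≥0∞ :=
  (S.A p m x / max (S.A p m x) (S.Dc p m x)) ^ S.th * S.Dl p m x

/-- **throughput** at level `i` of the rotation `m` of a node of level `j ≤ i` -/
noncomputable def thq (j i m : ℕ) : ℝ≥0∞ :=
  ∫⁻ x, iw (S.thru j m ∩ S.OL j m ∩ S.alj j i m) x * S.xd (S.nd m x i) m x ∂stdGaussian E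

open Classical in
/-- `√(1 - log D*)` at classes `≥ 1` -/
noncomputable def sl (p : List ℕ) (m : ℕ) (x : E) : ℝ≥0∞ :=
  if S.kl p m x = 0 then 1 else ENNReal.ofReal (Real.sqrt (1 - Real.log (S.Db p m x).toReal))

/-- inverse of the relative class constant -/
noncomputable def s2 (p : List ℕ) (m : ℕ) (x : E) : ℝ≥0∞ := 2 ^ S.kl p m x

/-- right side of the throughput at the label of level `j`, parent of the rotating node -/
noncomputable def Rw (j m : ℕ) : ℝ≥0∞ :=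
  ∫⁻ x, iw (S.thru (j + 1) m ∩ S.OL (j + 1) m) x *
    (S.As S.th (S.nd m x j) m x * S.psi (S.nd m x j) m x * S.s2 (S.nd m x j) m x) ∂stdGaussian E

/-- the same with `√(1 - log D*)` in place of `2 ^ kl` -/
noncomputable def RwS (j m : ℕ) : ℝ≥0∞ :=
  ∫⁻ x, iw (S.thru (j + 1) m ∩ S.OL (j + 1) m) x *
    (S.As S.th (S.nd m x j) m x * S.psi (S.nd m x j) m x * S.sl (S.nd m x j) m x) ∂stdGaussian E

/-- moment of the hidden part of the rotating node -/
noncomputable def Hw (H : ℕ → E → ℝ≥0∞) (j m : ℕ) : ℝ≥0∞ :=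
  ∫⁻ x, iw (S.thru j m ∩ S.OL j m) x * H m x ∂stdGaussian E

/-- own dimension of the rotating node -/
noncomputable def kr (m : ℕ) : ℕ := S.K.kd (S.mv.jj m) (S.mv.tm m)

/-- **(THR)**, all classes (parent of class `≥ 1`: 837 / 962; parent of class `0`: 431) -/
def THR (CT lam : ℝ) : Prop := ∀ m < S.mT, S.mv.IsRot m → ∀ j, (S.mv.jj m).length = j + 1 →
  ∀ i, j + 1 ≤ i → i ≤ S.nl →
    S.thq (j + 1) i m ≤ ENNReal.ofReal (CT * S.mv.ph m * lam ^ (S.kr m + (i - (j + 1)))) * S.Rw j m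

/-- (THR), parent of class `≥ 1` -/
def THRp (CT lam : ℝ) : Prop := ∀ m < S.mT, S.mv.IsRot m → ∀ c p, S.mv.jj m = c :: p → c ≠ 0 →
  ∀ i, p.length + 1 ≤ i → i ≤ S.nl →
    S.thq (p.length + 1) i m ≤
      ENNReal.ofReal (CT * S.mv.ph m * lam ^ (S.kr m + (i - (p.length + 1)))) * S.Rw p.length m

/-- (THR), parent of class `0` -/
def THR0 (CT lam : ℝ) : Prop := ∀ m < S.mT, S.mv.IsRot m → ∀ p, S.mv.jj m = 0 :: p →
  ∀ i, p.length + 1 ≤ i → i ≤ S.nl →
    S.thq (p.length + 1) i m ≤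
      ENNReal.ofReal (CT * S.mv.ph m * lam ^ (S.kr m + (i - (p.length + 1)))) * S.Rw p.length m

theorem THR_of {CT lam : ℝ} (h1 : S.THRp CT lam) (h0 : S.THR0 CT lam) : S.THR CT lam := by
  intro m hm hr j hj i hi hi'
  obtain ⟨c, p, hp⟩ : ∃ c p, S.mv.jj m = c :: p := by
    rcases h : S.mv.jj m with _ | ⟨c, p⟩
    · rw [h] at hj; simp at hj
    · exact ⟨c, p, rfl⟩
  have hl : p.length = j := by rw [hp] at hj; simpa using hj
  subst hl
  rcases eq_or_ne c 0 with rfl | hc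
  · exact h0 m hm hr p hp i hi hi'
  · exact h1 m hm hr c p hp hc i hi hi'

/-- **(HMOM)**: moment of the hidden part -/
def HMOM (H : ℕ → E → ℝ≥0∞) (CT lam : ℝ) : Prop := ∀ m < S.mT, S.mv.IsRot m → ∀ j,
  (S.mv.jj m).length = j + 1 →
    S.Hw H (j + 1) m ≤ ENNReal.ofReal (CT * S.mv.ph m * lam ^ S.kr m) * S.Rw j m

/-- **(ROTI)**: inner rotations, level `l` of the observer above the rotating node -/
def ROTI (G : List ℕ → ℕ → E → ℝ≥0∞) (H : ℕ → E → ℝ≥0∞) (C a : ℝ) : Prop :=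
  ∀ m < S.mT, S.mv.IsRot m → ∀ j, (S.mv.jj m).length = j + 1 → ∀ l ≤ j,
    S.Pt G l m ≤ ENNReal.ofReal (C * a ^ (j + 1 - l)) * S.Hw H (j + 1) m +
      ∑ i ∈ Finset.Icc (j + 1) S.nl, ENNReal.ofReal (C * a ^ (i - l)) * S.thq (j + 1) i m

/-- **(ROTO)**: outer rotations -/
def ROTO (G : List ℕ → ℕ → E → ℝ≥0∞) (C a : ℝ) : Prop :=
  ∀ m < S.mT, S.mv.IsRot m → ∀ j, (S.mv.jj m).length = j + 1 → ∀ l, j + 1 ≤ l → l < S.nl →
    S.Pt G l m ≤ ∑ i ∈ Finset.Icc l S.nl, ENNReal.ofReal (C * a ^ (i - l)) * S.thq (j + 1) i m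

open Classical in
/-- **(REO)**: reopenings, summed -/
def REO (G : List ℕ → ℕ → E → ℝ≥0∞) (ep b : ℝ) : Prop := ∀ l < S.nl,
  (∑ m ∈ Finset.range S.mT, if S.mv.IsRe m then S.Pt G l m else 0) ≤
    ENNReal.ofReal ep * ∑ i ∈ Finset.Ico l S.nl, ENNReal.ofReal (b ^ (i - l)) * S.Ut i

/-- **(CVG)**: ends of the blocks, summed -/
def CVG (ep b : ℝ) : Prop := ∀ l < S.nl,
  S.Et l ≤ ENNReal.ofReal ep * ∑ i ∈ Finset.Ico l S.nl, ENNReal.ofReal (b ^ (i - l)) * S.Ut i

/-- **(CONS)** -/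
def CONS (kp : ℝ) : Prop := ∀ l, l + 1 < S.nl → S.Bt (l + 1) ≤ ENNReal.ofReal kp * S.Ut l

/-- **(IB)** -/
def IB (G : List ℕ → ℕ → E → ℝ≥0∞) (ep b k2 : ℝ) : Prop := ∀ l < S.nl,
  S.It G l ≤ ENNReal.ofReal ep * ∑ i ∈ Finset.Ico l S.nl, ENNReal.ofReal (b ^ (i - l)) * S.Ut i +
    ENNReal.ofReal ep * ∑ i ∈ Finset.range l, ENNReal.ofReal (k2 ^ (l - i)) * S.Ut i

/-! ### the field side -/

/-- **(MOVE)** -/
def MOVE (G : List ℕ → ℕ → E → ℝ≥0∞) : Prop := ∀ j < S.nl, ∀ m < S.mT,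
  ∀ x ∈ S.omj j m ∩ S.inn j m,
    S.F (S.nd m x j) m x ≤ S.F (S.nd m x j) (m + 1) x + G (S.nd m x j) m x ∧
    S.F (S.nd m x j) (m + 1) x ≤ S.F (S.nd m x j) m x + G (S.nd m x j) m x

/-- **(CLOSE)** -/
def CLOSE : Prop := ∀ j < S.nl, ∀ m ≤ S.mT, ∀ x, x ∉ S.Z (S.nd m x j) m →
  S.hf (S.nd m x j) m x ≤ S.A (S.nd m x j) m x / 4

/-- slope of the potential, real -/
noncomputable def slpR (p : List ℕ) (m : ℕ) (x : E) (s : ℝ) : ℝ :=
  ((S.A p m x).toReal / max (S.A p m x).toReal (min s (1 / 8))) ^ S.th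

/-- the potential `Ψ(s) = ∫_0^s slope` -/
noncomputable def PsiE (p : List ℕ) (m : ℕ) (x : E) (s : ℝ≥0∞) : ℝ≥0∞ :=
  ENNReal.ofReal (∫ y in (0 : ℝ)..s.toReal, S.slpR p m x y)

/-- **(STARF)**: one star move, integrated over the counted labels of level `j` -/
def STARF (G : List ℕ → ℕ → E → ℝ≥0∞) (C : ℝ) : Prop := ∀ j < S.nl, ∀ m < S.mT, S.mv.IsStar m →
  ∫⁻ x, iw (S.omj j m) x * (S.sw (S.nd m x j) m x *
      G (S.nd m x j) m x) ∂stdGaussian E +
    ENNReal.ofReal C * ∫⁻ x, iw (S.omj j m) x *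
      S.PsiE (S.nd m x j) m x (S.F (S.nd m x j) (m + 1) x) ∂stdGaussian E ≤
  ENNReal.ofReal C * ∫⁻ x, iw (S.omj j m) x *
      S.PsiE (S.nd m x j) m x (S.F (S.nd m x j) m x) ∂stdGaussian E

/-- total weighted price of the block of the label -/
noncomputable def blkG (G : List ℕ → ℕ → E → ℝ≥0∞) (p : List ℕ) (m : ℕ) (x : E) : ℝ≥0∞ :=
  ∑ k ∈ Finset.Ico (S.bs p m x) (S.be p m x), S.sw p k x * G p k x

/-- **(LBL2)**: the unit of a counted block is paid by the prices of its moves, or the block is the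
last one of its life (incomplete) and it is paid by the entrance as well -/
def LBL2 (G : List ℕ → ℕ → E → ℝ≥0∞) (KU : ℝ) : Prop := ∀ j < S.nl, ∀ m < S.mT, ∀ x ∈ S.omj j m,
  S.un (S.nd m x j) m x ≤ ENNReal.ofReal KU * S.blkG G (S.nd m x j) m x ∨
  (S.be (S.nd m x j) m x = S.l1 (S.nd m x j) m ∧
    S.un (S.nd m x j) m x ≤ ENNReal.ofReal KU * (S.As S.th (S.nd m x j) m x *
      min (max (S.A (S.nd m x j) m x) (S.De (S.nd m x j) (S.bs (S.nd m x j) m x) x) ^ (1 - S.th))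
        (S.q (S.nd m x j) (S.l1 (S.nd m x j) m) x)) +
      ENNReal.ofReal KU * S.blkG G (S.nd m x j) m x)

end Vale.Agent.P262.M2.Sys
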