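import Vale.Agent.P262.M2.SumRot2
import Vale.Agent.P262.M2.Nodes

/-!
# P262, milestone 2: from the blocks to the bound of the prices (IB)
-/

set_option linter.all false

open MeasureTheory ProbabilityTheory Set
open scoped ENNReal RealInnerProductSpace
open Vale.Agent.P262.H118 (Iv st en K2 El2 paths Cl cl_paths mem_paths iv_st iv_en)
open Vale.Agent.P262.H274 (Slow Cost)
open Vale.Agent.P262.H395 (fib Inv)

namespace Vale.Agent.P262.M2.Sys

variable {E : Type*} [NormedAddCommGroup E] [InnerProductSpace ℝ E] [FiniteDimensional ℝ E]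
  [MeasurableSpace E] [BorelSpace E] {S : Sys E}

lemma sum_lintegral_le {ι : Type*} (s : Finset ι) (f : ι → E → ℝ≥0∞) (μ : Measure E) :
    ∑ i ∈ s, ∫⁻ x, f i x ∂μ ≤ ∫⁻ x, ∑ i ∈ s, f i x ∂μ := by
  classical
  induction s using Finset.induction_on with
  | empty => simp
  | insert a s ha ih =>
    rw [Finset.sum_insert ha]
    refine (add_le_add_right ih _).trans ((le_lintegral_add _ _).trans (lintegral_mono fun x => ?_))
    rw [Finset.sum_insert ha]

lemma ofReal_mul_mul {A B : ℝ} (hA : 0 ≤ A) (R : ℝ≥0∞) :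
    ENNReal.ofReal A * (ENNReal.ofReal B * R) = ENNReal.ofReal (A * B) * R := by
  rw [← mul_assoc, ← ENNReal.ofReal_mul hA]

lemma iw_meas {s : Set E} (hs : MeasurableSet s) : Measurable (iw s) :=
  measurable_one.indicator hs

lemma measurableSet_start (j m : ℕ) : MeasurableSet (S.NL j m ∩ S.OL j m ∩
    {x | x ∈ S.om (S.nd m x j) m ∧ S.bs (S.nd m x j) m x = m}) := by
  refine ((measurableSet_NL j m).inter (measurableSet_OL j m)).inter ?_
  have h1 := measurableSet_nd (S := S) m j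
    (s := fun r => S.om r m ∩ {x | S.bs r m x = m}) fun r => by
      refine (measurableSet_om r m).inter ?_
      have h2 : {x | S.bs r m x = m} = ⋃ c ∈ {c : ℕ | S.mv.sS (S.K.B r c) m = m},
          {x | S.kl r m x = c} := by
        ext x
        simp only [mem_setOf_eq, mem_iUnion, exists_prop, exists_eq_right']
        rfl
      rw [h2]
      exact MeasurableSet.biUnion (Set.to_countable _) fun c _ => measurableSet_kl r m c
  exact h1

open Classical in
/-- **rotations of level `j + 1`** are paid by the units of level `j`. -/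
theorem rot_level {w : ℝ} (hw : 0 ≤ w) (hwρ : 3 * w ≤ S.ρ) (j : ℕ) :
    ∑ m ∈ Finset.range S.mT, (if S.mv.IsRot m ∧ (S.mv.jj m).length = j + 1 then
      ENNReal.ofReal (w ^ S.kr m * S.mv.ph m) * S.Rw j m else 0) ≤
    ENNReal.ofReal (2 * Real.pi * S.c0 / S.δ) * S.Ut j := by
  have h1 : ∀ m ∈ Finset.range S.mT, (if S.mv.IsRot m ∧ (S.mv.jj m).length = j + 1 then
      ENNReal.ofReal (w ^ S.kr m * S.mv.ph m) * S.Rw j m else 0) =
      ∫⁻ x, (if S.mv.IsRot m ∧ (S.mv.jj m).length = j + 1 then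
        ENNReal.ofReal (w ^ S.kr m * S.mv.ph m) * (iw (S.thru (j + 1) m ∩ S.OL (j + 1) m) x *
          S.rw1 (S.nd m x j) m x) else 0) ∂stdGaussian E := by
    intro m _
    split_ifs with h
    · rw [lintegral_const_mul' _ _ ENNReal.ofReal_ne_top]
      rfl
    · rw [lintegral_zero]
  rw [Finset.sum_congr rfl h1]
  refine (sum_lintegral_le _ _ _).trans ((lintegral_mono fun x => rot_point hw hwρ j x).trans ?_)
  rw [lintegral_const_mul' _ _ ENNReal.ofReal_ne_top]
  have hmeas : ∀ m ∈ Finset.range S.mT, Measurable fun x => iw (S.NL j m ∩ S.OL j m ∩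
      {x | x ∈ S.om (S.nd m x j) m ∧ S.bs (S.nd m x j) m x = m}) x * S.un (S.nd m x j) m x :=
    fun m _ => (iw_meas (measurableSet_start j m)).mul
      (measurable_nd m j (F := fun r x => S.un r m x) fun r => un_meas r m)
  rw [lintegral_finset_sum _ hmeas]
  exact le_rfl

/-- the own dimension of a rotating node is positive. -/
lemma one_le_kr {m : ℕ} (hm : m < S.mT) (hr : S.mv.IsRot m) : 1 ≤ S.kr m := by
  obtain ⟨c, p, hp⟩ := List.exists_cons_of_ne_nil (S.mv.rot_data hr).2.2.1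
  have h1 := not_leaf_of_rot hm hr hp
  unfold Sys.kr
  rw [hp]
  refine S.K.one_le_kd (tm_lt_mT hm) ?_
  unfold Sys.Leaf at h1
  show 2 ≤ Module.finrank ℝ (S.W p m)ᗮ
  omega

lemma geo_le {a lam : ℝ} (h0 : 0 ≤ a * lam) (h : a * lam ≤ 1 / 2) (n : ℕ) :
    ∑ k ∈ Finset.range n, (a * lam) ^ k ≤ 2 := by
  have h1 : ∑ k ∈ Finset.range n, (a * lam) ^ k ≤ ∑ k ∈ Finset.range n, (1 / 2 : ℝ) ^ k :=
    Finset.sum_le_sum fun k _ => pow_le_pow_left₀ h0 h k
  refine h1.trans ?_
  rw [geom_sum_eq (by norm_num)]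
  have h8 : (0 : ℝ) ≤ (1 / 2) ^ n := by positivity
  rw [div_le_iff_of_neg (by norm_num)]
  linarith

section moves

variable {G : List ℕ → ℕ → E → ℝ≥0∞} {H : ℕ → E → ℝ≥0∞} {C a CT w : ℝ}

/-- inner rotations, one move. -/
theorem inner_le (hI : S.ROTI G H C a) (hH : S.HMOM H CT (w ^ 4)) (hT : S.THR CT (w ^ 4))
    (hC : 0 ≤ C) (ha : 0 ≤ a) (hCT : 0 ≤ CT) (hw : 0 ≤ w) (hw1 : w ≤ 1) (haw : a * w ^ 4 ≤ 1 / 2)
    {m : ℕ} (hm : m < S.mT) (hr : S.mv.IsRot m) {j : ℕ} (hj : (S.mv.jj m).length = j + 1) {l : ℕ}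
    (hl : l ≤ j) :
    S.Pt G l m ≤ ENNReal.ofReal (3 * C * CT * a * w * a ^ (j - l)) *
      (ENNReal.ofReal (w ^ S.kr m * S.mv.ph m) * S.Rw j m) := by
  have hph := S.mv.ph_nonneg m
  have hk := one_le_kr hm hr
  have hw4 : (0 : ℝ) ≤ w ^ 4 := by positivity
  have h1 := hI m hm hr j hj l hl
  have h2 := hH m hm hr j hj
  have h3 : ∀ i ∈ Finset.Icc (j + 1) S.nl, ENNReal.ofReal (C * a ^ (i - l)) * S.thq (j + 1) i m ≤
      ENNReal.ofReal (C * a ^ (i - l) *
        (CT * S.mv.ph m * (w ^ 4) ^ (S.kr m + (i - (j + 1))))) * S.Rw j m := by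
    intro i hi
    rw [Finset.mem_Icc] at hi
    refine (mul_le_mul_right (hT m hm hr j hj i hi.1 hi.2) _).trans (le_of_eq ?_)
    rw [ofReal_mul_mul (by positivity)]
  have h4 : S.Pt G l m ≤ ENNReal.ofReal (C * a ^ (j + 1 - l) *
      (CT * S.mv.ph m * (w ^ 4) ^ S.kr m)) * S.Rw j m +
      ENNReal.ofReal (∑ i ∈ Finset.Icc (j + 1) S.nl, C * a ^ (i - l) *
        (CT * S.mv.ph m * (w ^ 4) ^ (S.kr m + (i - (j + 1))))) * S.Rw j m := by
    refine h1.trans (add_le_add ?_ ?_)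
    · refine (mul_le_mul_right h2 _).trans (le_of_eq ?_)
      rw [ofReal_mul_mul (by positivity)]
    · refine (Finset.sum_le_sum h3).trans (le_of_eq ?_)
      rw [← Finset.sum_mul, ENNReal.ofReal_sum_of_nonneg fun i _ => by positivity]
  refine h4.trans ?_
  rw [← add_mul, ← ENNReal.ofReal_add (by positivity)
    (Finset.sum_nonneg fun i _ => by positivity), ofReal_mul_mul (by positivity)]
  refine mul_le_mul_left (ENNReal.ofReal_le_ofReal ?_) _
  -- real inequality
  have h5 : ∑ i ∈ Finset.Icc (j + 1) S.nl, C * a ^ (i - l) *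
      (CT * S.mv.ph m * (w ^ 4) ^ (S.kr m + (i - (j + 1)))) ≤
      C * a ^ (j + 1 - l) * (CT * S.mv.ph m * (w ^ 4) ^ S.kr m) * 2 := by
    have h6 : ∀ i ∈ Finset.Icc (j + 1) S.nl, C * a ^ (i - l) *
        (CT * S.mv.ph m * (w ^ 4) ^ (S.kr m + (i - (j + 1)))) =
        C * a ^ (j + 1 - l) * (CT * S.mv.ph m * (w ^ 4) ^ S.kr m) *
          (a * w ^ 4) ^ (i - (j + 1)) := by
      intro i hi
      rw [Finset.mem_Icc] at hi
      have e1 : i - l = (j + 1 - l) + (i - (j + 1)) := by omega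
      rw [e1, pow_add, pow_add, mul_pow]
      ring
    rw [Finset.sum_congr rfl h6, ← Finset.mul_sum]
    refine mul_le_mul_of_nonneg_left ?_ (by positivity)
    have h7 : ∑ i ∈ Finset.Icc (j + 1) S.nl, (a * w ^ 4) ^ (i - (j + 1)) =
        ∑ k ∈ Finset.range (S.nl + 1 - (j + 1)), (a * w ^ 4) ^ k := by
      have : Finset.Icc (j + 1) S.nl = Finset.Ico (j + 1) (S.nl + 1) := by
        ext i; simp only [Finset.mem_Icc, Finset.mem_Ico]; omega
      rw [this, Finset.sum_Ico_eq_sum_range]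
      exact Finset.sum_congr rfl fun k _ => by rw [Nat.add_sub_cancel_left]
    rw [h7]
    exact geo_le (by positivity) haw _
  have h8 : (w ^ 4) ^ S.kr m ≤ w * w ^ S.kr m := by
    have h9 : (w ^ 4) ^ S.kr m = (w ^ S.kr m) ^ 3 * w ^ S.kr m := by
      rw [← pow_mul, ← pow_mul, ← pow_add]; congr 1; ring
    rw [h9]
    refine mul_le_mul_of_nonneg_right ?_ (by positivity)
    have h10 : w ^ S.kr m ≤ w := by
      calc w ^ S.kr m ≤ w ^ 1 := pow_le_pow_of_le_one hw hw1 hk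
        _ = w := pow_one w
    calc (w ^ S.kr m) ^ 3 ≤ w ^ 3 := pow_le_pow_left₀ (by positivity) h10 3
      _ ≤ w ^ 1 := pow_le_pow_of_le_one hw hw1 (by norm_num)
      _ = w := pow_one w
  have h11 : a ^ (j + 1 - l) = a * a ^ (j - l) := by
    rw [show j + 1 - l = (j - l) + 1 by omega, pow_succ]; ring
  have h12 : C * a ^ (j + 1 - l) * (CT * S.mv.ph m * (w ^ 4) ^ S.kr m) ≤
      C * a ^ (j + 1 - l) * (CT * S.mv.ph m * (w * w ^ S.kr m)) := by gcongr
  calc C * a ^ (j + 1 - l) * (CT * S.mv.ph m * (w ^ 4) ^ S.kr m) + _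
      ≤ C * a ^ (j + 1 - l) * (CT * S.mv.ph m * (w ^ 4) ^ S.kr m) * 3 := by linarith
    _ ≤ C * a ^ (j + 1 - l) * (CT * S.mv.ph m * (w * w ^ S.kr m)) * 3 := by linarith
    _ = 3 * C * CT * a * w * a ^ (j - l) * (w ^ S.kr m * S.mv.ph m) := by rw [h11]; ring

/-- outer rotations, one move. -/
theorem outer_le (hO : S.ROTO G C a) (hT : S.THR CT (w ^ 4))
    (hC : 0 ≤ C) (ha : 0 ≤ a) (hCT : 0 ≤ CT) (hw : 0 ≤ w) (hw1 : w ≤ 1) (haw : a * w ^ 4 ≤ 1 / 2)
    {m : ℕ} (hm : m < S.mT) (hr : S.mv.IsRot m) {j : ℕ} (hj : (S.mv.jj m).length = j + 1) {l : ℕ}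
    (hl : j + 1 ≤ l) (hln : l < S.nl) :
    S.Pt G l m ≤ ENNReal.ofReal (2 * C * CT * w * w ^ (l - j)) *
      (ENNReal.ofReal (w ^ S.kr m * S.mv.ph m) * S.Rw j m) := by
  have hph := S.mv.ph_nonneg m
  have hk := one_le_kr hm hr
  have hw4 : (0 : ℝ) ≤ w ^ 4 := by positivity
  have h1 := hO m hm hr j hj l hl hln
  have h3 : ∀ i ∈ Finset.Icc l S.nl, ENNReal.ofReal (C * a ^ (i - l)) * S.thq (j + 1) i m ≤
      ENNReal.ofReal (C * a ^ (i - l) *
        (CT * S.mv.ph m * (w ^ 4) ^ (S.kr m + (i - (j + 1))))) * S.Rw j m := by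
    intro i hi
    rw [Finset.mem_Icc] at hi
    refine (mul_le_mul_right (hT m hm hr j hj i (by omega) hi.2) _).trans (le_of_eq ?_)
    rw [ofReal_mul_mul (by positivity)]
  refine h1.trans ((Finset.sum_le_sum h3).trans ?_)
  rw [← Finset.sum_mul, ← ENNReal.ofReal_sum_of_nonneg fun i _ => by positivity,
    ofReal_mul_mul (by positivity)]
  refine mul_le_mul_left (ENNReal.ofReal_le_ofReal ?_) _
  have h5 : ∑ i ∈ Finset.Icc l S.nl, C * a ^ (i - l) *
      (CT * S.mv.ph m * (w ^ 4) ^ (S.kr m + (i - (j + 1)))) ≤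
      C * (CT * S.mv.ph m * (w ^ 4) ^ (S.kr m + (l - (j + 1)))) * 2 := by
    have h6 : ∀ i ∈ Finset.Icc l S.nl, C * a ^ (i - l) *
        (CT * S.mv.ph m * (w ^ 4) ^ (S.kr m + (i - (j + 1)))) =
        C * (CT * S.mv.ph m * (w ^ 4) ^ (S.kr m + (l - (j + 1)))) * (a * w ^ 4) ^ (i - l) := by
      intro i hi
      rw [Finset.mem_Icc] at hi
      have e1 : S.kr m + (i - (j + 1)) = (S.kr m + (l - (j + 1))) + (i - l) := by omega
      rw [e1, pow_add, mul_pow]
      ring
    rw [Finset.sum_congr rfl h6, ← Finset.mul_sum]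
    refine mul_le_mul_of_nonneg_left ?_ (by positivity)
    have h7 : ∑ i ∈ Finset.Icc l S.nl, (a * w ^ 4) ^ (i - l) =
        ∑ k ∈ Finset.range (S.nl + 1 - l), (a * w ^ 4) ^ k := by
      have : Finset.Icc l S.nl = Finset.Ico l (S.nl + 1) := by
        ext i; simp only [Finset.mem_Icc, Finset.mem_Ico]; omega
      rw [this, Finset.sum_Ico_eq_sum_range]
      exact Finset.sum_congr rfl fun k _ => by rw [Nat.add_sub_cancel_left]
    rw [h7]
    exact geo_le (by positivity) haw _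
  have h8 : (w ^ 4) ^ (S.kr m + (l - (j + 1))) ≤ w * w ^ (l - j) * w ^ S.kr m := by
    have h9 : w * w ^ (l - j) * w ^ S.kr m = w ^ (1 + (l - j) + S.kr m) := by
      rw [pow_add, pow_add, pow_one]
    rw [← pow_mul, h9]
    exact pow_le_pow_of_le_one hw hw1 (by omega)
  have h12 : C * (CT * S.mv.ph m * (w ^ 4) ^ (S.kr m + (l - (j + 1)))) ≤
      C * (CT * S.mv.ph m * (w * w ^ (l - j) * w ^ S.kr m)) := by gcongr
  calc _ ≤ C * (CT * S.mv.ph m * (w ^ 4) ^ (S.kr m + (l - (j + 1)))) * 2 := h5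
    _ ≤ C * (CT * S.mv.ph m * (w * w ^ (l - j) * w ^ S.kr m)) * 2 := by linarith
    _ = _ := by ring

open Classical in
/-- all rotations. -/
theorem rot_all (hI : S.ROTI G H C a) (hO : S.ROTO G C a) (hH : S.HMOM H CT (w ^ 4))
    (hT : S.THR CT (w ^ 4))
    (hC : 0 ≤ C) (ha : 0 ≤ a) (hCT : 0 ≤ CT) (hw : 0 ≤ w) (hw1 : w ≤ 1) (haw : a * w ^ 4 ≤ 1 / 2)
    (hwρ : 3 * w ≤ S.ρ) {l : ℕ} (hl : l < S.nl) :
    ∑ m ∈ Finset.range S.mT, (if S.mv.IsRot m then S.Pt G l m else 0) ≤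
      ENNReal.ofReal (3 * C * CT * a * w * (2 * Real.pi * S.c0 / S.δ)) *
        ∑ i ∈ Finset.Ico l S.nl, ENNReal.ofReal (a ^ (i - l)) * S.Ut i +
      ENNReal.ofReal (2 * C * CT * w * (2 * Real.pi * S.c0 / S.δ)) *
        ∑ i ∈ Finset.range l, ENNReal.ofReal (w ^ (l - i)) * S.Ut i := by
  have hpi := Real.pi_pos
  have hδ := S.hδ
  have hc0 := S.hc0
  -- split into levels
  have h1 : ∑ m ∈ Finset.range S.mT, (if S.mv.IsRot m then S.Pt G l m else 0) ≤
      ∑ j ∈ Finset.range S.nl, ∑ m ∈ Finset.range S.mT,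
        (if S.mv.IsRot m ∧ (S.mv.jj m).length = j + 1 then S.Pt G l m else 0) := by
    rw [Finset.sum_comm]
    refine Finset.sum_le_sum fun m hm => ?_
    split_ifs with hr
    · have hd := S.mv.rot_data hr
      obtain ⟨c, p, hp⟩ := List.exists_cons_of_ne_nil hd.2.2.1
      have hlen : (S.mv.jj m).length = p.length + 1 := by rw [hp, List.length_cons]
      have hpn : p.length < S.nl := by
        have := (mem_paths.1 hd.2.1).1
        unfold Sys.nl
        omega
      refine le_trans ?_ (Finset.single_le_sum (f := fun j =>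
        (if S.mv.IsRot m ∧ (S.mv.jj m).length = j + 1 then S.Pt G l m else 0))
        (fun _ _ => zero_le) (Finset.mem_range.2 hpn))
      show _ ≤ (if S.mv.IsRot m ∧ (S.mv.jj m).length = p.length + 1 then S.Pt G l m else 0)
      rw [if_pos ⟨hr, hlen⟩]
    · exact zero_le
  refine h1.trans ?_
  have h2 : Finset.range S.nl = Finset.range l ∪ Finset.Ico l S.nl := by
    ext i; simp only [Finset.mem_range, Finset.mem_union, Finset.mem_Ico]; omega
  rw [h2, Finset.sum_union (by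
    rw [Finset.disjoint_left]; intro i hi hi2
    rw [Finset.mem_range] at hi; rw [Finset.mem_Ico] at hi2; omega), add_comm]
  refine add_le_add ?_ ?_
  · rw [Finset.mul_sum]
    refine Finset.sum_le_sum fun j hj => ?_
    rw [Finset.mem_Ico] at hj
    have h3 : ∀ m ∈ Finset.range S.mT,
        (if S.mv.IsRot m ∧ (S.mv.jj m).length = j + 1 then S.Pt G l m else 0) ≤
        ENNReal.ofReal (3 * C * CT * a * w * a ^ (j - l)) *
          (if S.mv.IsRot m ∧ (S.mv.jj m).length = j + 1 then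
            ENNReal.ofReal (w ^ S.kr m * S.mv.ph m) * S.Rw j m else 0) := by
      intro m hm
      rw [Finset.mem_range] at hm
      split_ifs with h
      · exact inner_le hI hH hT hC ha hCT hw hw1 haw hm h.1 h.2 hj.1
      · exact zero_le
    refine (Finset.sum_le_sum h3).trans ?_
    rw [← Finset.mul_sum]
    refine (mul_le_mul_right (rot_level hw hwρ j) _).trans (le_of_eq ?_)
    rw [ofReal_mul_mul (by positivity), ofReal_mul_mul (by positivity)]
    congr 2
    ring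
  · rw [Finset.mul_sum]
    refine Finset.sum_le_sum fun j hj => ?_
    rw [Finset.mem_range] at hj
    have h3 : ∀ m ∈ Finset.range S.mT,
        (if S.mv.IsRot m ∧ (S.mv.jj m).length = j + 1 then S.Pt G l m else 0) ≤
        ENNReal.ofReal (2 * C * CT * w * w ^ (l - j)) *
          (if S.mv.IsRot m ∧ (S.mv.jj m).length = j + 1 then
            ENNReal.ofReal (w ^ S.kr m * S.mv.ph m) * S.Rw j m else 0) := by
      intro m hm
      rw [Finset.mem_range] at hm
      split_ifs with h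
      · exact outer_le hO hT hC ha hCT hw hw1 haw hm h.1 h.2 (by omega) hl
      · exact zero_le
    refine (Finset.sum_le_sum h3).trans ?_
    rw [← Finset.mul_sum]
    refine (mul_le_mul_right (rot_level hw hwρ j) _).trans (le_of_eq ?_)
    rw [ofReal_mul_mul (by positivity), ofReal_mul_mul (by positivity)]
    congr 2
    ring

/-- **(IB) from the blocks**. -/
theorem IB_of (hI : S.ROTI G H C a) (hO : S.ROTO G C a) (hH : S.HMOM H CT (w ^ 4))
    (hT : S.THR CT (w ^ 4)) {eR eC : ℝ} (hR : S.REO G eR a) (hE : S.CVG eC a)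
    (hC : 0 ≤ C) (ha : 1 ≤ a) (hCT : 0 ≤ CT) (hw : 0 ≤ w) (hw1 : w ≤ 1) (haw : a * w ^ 4 ≤ 1 / 2)
    (hwρ : 3 * w ≤ S.ρ) (heR : 0 ≤ eR) (heC : 0 ≤ eC) :
    S.IB G (3 * C * CT * a * w * (2 * Real.pi * S.c0 / S.δ) + eR + eC) a w := by
  classical
  intro l hl
  have hpi := Real.pi_pos
  have hδ := S.hδ
  have hc0 := S.hc0
  have h1 : ∑ m ∈ Finset.range S.mT, (if S.mv.IsStar m then 0 else S.Pt G l m) ≤
      ∑ m ∈ Finset.range S.mT, (if S.mv.IsRot m then S.Pt G l m else 0) +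
      ∑ m ∈ Finset.range S.mT, (if S.mv.IsRe m then S.Pt G l m else 0) := by
    rw [← Finset.sum_add_distrib]
    refine Finset.sum_le_sum fun m _ => ?_
    rcases S.mv.cases_move m with h | h | h
    · rw [if_pos h]; exact zero_le
    · rw [if_neg h.not_star, if_pos h]; exact le_self_add
    · rw [if_neg h.not_star, if_pos h]; exact le_add_self
  have h2 := rot_all hI hO hH hT hC (by linarith) hCT hw hw1 haw hwρ hl
  have h3 := hR l hl
  have h4 := hE l hl
  unfold Sys.It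
  set X := ∑ i ∈ Finset.Ico l S.nl, ENNReal.ofReal (a ^ (i - l)) * S.Ut i with hX
  set Y := ∑ i ∈ Finset.range l, ENNReal.ofReal (w ^ (l - i)) * S.Ut i with hY
  refine (add_le_add (h1.trans (add_le_add h2 h3)) h4).trans ?_
  have e1 : ENNReal.ofReal (3 * C * CT * a * w * (2 * Real.pi * S.c0 / S.δ) + eR + eC) =
      ENNReal.ofReal (3 * C * CT * a * w * (2 * Real.pi * S.c0 / S.δ)) + ENNReal.ofReal eR +
        ENNReal.ofReal eC := by
    rw [ENNReal.ofReal_add (by positivity) heC, ENNReal.ofReal_add (by positivity) heR]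
  have e2 : ENNReal.ofReal (2 * C * CT * w * (2 * Real.pi * S.c0 / S.δ)) ≤
      ENNReal.ofReal (3 * C * CT * a * w * (2 * Real.pi * S.c0 / S.δ) + eR + eC) := by
    apply ENNReal.ofReal_le_ofReal
    have h5 : 2 * C * CT * w * (2 * Real.pi * S.c0 / S.δ) ≤
        3 * C * CT * a * w * (2 * Real.pi * S.c0 / S.δ) := by
      have h6 : 0 ≤ C * CT * w * (2 * Real.pi * S.c0 / S.δ) := by positivity
      nlinarith
    linarith
  calc _ = (ENNReal.ofReal (3 * C * CT * a * w * (2 * Real.pi * S.c0 / S.δ)) +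
        ENNReal.ofReal eR + ENNReal.ofReal eC) * X +
        ENNReal.ofReal (2 * C * CT * w * (2 * Real.pi * S.c0 / S.δ)) * Y := by ring
    _ ≤ _ := by
        rw [← e1]
        exact add_le_add_right (mul_le_mul_left e2 Y) _

end moves

end Vale.Agent.P262.M2.Sys
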