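import Vale.Agent.P262.H118.El2c
import Vale.Agent.P262.H118.Bod2
import Vale.Agent.P262.H962.PCap2
import Vale.Agent.P262.M1.Defs

/-!
# P262, milestone 2: common definitions (scheme 148 + 752)

Processing order is increasing.  Nodes are paths `p : List ℕ` (reversed lists of classes): `[]` is
the root, `c :: p` is the child of `p` through class `c`.  Lives, windows, label spaces: `H118.K2`;
states, moves, coordinates: `H118.El2`; bodies in the coordinates of a node: `H118.Bod2`.

*Integrals over labels.*  In the coordinates of the node `p` the labels of all ancestors of a point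
`x` are the projections of the same `x` to their label spaces, because every coordinate change
fixes the label space of the parent pointwise.  So all integrals of functions of (node, label in
the coordinates of the node) are written with the same vector `x` at all levels:
`nb p m x k` is the node `k` levels below `p` on the path of `x`.
-/

set_option linter.all false

open MeasureTheory ProbabilityTheory Set
open scoped ENNReal RealInnerProductSpace
open Vale.Agent.P262.H118 (Iv st en ON rotE tau wd wrd Mg Piece K2 El2 paths)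
open Vale.Agent.P262.H274 (Slow Cost)
open Vale.Agent.P262.H395 (fib mix Inv)
open Vale.Agent.P262.H493 (star)

namespace Vale.Agent.P262.M2

/-- all data of milestone 2 -/
structure Sys (E : Type*) [NormedAddCommGroup E] [InnerProductSpace ℝ E] [FiniteDimensional ℝ E]
    [MeasurableSpace E] [BorelSpace E] where
  /-- vectors, number of steps, radius -/
  v : ℕ → E
  T : ℕ
  δ : ℝ
  R : ℝ
  /-- class constants `N c = c0 / 2 ^ c`, thresholds `thr c = exp (1 - 4 ^ c) / 10` -/
  c0 : ℝ
  N : ℕ → ℝ
  thr : ℕ → ℝ≥0∞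
  /-- bound for the classes of labels -/
  cm : ℕ
  ρ : ℝ
  /-- cut-off constant, exponent -/
  M : ℝ
  th : ℝ
  /-- caps `A0 * kap ^ dim * exp (dist (x, prefix ball qq) ^ 2 / 8)`, killing level -/
  A0 : ℝ
  kap : ℝ
  qq : ℝ
  b0 : ℝ
  /-- very sick labels: `q < q0` -/
  q0 : ℝ≥0∞
  hd2 : 2 ≤ Module.finrank ℝ E
  hT : 0 < T
  hδ : 0 < δ
  hδ1 : δ ≤ 1
  hR : 1 ≤ R
  hv : ∀ t, t < T → ‖v t‖ = δ
  hN : ∀ c, N c = c0 / 2 ^ c
  hc0 : 0 < c0
  hc0δ : c0 < δ
  hthr : ∀ c, thr c = ENNReal.ofReal (Real.exp (1 - 4 ^ c) / 10)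
  hρ : 0 < ρ
  hρ1 : ρ < 1 / 3
  hM : 2 ≤ M
  hth : 0 < th
  hth1 : th < 1
  hA0 : 0 < A0
  hkap : 0 < kap
  hkap1 : kap ≤ 1
  hqq : 0 < qq
  hAb : A0 ≤ b0
  hMb : 2 * (M + 1) * b0 ≤ 1 / 16
  hq0 : 0 < q0
  hq1 : q0 ≤ 1 / 8
  /-- the last class is reached by all caps -/
  hcm : thr cm ≤ ENNReal.ofReal (A0 * kap ^ Module.finrank ℝ E)
  K : K2 v T N δ ρ
  mv : El2 K (paths cm (Module.finrank ℝ E))
  /-- small angles -/
  hph : ∀ m, 5 * ((Module.finrank ℝ E : ℝ) + 2) * mv.ph m * (R + 4) ^ 2 ≤ 1

variable {E : Type*} [NormedAddCommGroup E] [InnerProductSpace ℝ E] [FiniteDimensional ℝ E]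
  [MeasurableSpace E] [BorelSpace E]

namespace Sys

variable (S : Sys E)

/-! ### times, states, bodies -/

/-- the last state of all: after the last star -/
noncomputable def mT : ℕ := S.mv.n S.T - 1

/-- bodies in processing order -/
noncomputable def Kt : ℕ → Set E := M1.body S.v S.R

/-- label space of the node `p` at state or move `m` -/
noncomputable def W (p : List ℕ) (m : ℕ) : Submodule ℝ E := S.K.W p (S.mv.tm m)

/-- body at state `m` in the coordinates of the node `p` -/
noncomputable def X (p : List ℕ) (m : ℕ) : Set E := S.mv.Bd S.Kt p m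

/-- a leaf node: the fibres are lines -/
def Leaf (p : List ℕ) (m : ℕ) : Prop := Module.finrank ℝ (S.W p m)ᗮ ≤ 1

/-- deficit of a label of the node `p` at state `m` (plain body, no kills) -/
noncomputable def De (p : List ℕ) (m : ℕ) (x : E) : ℝ≥0∞ :=
  fib (S.W p m) ((S.X p m)ᶜ.indicator 1) x

/-- plain mass of the body -/
noncomputable def q (p : List ℕ) (m : ℕ) (x : E) : ℝ≥0∞ :=
  fib (S.W p m) ((S.X p m).indicator 1) x

open Classical in
/-- deficit for the intersection of the two states of the move `m` (at a reopening: the state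
`m`) -/
noncomputable def Dc (p : List ℕ) (m : ℕ) (x : E) : ℝ≥0∞ :=
  if S.mv.IsRe m then S.De p m x
  else fib (S.W p m) ((S.X p m ∩ S.X p (m + 1))ᶜ.indicator 1) x

open Classical in
/-- change of the body at a label of `p` in the move `m` (zero at a reopening) -/
noncomputable def Dl (p : List ℕ) (m : ℕ) (x : E) : ℝ≥0∞ :=
  if S.mv.IsRe m then 0
  else fib (S.W p m) ((symmDiff (S.X p m) (S.X p (m + 1))).indicator 1) x

/-! ### caps and killed labels -/

/-- label spaces of the path, from the root outwards -/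
noncomputable def chn : List ℕ → ℕ → List (Submodule ℝ E)
  | [], _ => []
  | c :: p, m => chn p m ++ [S.W (c :: p) m]

/-- power `s` of the cap of the node `p` -/
noncomputable def As (s : ℝ) (p : List ℕ) (m : ℕ) (x : E) : ℝ≥0∞ :=
  H962.capS S.A0 S.kap S.qq s (S.chn p m) (S.W p m) x

/-- the cap -/
noncomputable def A (p : List ℕ) (m : ℕ) (x : E) : ℝ≥0∞ := S.As 1 p m x

/-- killed labels of the node `p` (in the coordinates of `p`), ancestors included -/
def Z : List ℕ → ℕ → Set E
  | [], _ => ∅
  | c :: p, m => Z p m ∪ {x | ENNReal.ofReal S.b0 < S.A (c :: p) m x}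

/-! ### windows, classes, blocks, the rule -/

/-- maximal deficit over the class-`c` window of `p` containing `m` (intermediate bodies
included) -/
noncomputable def Dw (p : List ℕ) (c m : ℕ) (x : E) : ℝ≥0∞ :=
  (Finset.Icc (S.mv.sS (S.K.B p c) m) (S.mv.eS (S.K.B p c) m)).sup fun k => S.Dc p k x

/-- **class** of a label: the least `c` with `thr c ≤ max D` over the class-`c` window or
`thr c ≤ A`.  (`thr 0 = 1/10`: class `0` = deficit `≥ 1/10` at some state of the coarse window.) -/
noncomputable def kl (p : List ℕ) (m : ℕ) (x : E) : ℕ :=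
  sInf {c | S.thr c ≤ S.Dw p c m x ∨ S.thr c ≤ S.A p m x}

/-- the partition of the time axis into the windows of the class of the label -/
noncomputable def BB (p : List ℕ) (m : ℕ) (x : E) : Set ℕ := S.K.B p (S.kl p m x)

/-- first state of the block of the label -/
noncomputable def bs (p : List ℕ) (m : ℕ) (x : E) : ℕ := S.mv.sS (S.BB p m x) m

/-- last state of the block: its moves are `[bs, be)` -/
noncomputable def be (p : List ℕ) (m : ℕ) (x : E) : ℕ := S.mv.eS (S.BB p m x) m

/-- start time of the block -/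
noncomputable def ts (p : List ℕ) (m : ℕ) (x : E) : ℕ := st (S.BB p m x) (S.mv.tm m)

/-- end time of the block -/
noncomputable def te (p : List ℕ) (m : ℕ) (x : E) : ℕ := en (S.BB p m x) S.T (S.ts p m x)

/-- `D*`: maximal deficit over the block -/
noncomputable def Db (p : List ℕ) (m : ℕ) (x : E) : ℝ≥0∞ := S.Dw p (S.kl p m x) m x

/-- maximal plain mass over the states of the block -/
noncomputable def qb (p : List ℕ) (m : ℕ) (x : E) : ℝ≥0∞ :=
  (Finset.Icc (S.bs p m x) (S.be p m x)).sup fun k => S.q p k x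

/-- **the frozen rule**: labels counted during their block -/
def om (p : List ℕ) (m : ℕ) : Set E :=
  {x | x ∉ S.Z p m ∧ (S.A p m x ≤ S.De p (S.be p m x) x ∨
    ENNReal.ofReal S.M * S.A p m x ≤ S.Db p m x)}

/-- cost of the block (non leaf nodes) -/
noncomputable def cst (p : List ℕ) (m : ℕ) (x : E) : ℝ≥0∞ :=
  ENNReal.ofReal (Cost (S.K.Sw p (S.ts p m x) (S.N (S.kl p m x))) S.ρ (S.ts p m x) (S.te p m x))

open Classical in
/-- `ψ`: `D*^(1-θ)` at classes `≥ 1`; at class `0` the indicator of `max q ≥ 2 q0` -/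
noncomputable def psi (p : List ℕ) (m : ℕ) (x : E) : ℝ≥0∞ :=
  if S.kl p m x = 0 then (if 2 * S.q0 ≤ S.qb p m x then 1 else 0) else S.Db p m x ^ (1 - S.th)

/-! ### paths of labels (same vector at all levels) -/

/-- the node `k` levels below `p` on the path of `x` at state `m` -/
noncomputable def nb (p : List ℕ) (m : ℕ) (x : E) : ℕ → List ℕ
  | 0 => p
  | k + 1 => S.kl (nb p m x k) m x :: nb p m x k

/-- the node of level `j` on the path of `x` -/
noncomputable def nd (m : ℕ) (x : E) (j : ℕ) : List ℕ := S.nb [] m x j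

/-- all levels below `p` unkilled -/
def Al (p : List ℕ) (m : ℕ) : Set E := {x | ∀ i, 1 ≤ i → x ∉ S.Z (S.nb p m x i) m}

/-- the deepest node of the path (a leaf) -/
noncomputable def dn (p : List ℕ) (m : ℕ) (x : E) : List ℕ := S.nb p m x (Module.finrank ℝ E)

/-- the body in the coordinates of the deepest node of the path -/
def Xd (p : List ℕ) (m : ℕ) : Set E := {x | x ∈ S.X (S.dn p m x) m}

/-- alive mass `q#` (kills included) at a label of `p` -/
noncomputable def qs (p : List ℕ) (m : ℕ) (x : E) : ℝ≥0∞ :=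
  fib (S.W p m) ((S.Al p m ∩ S.Xd p m).indicator 1) x

/-- counted at the levels `1, …, k` below `p` -/
def OMb (p : List ℕ) (m k : ℕ) : Set E := {x | ∀ i, 1 ≤ i → i ≤ k → x ∈ S.om (S.nb p m x i) m}

/-- counted at the levels `< j` -/
def OL (j m : ℕ) : Set E := {x | ∀ i, i < j → x ∈ S.om (S.nd m x i) m}

/-- the label of level `j` is not a leaf label -/
def NL (j m : ℕ) : Set E := {x | ¬ S.Leaf (S.nd m x j) m}

/-- the indicator of a set as a weight -/
noncomputable def iw (s : Set E) : E → ℝ≥0∞ := s.indicator 1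

/-! ### the cut-off field mass -/

open Classical in
/-- the cut-off truncation (`H654.tr`): `0` up to `c`, linear to `(1/8, 1/8)`, identity after -/
noncomputable def trE (c y : ℝ≥0∞) : ℝ≥0∞ :=
  if y ≤ c then 0 else if y < 1 / 8 then (y - c) / (1 - 8 * c) else y

open Classical in
/-- **mass of the cut-off field** below the node `p` at a label (`k` = remaining depth): a child
label which is killed counts `1`, the others count `tr ((M + 1) A) F` (the rule uses `M A`; visible
labels are counted) -/
noncomputable def Fk : ℕ → List ℕ → ℕ → E → ℝ≥0∞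
  | 0, p, m, x => S.De p m x
  | k + 1, p, m, x =>
    if S.Leaf p m then S.De p m x
    else fib (S.W p m) (fun y =>
      if y ∈ S.Z (S.kl p m x :: p) m then 1
      else trE (ENNReal.ofReal (S.M + 1) * S.A (S.kl p m x :: p) m y)
        (Fk k (S.kl p m x :: p) m y)) x

/-- the mass `F` of the field below `p` -/
noncomputable def F (p : List ℕ) (m : ℕ) (x : E) : ℝ≥0∞ := S.Fk (Module.finrank ℝ E) p m x

/-! ### units -/

/-- slope of the potential at the mass `s`: `(A / max (A, min (s, 1/8)))^θ` -/
noncomputable def slp (p : List ℕ) (m : ℕ) (x : E) (s : ℝ≥0∞) : ℝ≥0∞ :=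
  (S.A p m x / max (S.A p m x) (min s (1 / 8))) ^ S.th

/-- unit of the block of the label `x` of `p` at the move `m` -/
noncomputable def un (p : List ℕ) (m : ℕ) (x : E) : ℝ≥0∞ :=
  S.cst p m x * S.As S.th p m x * S.psi p m x

/-- **`U_j`**: units of the counted non leaf labels of level `j`, summed over their blocks -/
noncomputable def Ut (j : ℕ) : ℝ≥0∞ :=
  ∑ m ∈ Finset.range S.mT, ∫⁻ x, iw (S.NL j m ∩ S.OL j m ∩
      {x | x ∈ S.om (S.nd m x j) m ∧ S.bs (S.nd m x j) m x = m}) x *
    S.un (S.nd m x j) m x ∂stdGaussian E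

/-- first and last state of the life of `p` containing `m` -/
noncomputable def l0 (p : List ℕ) (m : ℕ) : ℕ := S.mv.sS (S.K.nw p) m
noncomputable def l1 (p : List ℕ) (m : ℕ) : ℕ := S.mv.eS (S.K.nw p) m

/-- entrance and exit of the life of a label -/
noncomputable def ent (p : List ℕ) (m : ℕ) (x : E) : ℝ≥0∞ :=
  S.As S.th p m x * min (max (S.A p m x) (S.De p m x) ^ (1 - S.th)) (S.q p (S.l1 p m) x)

/-- **`B_j`**: entrance and exit of the lives of the labels of level `j` -/
noncomputable def Bt (j : ℕ) : ℝ≥0∞ :=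
  ∑ m ∈ Finset.range S.mT, ∫⁻ x, iw (S.NL j m ∩ S.OL j m ∩ {x | S.l0 (S.nd m x j) m = m}) x *
    S.ent (S.nd m x j) m x ∂stdGaussian E

/-- root health of state `m` (plain body); the margin to `thr 0 = 1/10` makes the root a label of
class `≥ 1` -/
def Healthy (m : ℕ) : Prop := S.De [] m 0 ≤ ENNReal.ofReal (1 / 25)

end Sys

end Vale.Agent.P262.M2
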