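import Vale.Agent.P262.M2.Basic

/-!
# P262, milestone 2: windows, classes, blocks

`Same B m k`: the state `k` lies in the interval of the partition `B` containing `m`.
Everything attached to a block (class, `D*`, the rule, cap, killed labels, cost, unit) is the same
at all its states.
-/

set_option linter.all false

open MeasureTheory ProbabilityTheory Set
open scoped ENNReal RealInnerProductSpace
open Vale.Agent.P262.H118 (Iv st en ON rotE tau wd wrd Mg Piece K2 El2 paths Cl cl_paths mem_paths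
  iv_st)
open Vale.Agent.P262.H274 (Slow Cost)
open Vale.Agent.P262.H395 (fib mix Inv inv_fib measurable_fib fib_mono)
open Vale.Agent.P262.H395.Tree (InvN)
open Vale.Agent.P262.H44 (InvS)
open Vale.Agent.P262.H493 (star)

namespace Vale.Agent.P262.M2.Sys

variable {E : Type*} [NormedAddCommGroup E] [InnerProductSpace ℝ E] [FiniteDimensional ℝ E]
  [MeasurableSpace E] [BorelSpace E] (S : Sys E)

/-- `k` is a state of the interval of `B` containing `m` -/
def Same (B : Set ℕ) (m k : ℕ) : Prop := S.mv.sS B m ≤ k ∧ k ≤ S.mv.eS B m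

variable {S}

lemma Same.refl {B : Set ℕ} (h0 : 0 ∈ B) {m : ℕ} (hm : S.mv.tm m < S.T) : S.Same B m m :=
  S.mv.same_self h0 hm

lemma Same.lt {B : Set ℕ} {m k : ℕ} (h : S.Same B m k) (hm : S.mv.tm m < S.T) :
    S.mv.tm k < S.T := S.mv.tm_lt_of_lt (h.2.trans_lt (S.mv.eS_lt hm))

/-- coarser partitions have larger intervals -/
lemma Same.mono {B B' : Set ℕ} (hB : B' ⊆ B) (h0 : 0 ∈ B') {m k : ℕ} (h : S.Same B m k)
    (hm : S.mv.tm m < S.T) : S.Same B' m k :=
  ⟨(S.mv.sS_mono hB h0 m).trans h.1, h.2.trans (S.mv.eS_anti hB h0 hm)⟩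

lemma Same.eq {B : Set ℕ} (h0 : 0 ∈ B) {m k : ℕ} (h : S.Same B m k) (hm : S.mv.tm m < S.T) :
    st B (S.mv.tm k) = st B (S.mv.tm m) ∧ S.mv.sS B k = S.mv.sS B m ∧
      S.mv.eS B k = S.mv.eS B m := S.mv.same_eq h0 hm h.1 h.2

lemma Same.symm {B : Set ℕ} (h0 : 0 ∈ B) {m k : ℕ} (h : S.Same B m k) (hm : S.mv.tm m < S.T) :
    S.Same B k m := by
  obtain ⟨-, h1, h2⟩ := h.eq h0 hm
  have h3 := Same.refl (S := S) h0 hm
  exact ⟨by rw [h1]; exact h3.1, by rw [h2]; exact h3.2⟩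

lemma Same.trans {B : Set ℕ} (h0 : 0 ∈ B) {m k l : ℕ} (h : S.Same B m k) (h' : S.Same B k l)
    (hm : S.mv.tm m < S.T) : S.Same B m l := by
  obtain ⟨-, h1, h2⟩ := h.eq h0 hm
  exact ⟨by rw [← h1]; exact h'.1, by rw [← h2]; exact h'.2⟩

/-- active moves stay in all intervals -/
lemma Same.active {B : Set ℕ} (h0 : 0 ∈ B) {m : ℕ} (h : S.mv.IsStar m ∨ S.mv.IsRot m)
    (hm : S.mv.tm m < S.T) : S.Same B m (m + 1) := by
  obtain ⟨h1, h2, h3⟩ := S.mv.active_inside h0 h hm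
  have h4 := S.mv.sS_le B m
  exact ⟨by omega, by omega⟩

/-- reopenings stay in the intervals which do not end -/
lemma Same.re {B : Set ℕ} (h0 : 0 ∈ B) {m : ℕ} (h : S.mv.IsRe m)
    (hm : S.mv.tm m + 1 < S.T) (hn : S.mv.tm m + 1 ∉ B) : S.Same B m (m + 1) := by
  obtain ⟨h1, h2, h3⟩ := S.mv.re_inside h0 h hm hn
  have h4 := S.mv.sS_le B m
  exact ⟨by omega, by omega⟩

/-! ### everything is constant on lives -/

lemma Same.W {p : List ℕ} {B : Set ℕ} (hB : S.K.nw p ⊆ B) {m k : ℕ} (h : S.Same B m k)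
    (hm : S.mv.tm m < S.T) : S.W p k = S.W p m := S.W_eq hB hm h.1 h.2

lemma Same.chn {p : List ℕ} {B : Set ℕ} (hB : S.K.nw p ⊆ B) {m k : ℕ} (h : S.Same B m k)
    (hm : S.mv.tm m < S.T) : S.chn p k = S.chn p m := by
  induction p with
  | nil => rfl
  | cons c p ih =>
    rw [Sys.chn, Sys.chn, ih ((S.K.nw_sub_nw p c).trans hB), h.W hB hm]

lemma Same.As {p : List ℕ} {B : Set ℕ} (hB : S.K.nw p ⊆ B) {m k : ℕ} (h : S.Same B m k)
    (hm : S.mv.tm m < S.T) (s : ℝ) : S.As s p k = S.As s p m := by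
  funext x
  unfold Sys.As
  rw [h.chn hB hm, h.W hB hm]

lemma Same.A {p : List ℕ} {B : Set ℕ} (hB : S.K.nw p ⊆ B) {m k : ℕ} (h : S.Same B m k)
    (hm : S.mv.tm m < S.T) : S.A p k = S.A p m := h.As hB hm 1

lemma Same.Z {p : List ℕ} {B : Set ℕ} (hB : S.K.nw p ⊆ B) {m k : ℕ} (h : S.Same B m k)
    (hm : S.mv.tm m < S.T) : S.Z p k = S.Z p m := by
  induction p with
  | nil => rfl
  | cons c p ih =>
    rw [S.Z_cons, S.Z_cons, ih ((S.K.nw_sub_nw p c).trans hB), h.A hB hm]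

lemma Same.leaf {p : List ℕ} {B : Set ℕ} (hB : S.K.nw p ⊆ B) {m k : ℕ} (h : S.Same B m k)
    (hm : S.mv.tm m < S.T) : S.Leaf p k ↔ S.Leaf p m := by
  unfold Sys.Leaf
  rw [h.W hB hm]

lemma Same.Dw {p : List ℕ} {c' c : ℕ} (hc : c' ≤ c) {m k : ℕ} (h : S.Same (S.K.B p c) m k)
    (hm : S.mv.tm m < S.T) : S.Dw p c' k = S.Dw p c' m := by
  have h0 := S.K.zero_mem_B p c'
  obtain ⟨-, h1, h2⟩ := (h.mono (S.K.B_mono p hc) h0 hm).eq h0 hm
  funext x
  unfold Sys.Dw
  rw [h1, h2]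

/-! ### deficits in a window -/

lemma Dc_le_Dw {p : List ℕ} {c m k : ℕ} (h : S.Same (S.K.B p c) m k) (x : E) :
    S.Dc p k x ≤ S.Dw p c m x := by
  unfold Sys.Dw
  exact Finset.le_sup (f := fun k => S.Dc p k x) (Finset.mem_Icc.2 ⟨h.1, h.2⟩)

lemma De_le_Dw {p : List ℕ} {c m k : ℕ} (h : S.Same (S.K.B p c) m k) (x : E) :
    S.De p k x ≤ S.Dw p c m x := (S.De_le_Dc p k x).trans (Dc_le_Dw h x)

lemma Dw_anti {p : List ℕ} {c c' : ℕ} (hc : c ≤ c') {m : ℕ} (hm : S.mv.tm m < S.T) (x : E) :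
    S.Dw p c' m x ≤ S.Dw p c m x := by
  unfold Sys.Dw
  refine Finset.sup_mono (Finset.Icc_subset_Icc ?_ ?_)
  · exact S.mv.sS_mono (S.K.B_mono p hc) (S.K.zero_mem_B p c) m
  · exact S.mv.eS_anti (S.K.B_mono p hc) (S.K.zero_mem_B p c) hm

lemma Dw_le_one (p : List ℕ) (c m : ℕ) (x : E) : S.Dw p c m x ≤ 1 :=
  Finset.sup_le fun k _ => S.Dc_le_one p k x

/-- the maximum is attained -/
lemma exists_Dw (p : List ℕ) (c : ℕ) {m : ℕ} (hm : S.mv.tm m < S.T) (x : E) :
    ∃ k, S.Same (S.K.B p c) m k ∧ S.Dc p k x = S.Dw p c m x := by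
  have h0 := S.mv.same_self (S.K.zero_mem_B p c) hm
  have hne : (Finset.Icc (S.mv.sS (S.K.B p c) m) (S.mv.eS (S.K.B p c) m)).Nonempty :=
    ⟨m, Finset.mem_Icc.2 h0⟩
  obtain ⟨k, hk, h⟩ := Finset.exists_mem_eq_sup _ hne (fun k => S.Dc p k x)
  exact ⟨k, Finset.mem_Icc.1 hk, h.symm⟩

lemma Dw_inv (p : List ℕ) (c : ℕ) {m : ℕ} (hm : S.mv.tm m < S.T) :
    Inv (S.W p m) (S.Dw p c m) := by
  intro x w hw
  unfold Sys.Dw
  refine Finset.sup_congr rfl fun k hk => ?_
  have h : S.Same (S.K.B p c) m k := Finset.mem_Icc.1 hk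
  have h1 := S.Dc_inv p k
  rw [h.W (S.K.nw_sub_B p c) hm] at h1
  exact h1 x w hw

omit [NormedAddCommGroup E] [InnerProductSpace ℝ E] [FiniteDimensional ℝ E] [BorelSpace E] in
lemma measurable_finset_sup {ι : Type*} (s : Finset ι) {f : ι → E → ℝ≥0∞}
    (hf : ∀ i, Measurable (f i)) : Measurable fun x => s.sup fun i => f i x := by
  classical
  induction s using Finset.induction_on with
  | empty => simp only [Finset.sup_empty]; exact measurable_const
  | insert a s ha ih => simp only [Finset.sup_insert]; exact (hf a).max ih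

lemma Dw_meas (p : List ℕ) (c m : ℕ) : Measurable (S.Dw p c m) :=
  measurable_finset_sup _ fun k => S.Dc_meas p k

/-! ### thresholds -/

lemma thr_anti {c c' : ℕ} (h : c ≤ c') : S.thr c' ≤ S.thr c := by
  rw [S.hthr, S.hthr]
  apply ENNReal.ofReal_le_ofReal
  have : (4 : ℝ) ^ c ≤ 4 ^ c' := pow_le_pow_right₀ (by norm_num) h
  gcongr

lemma thr_zero : S.thr 0 = ENNReal.ofReal (1 / 10) := by
  rw [S.hthr]
  norm_num

lemma thr_pos (c : ℕ) : 0 < S.thr c := by
  rw [S.hthr, ENNReal.ofReal_pos]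
  positivity

lemma b0_lt_thr : ENNReal.ofReal S.b0 < S.thr 0 := by
  rw [thr_zero]
  have h1 := S.hMb
  have h2 := S.hM
  have h3 := S.hA0
  have h4 := S.hAb
  refine (ENNReal.ofReal_lt_ofReal_iff (by norm_num)).2 ?_
  nlinarith

/-! ### classes -/

lemma kl_nonempty (p : List ℕ) (m : ℕ) (x : E) :
    {c | S.thr c ≤ S.Dw p c m x ∨ S.thr c ≤ S.A p m x}.Nonempty :=
  ⟨S.cm, Or.inr (S.thr_cm_le p m x)⟩

lemma kl_spec (p : List ℕ) (m : ℕ) (x : E) :
    S.thr (S.kl p m x) ≤ S.Dw p (S.kl p m x) m x ∨ S.thr (S.kl p m x) ≤ S.A p m x :=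
  Nat.sInf_mem (kl_nonempty p m x)

lemma kl_le_cm (p : List ℕ) (m : ℕ) (x : E) : S.kl p m x ≤ S.cm :=
  Nat.sInf_le (Or.inr (S.thr_cm_le p m x))

lemma kl_le {p : List ℕ} {m c : ℕ} {x : E} (h : S.thr c ≤ S.Dw p c m x ∨ S.thr c ≤ S.A p m x) :
    S.kl p m x ≤ c := Nat.sInf_le h

/-- below the class both quantities are small -/
lemma lt_of_lt_kl {p : List ℕ} {m c : ℕ} {x : E} (h : c < S.kl p m x) :
    S.Dw p c m x < S.thr c ∧ S.A p m x < S.thr c := by
  have h1 := Nat.notMem_of_lt_sInf h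
  simp only [mem_setOf_eq, not_or, not_le] at h1
  exact h1

lemma le_kl_iff {p : List ℕ} {m c : ℕ} {x : E} :
    c ≤ S.kl p m x ↔ ∀ c' < c, S.Dw p c' m x < S.thr c' ∧ S.A p m x < S.thr c' := by
  constructor
  · intro h c' hc'
    exact lt_of_lt_kl (hc'.trans_le h)
  · intro h
    by_contra hcon
    push Not at hcon
    obtain ⟨h1, h2⟩ := h _ hcon
    rcases kl_spec (S := S) p m x with h3 | h3
    · exact absurd h1 (not_lt.2 h3)
    · exact absurd h2 (not_lt.2 h3)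

lemma kl_eq_iff {p : List ℕ} {m c : ℕ} {x : E} :
    S.kl p m x = c ↔ (S.thr c ≤ S.Dw p c m x ∨ S.thr c ≤ S.A p m x) ∧
      ∀ c' < c, S.Dw p c' m x < S.thr c' ∧ S.A p m x < S.thr c' := by
  constructor
  · rintro rfl
    exact ⟨kl_spec p m x, le_kl_iff.1 le_rfl⟩
  · rintro ⟨h1, h2⟩
    exact le_antisymm (kl_le h1) (le_kl_iff.2 h2)

/-- class `0` at labels which are not killed: the deficit reaches `1/10` in the coarse window -/
lemma kl_eq_zero_iff {p : List ℕ} {m : ℕ} {x : E} (hx : x ∉ S.Z p m) :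
    S.kl p m x = 0 ↔ S.thr 0 ≤ S.Dw p 0 m x := by
  rw [kl_eq_iff]
  constructor
  · rintro ⟨h | h, -⟩
    · exact h
    · exact absurd (h.trans (S.A_le_of_not_Z hx)) (not_le.2 b0_lt_thr)
  · exact fun h => ⟨Or.inl h, fun c' hc' => absurd hc' (Nat.not_lt_zero _)⟩

/-- **the class is constant on the block** -/
theorem kl_same {p : List ℕ} {m k : ℕ} {x : E} (h : S.Same (S.BB p m x) m k)
    (hm : S.mv.tm m < S.T) : S.kl p k x = S.kl p m x := by
  unfold BB at h
  have hA : S.A p k x = S.A p m x := by rw [h.A (S.K.nw_sub_B p _) hm]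
  rw [kl_eq_iff, h.Dw le_rfl hm, hA]
  refine ⟨kl_spec p m x, fun c' hc' => ?_⟩
  rw [h.Dw hc'.le hm]
  exact lt_of_lt_kl hc'

lemma zero_mem_BB (p : List ℕ) (m : ℕ) (x : E) : 0 ∈ S.BB p m x := S.K.zero_mem_B p _

lemma nw_sub_BB (p : List ℕ) (m : ℕ) (x : E) : S.K.nw p ⊆ S.BB p m x := S.K.nw_sub_B p _

section block

variable {p : List ℕ} {m k : ℕ} {x : E}

lemma BB_same (h : S.Same (S.BB p m x) m k) (hm : S.mv.tm m < S.T) :
    S.BB p k x = S.BB p m x := by
  unfold BB; rw [kl_same h hm]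

lemma bs_same (h : S.Same (S.BB p m x) m k) (hm : S.mv.tm m < S.T) : S.bs p k x = S.bs p m x := by
  unfold bs; rw [BB_same h hm]; exact (h.eq (zero_mem_BB p m x) hm).2.1

lemma be_same (h : S.Same (S.BB p m x) m k) (hm : S.mv.tm m < S.T) : S.be p k x = S.be p m x := by
  unfold be; rw [BB_same h hm]; exact (h.eq (zero_mem_BB p m x) hm).2.2

lemma ts_same (h : S.Same (S.BB p m x) m k) (hm : S.mv.tm m < S.T) : S.ts p k x = S.ts p m x := by
  unfold ts; rw [BB_same h hm]; exact (h.eq (zero_mem_BB p m x) hm).1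

lemma te_same (h : S.Same (S.BB p m x) m k) (hm : S.mv.tm m < S.T) : S.te p k x = S.te p m x := by
  unfold te; rw [BB_same h hm, ts_same h hm]

lemma Db_same (h : S.Same (S.BB p m x) m k) (hm : S.mv.tm m < S.T) : S.Db p k x = S.Db p m x := by
  unfold Db
  rw [kl_same h hm]
  unfold BB at h
  rw [h.Dw le_rfl hm]

lemma qb_same (h : S.Same (S.BB p m x) m k) (hm : S.mv.tm m < S.T) : S.qb p k x = S.qb p m x := by
  unfold qb; rw [bs_same h hm, be_same h hm]

lemma om_same (h : S.Same (S.BB p m x) m k) (hm : S.mv.tm m < S.T) :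
    x ∈ S.om p k ↔ x ∈ S.om p m := by
  unfold om
  simp only [mem_setOf_eq]
  rw [be_same h hm, Db_same h hm, h.Z (nw_sub_BB p m x) hm, h.A (nw_sub_BB p m x) hm]

lemma cst_same (h : S.Same (S.BB p m x) m k) (hm : S.mv.tm m < S.T) :
    S.cst p k x = S.cst p m x := by
  unfold cst; rw [kl_same h hm, ts_same h hm, te_same h hm]

lemma psi_same (h : S.Same (S.BB p m x) m k) (hm : S.mv.tm m < S.T) :
    S.psi p k x = S.psi p m x := by
  unfold psi; rw [kl_same h hm, Db_same h hm, qb_same h hm]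

lemma un_same (h : S.Same (S.BB p m x) m k) (hm : S.mv.tm m < S.T) :
    S.un p k x = S.un p m x := by
  unfold un; rw [cst_same h hm, psi_same h hm, h.As (nw_sub_BB p m x) hm]

lemma slp_same (h : S.Same (S.BB p m x) m k) (hm : S.mv.tm m < S.T) (s : ℝ≥0∞) :
    S.slp p k x s = S.slp p m x s := by
  unfold slp; rw [h.A (nw_sub_BB p m x) hm]

lemma same_iff : S.Same (S.BB p m x) m k ↔ S.bs p m x ≤ k ∧ k ≤ S.be p m x := Iff.rfl

lemma bs_le (p : List ℕ) (m : ℕ) (x : E) : S.bs p m x ≤ m := S.mv.sS_le _ m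
lemma le_be (p : List ℕ) {m : ℕ} (x : E) (hm : S.mv.tm m < S.T) : m ≤ S.be p m x :=
  S.mv.le_eS (zero_mem_BB p m x) hm

/-- a reopening which does not end the block of the label stays in the block; other moves always
do -/
lemma same_succ (hm : S.mv.tm m < S.T) (h : m < S.be p m x) : S.Same (S.BB p m x) m (m + 1) :=
  ⟨(bs_le p m x).trans (Nat.le_succ m), h⟩

/-! ### `D*`, the rule, thresholds -/

lemma De_le_Db (h : S.Same (S.BB p m x) m k) : S.De p k x ≤ S.Db p m x := De_le_Dw h x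
lemma Dc_le_Db (h : S.Same (S.BB p m x) m k) : S.Dc p k x ≤ S.Db p m x := Dc_le_Dw h x

lemma A_le_Db_of_om (hm : S.mv.tm m < S.T) (h : x ∈ S.om p m) : S.A p m x ≤ S.Db p m x := by
  rcases h.2 with h1 | h1
  · exact h1.trans (De_le_Db ⟨(bs_le p m x).trans (le_be p x hm), le_rfl⟩)
  · refine le_trans ?_ h1
    calc S.A p m x = 1 * S.A p m x := (one_mul _).symm
      _ ≤ _ := by
        gcongr
        rw [← ENNReal.ofReal_one]
        exact ENNReal.ofReal_le_ofReal (by linarith [S.hM])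

lemma thr_le_Db_of_om (hm : S.mv.tm m < S.T) (h : x ∈ S.om p m) :
    S.thr (S.kl p m x) ≤ S.Db p m x := by
  rcases kl_spec (S := S) p m x with h1 | h1
  · exact h1
  · exact h1.trans (A_le_Db_of_om hm h)

lemma Db_lt_thr (hm : S.mv.tm m < S.T) (h : 1 ≤ S.kl p m x) :
    S.Db p m x < S.thr (S.kl p m x - 1) :=
  (Dw_anti (Nat.sub_le _ 1) hm x).trans_lt (lt_of_lt_kl (by omega)).1

/-- at classes `≥ 1` the deficit is below `1/10` during the whole block -/
lemma Db_lt_of_pos (hm : S.mv.tm m < S.T) (h : 1 ≤ S.kl p m x) :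
    S.Db p m x < ENNReal.ofReal (1 / 10) := by
  rw [← thr_zero (S := S)]
  exact (Dw_anti (Nat.zero_le _) hm x).trans_lt (lt_of_lt_kl (by omega)).1

lemma not_om (hx : x ∉ S.Z p m) (h : x ∉ S.om p m) :
    S.De p (S.be p m x) x < S.A p m x ∧ S.Db p m x < ENNReal.ofReal S.M * S.A p m x := by
  by_contra hcon
  rw [not_and_or, not_lt, not_lt] at hcon
  exact h ⟨hx, hcon⟩

end block

/-! ### measurability and invariance of the class and of the rule -/

lemma kl_inv (p : List ℕ) {m : ℕ} (hm : S.mv.tm m < S.T) : InvN (S.W p m) (S.kl p m) := by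
  intro x w hw
  unfold kl
  congr 1
  ext c
  simp only [mem_setOf_eq]
  rw [Dw_inv p c hm x w hw, S.A_inv p m x w hw]

lemma measurableSet_kl (p : List ℕ) (m c : ℕ) : MeasurableSet {x | S.kl p m x = c} := by
  have : {x | S.kl p m x = c} = ({x | S.thr c ≤ S.Dw p c m x} ∪ {x | S.thr c ≤ S.A p m x}) ∩
      ⋂ c' ∈ Finset.range c, ({x | S.Dw p c' m x < S.thr c'} ∩ {x | S.A p m x < S.thr c'}) := by
    ext x
    simp only [mem_setOf_eq, kl_eq_iff, mem_inter_iff, mem_union, mem_iInter, Finset.mem_range]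
  rw [this]
  refine ((measurableSet_le measurable_const (Dw_meas p c m)).union
    (measurableSet_le measurable_const (S.A_meas p m))).inter ?_
  refine Finset.measurableSet_biInter _ fun c' _ => ?_
  exact (measurableSet_lt (Dw_meas p c' m) measurable_const).inter
    (measurableSet_lt (S.A_meas p m) measurable_const)

lemma measurable_kl (p : List ℕ) (m : ℕ) : Measurable (S.kl p m) :=
  measurable_to_countable' fun c => measurableSet_kl p m c

/-- functions which depend on the class -/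
lemma measurable_of_kl {p : List ℕ} {m : ℕ} {F : ℕ → E → ℝ≥0∞} (hF : ∀ c, Measurable (F c)) :
    Measurable fun x => F (S.kl p m x) x := H395.Tree.measurable_sel hF (measurable_kl p m)

lemma bs_inv (p : List ℕ) {m : ℕ} (hm : S.mv.tm m < S.T) : InvN (S.W p m) (S.bs p m) := by
  intro x w hw; unfold bs BB; rw [kl_inv p hm x w hw]
lemma be_inv (p : List ℕ) {m : ℕ} (hm : S.mv.tm m < S.T) : InvN (S.W p m) (S.be p m) := by
  intro x w hw; unfold be BB; rw [kl_inv p hm x w hw]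

lemma Db_inv (p : List ℕ) {m : ℕ} (hm : S.mv.tm m < S.T) : Inv (S.W p m) (S.Db p m) := by
  intro x w hw; unfold Db; rw [kl_inv p hm x w hw, Dw_inv p _ hm x w hw]
lemma Db_meas (p : List ℕ) (m : ℕ) : Measurable (S.Db p m) :=
  measurable_of_kl (F := fun c x => S.Dw p c m x) fun c => Dw_meas p c m

lemma q_inv_same {p : List ℕ} {B : Set ℕ} (hB : S.K.nw p ⊆ B) {m k : ℕ} (h : S.Same B m k)
    (hm : S.mv.tm m < S.T) : Inv (S.W p m) (S.q p k) := by
  have := S.q_inv p k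
  rwa [h.W hB hm] at this
lemma De_inv_same {p : List ℕ} {B : Set ℕ} (hB : S.K.nw p ⊆ B) {m k : ℕ} (h : S.Same B m k)
    (hm : S.mv.tm m < S.T) : Inv (S.W p m) (S.De p k) := by
  have := S.De_inv p k
  rwa [h.W hB hm] at this
lemma Dc_inv_same {p : List ℕ} {B : Set ℕ} (hB : S.K.nw p ⊆ B) {m k : ℕ} (h : S.Same B m k)
    (hm : S.mv.tm m < S.T) : Inv (S.W p m) (S.Dc p k) := by
  have := S.Dc_inv p k
  rwa [h.W hB hm] at this

lemma qb_inv (p : List ℕ) {m : ℕ} (hm : S.mv.tm m < S.T) : Inv (S.W p m) (S.qb p m) := by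
  intro x w hw
  unfold qb
  rw [bs_inv p hm x w hw, be_inv p hm x w hw]
  refine Finset.sup_congr rfl fun k hk => ?_
  have h : S.Same (S.BB p m x) m k := Finset.mem_Icc.1 hk
  exact q_inv_same (nw_sub_BB p m x) h hm x w hw

lemma qb_meas (p : List ℕ) (m : ℕ) : Measurable (S.qb p m) :=
  measurable_of_kl (F := fun c x => (Finset.Icc (S.mv.sS (S.K.B p c) m)
    (S.mv.eS (S.K.B p c) m)).sup fun k => S.q p k x) fun c =>
      measurable_finset_sup _ fun k => S.q_meas p k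

lemma De_be_meas (p : List ℕ) (m : ℕ) : Measurable fun x => S.De p (S.be p m x) x :=
  measurable_of_kl (F := fun c x => S.De p (S.mv.eS (S.K.B p c) m) x) fun c => S.De_meas p _

lemma De_be_inv (p : List ℕ) {m : ℕ} (hm : S.mv.tm m < S.T) :
    Inv (S.W p m) fun x => S.De p (S.be p m x) x := by
  intro x w hw
  show S.De p (S.be p m (x + w)) (x + w) = _
  rw [be_inv p hm x w hw]
  exact De_inv_same (nw_sub_BB p m x) ⟨(bs_le p m x).trans (le_be p x hm), le_rfl⟩ hm x w hw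

lemma measurableSet_om (p : List ℕ) (m : ℕ) : MeasurableSet (S.om p m) := by
  have : S.om p m = (S.Z p m)ᶜ ∩ ({x | S.A p m x ≤ S.De p (S.be p m x) x} ∪
      {x | ENNReal.ofReal S.M * S.A p m x ≤ S.Db p m x}) := rfl
  rw [this]
  exact (S.measurableSet_Z p m).compl.inter
    ((measurableSet_le (S.A_meas p m) (De_be_meas p m)).union
      (measurableSet_le ((S.A_meas p m).const_mul _) (Db_meas p m)))

lemma om_inv (p : List ℕ) {m : ℕ} (hm : S.mv.tm m < S.T) : InvS (S.W p m) (S.om p m) := by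
  intro x w hw
  unfold om
  simp only [mem_setOf_eq]
  rw [S.Z_inv p m x w hw, S.A_inv p m x w hw, Db_inv p hm x w hw]
  have := De_be_inv p hm x w hw
  simp only at this
  rw [this]

lemma cst_inv (p : List ℕ) {m : ℕ} (hm : S.mv.tm m < S.T) : Inv (S.W p m) (S.cst p m) := by
  intro x w hw; unfold cst ts te ts BB; rw [kl_inv p hm x w hw]
lemma cst_meas (p : List ℕ) (m : ℕ) : Measurable (S.cst p m) :=
  measurable_of_kl (F := fun c _ => ENNReal.ofReal (Cost (S.K.Sw p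
    (st (S.K.B p c) (S.mv.tm m)) (S.N c)) S.ρ (st (S.K.B p c) (S.mv.tm m))
      (en (S.K.B p c) S.T (st (S.K.B p c) (S.mv.tm m))))) fun c => measurable_const

lemma psi_inv (p : List ℕ) {m : ℕ} (hm : S.mv.tm m < S.T) : Inv (S.W p m) (S.psi p m) := by
  intro x w hw
  unfold psi; rw [kl_inv p hm x w hw, Db_inv p hm x w hw, qb_inv p hm x w hw]

lemma psi_meas (p : List ℕ) (m : ℕ) : Measurable (S.psi p m) := by
  unfold psi
  refine Measurable.ite (measurableSet_kl p m 0) ?_ ((Db_meas p m).pow_const _)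
  exact Measurable.ite (measurableSet_le measurable_const (qb_meas p m)) measurable_const
    measurable_const

lemma un_inv (p : List ℕ) {m : ℕ} (hm : S.mv.tm m < S.T) : Inv (S.W p m) (S.un p m) := by
  intro x w hw
  unfold un
  rw [cst_inv p hm x w hw, psi_inv p hm x w hw, S.As_inv _ p m x w hw]

lemma un_meas (p : List ℕ) (m : ℕ) : Measurable (S.un p m) :=
  ((cst_meas p m).mul (S.As_meas _ p m)).mul (psi_meas p m)

end Vale.Agent.P262.M2.Sys
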