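import Vale.Agent.P262.M2.SumInt
import Vale.Agent.P262.H711.Star

/-!
# P262, milestone 2: unfolding of the throughput

`tau wt f m n r x` = average of the payoff `f` at the labels exactly `n` levels below the label `x`
of the node `r`, with the weight `wt` at every step; `0` below leaves.
-/

set_option linter.all false

open MeasureTheory ProbabilityTheory Set
open scoped ENNReal RealInnerProductSpace
open Vale.Agent.P262.H118 (Iv st en K2 El2 paths Cl cl_paths mem_paths iv_st iv_en)
open Vale.Agent.P262.H395 (fib mix Inv inv_fib measurable_fib fib_mono)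
open Vale.Agent.P262.H395.Tree (InvN)
open Vale.Agent.P262.H44 (InvS)

namespace Vale.Agent.P262.M2.Sys

variable {E : Type*} [NormedAddCommGroup E] [InnerProductSpace ℝ E] [FiniteDimensional ℝ E]
  [MeasurableSpace E] [BorelSpace E] (S : Sys E)

/-- the family of 711 at the state `m`, with the weights `wt c r` (from the node `r` to its child
`c :: r`) -/
noncomputable def famT (m : ℕ) (wt : ℕ → List ℕ → E → ℝ≥0∞) : H711.Fam E (List ℕ) where
  ch c r := c :: r
  L r := S.Leaf r m
  W r := S.W r m
  kl r := S.kl r m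
  wt := wt

/-- weighted average of the payoff `n` levels below (711's `tau` of the family) -/
noncomputable def tauT (wt : ℕ → List ℕ → E → ℝ≥0∞) (f : List ℕ → E → ℝ≥0∞) (m n : ℕ)
    (r : List ℕ) (x : E) : ℝ≥0∞ := H711.tau (S.famT m wt) f n r x

/-- no leaf at the levels `0, …, n - 1` below `r` -/
def nlf (r : List ℕ) (m n : ℕ) : Set E := {x | ∀ k < n, ¬ S.Leaf (S.nb r m x k) m}

variable {S}

section unfold

variable {wt : ℕ → List ℕ → E → ℝ≥0∞} {f : List ℕ → E → ℝ≥0∞} {m : ℕ}

lemma tauT_zero (r : List ℕ) (x : E) : S.tauT wt f m 0 r x = f r x := rfl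

open Classical in
lemma tauT_succ (n : ℕ) (r : List ℕ) (x : E) : S.tauT wt f m (n + 1) r x =
    if S.Leaf r m then 0 else
      fib (S.W r m) (fun y => wt (S.kl r m x) r y * S.tauT wt f m n (S.kl r m x :: r) y) x := rfl

lemma tauT_meas (hw : ∀ c r, Measurable (wt c r)) (hf : ∀ r, Measurable (f r)) (n : ℕ) :
    ∀ r, Measurable (S.tauT wt f m n r) := by
  classical
  induction n with
  | zero => exact hf
  | succ n ih =>
    intro r
    by_cases hl : S.Leaf r m
    · have : S.tauT wt f m (n + 1) r = fun _ => 0 := by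
        funext x; rw [tauT_succ, if_pos hl]
      rw [this]
      exact measurable_const
    · have : S.tauT wt f m (n + 1) r = fun x => (fun c x => fib (S.W r m)
          (fun y => wt c r y * S.tauT wt f m n (c :: r) y) x) (S.kl r m x) x := by
        funext x; rw [tauT_succ, if_neg hl]
      rw [this]
      exact measurable_of_kl (F := fun c x => fib (S.W r m)
          (fun y => wt c r y * S.tauT wt f m n (c :: r) y) x) fun c =>
        measurable_fib ((hw _ _).mul (ih _))

lemma tauT_inv (hm : S.mv.tm m < S.T) (hfi : ∀ r, Inv (S.W r m) (f r)) (n : ℕ) (r : List ℕ) :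
    Inv (S.W r m) (S.tauT wt f m n r) := by
  classical
  cases n with
  | zero => exact hfi r
  | succ n =>
    intro x w hw
    rw [tauT_succ, tauT_succ]
    split_ifs with hl
    · rfl
    · rw [kl_inv r hm x w hw]
      exact inv_fib _ _ x w hw

lemma measurableSet_nlf (r : List ℕ) (m n : ℕ) : MeasurableSet (S.nlf r m n) := by
  classical
  have e : S.nlf r m n = ⋂ (k : ℕ), ⋂ (_ : k < n),
      {x | x ∈ (fun q => if S.Leaf q m then (∅ : Set E) else univ) (S.nb r m x k)} := by
    ext x
    simp only [nlf, mem_setOf_eq, mem_iInter]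
    refine forall_congr' fun k => forall_congr' fun _ => ?_
    split_ifs with h <;> simp [h]
  rw [e]
  refine MeasurableSet.iInter fun k => MeasurableSet.iInter fun _ => ?_
  exact measurableSet_nb (S := S) r m k
    (s := fun q => if S.Leaf q m then (∅ : Set E) else univ) fun q => by
      show MeasurableSet (if S.Leaf q m then (∅ : Set E) else univ)
      split_ifs
      · exact MeasurableSet.empty
      · exact MeasurableSet.univ

/-- **unfolding**, one node. -/
theorem unfold_node (hm : S.mv.tm m < S.T)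
    (hwt : ∀ c r y, ¬ S.Leaf r m → S.As S.th (c :: r) m y ≤ wt c r y * S.As S.th r m y)
    (hw : ∀ c r, Measurable (wt c r)) (hf : ∀ r, Measurable (f r))
    (hfi : ∀ r, Inv (S.W r m) (f r)) (n : ℕ) : ∀ (r : List ℕ) (x : E),
    fib (S.W r m) (fun y => iw (S.nlf r m n) y *
      (S.As S.th (S.nb r m y n) m y * f (S.nb r m y n) y)) x ≤
      S.As S.th r m x * S.tauT wt f m n r x := by
  classical
  induction n with
  | zero =>
    intro r x
    have h1 : fib (S.W r m) (fun y => S.As S.th r m y * f r y) x = S.As S.th r m x * f r x :=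
      H395.fib_eq_self (fun x w hw => by
        show S.As S.th r m (x + w) * f r (x + w) = _
        rw [S.As_inv _ r m x w hw, hfi r x w hw]) x
    rw [tauT_zero, ← h1]
    refine fib_mono (fun y => ?_) x
    calc iw (S.nlf r m 0) y * (S.As S.th (S.nb r m y 0) m y * f (S.nb r m y 0) y)
        ≤ 1 * (S.As S.th r m y * f r y) := by
          gcongr
          · exact indicator_le_one' _ _
          · exact le_rfl
          · exact le_rfl
      _ = _ := one_mul _
  | succ n ih =>
    intro r x
    rw [tauT_succ]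
    split_ifs with hl
    · rw [mul_zero]
      refine le_of_eq_of_le ?_ le_rfl
      have h1 : (fun y => iw (S.nlf r m (n + 1)) y *
          (S.As S.th (S.nb r m y (n + 1)) m y * f (S.nb r m y (n + 1)) y)) = fun _ => 0 := by
        funext y
        have h2 : y ∉ S.nlf r m (n + 1) := fun h => h 0 (Nat.succ_pos n) hl
        unfold iw
        rw [Set.indicator_of_notMem h2, zero_mul]
      rw [h1, H395.fib_const]
    · set c := S.kl r m x with hc
      set F : ℕ → E → ℝ≥0∞ := fun c y => iw (S.nlf (c :: r) m n) y *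
        (S.As S.th (S.nb (c :: r) m y n) m y * f (S.nb (c :: r) m y n) y) with hF
      have hFm : ∀ c, Measurable (F c) := fun c =>
        (iw_meas (measurableSet_nlf _ _ _)).mul
          (measurable_nb (c :: r) m n (F := fun q y => S.As S.th q m y * f q y) fun q =>
            (S.As_meas _ q m).mul (hf q))
      have h1 : fib (S.W r m) (fun y => iw (S.nlf r m (n + 1)) y *
          (S.As S.th (S.nb r m y (n + 1)) m y * f (S.nb r m y (n + 1)) y)) x ≤
          fib (S.W r m) (fun y => F (S.kl r m y) y) x := by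
        refine fib_mono (fun y => ?_) x
        simp only [hF]
        rw [S.nb_succ' r m y n]
        refine mul_le_mul_left ?_ _
        by_cases h2 : y ∈ S.nlf r m (n + 1)
        · have h3 : y ∈ S.nlf (S.kl r m y :: r) m n := fun k hk => by
            have h4 := h2 (k + 1) (by omega)
            rwa [S.nb_succ' r m y k] at h4
          rw [iw, iw, Set.indicator_of_mem h2, Set.indicator_of_mem h3]
        · rw [iw, Set.indicator_of_notMem h2]
          exact zero_le
      refine h1.trans ?_
      rw [H395.Tree.fib_sel (kl_inv r hm) F x, ← hc]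
      rw [← H395.fib_tower (S.W_le c r m) (hFm c)]
      have h5 : ∀ y, fib (S.W (c :: r) m) (F c) y ≤
          S.As S.th r m y * (wt c r y * S.tauT wt f m n (c :: r) y) := fun y => by
        refine (ih (c :: r) y).trans ?_
        refine (mul_le_mul_left (hwt c r y hl) _).trans (le_of_eq ?_)
        ring
      refine (fib_mono h5 x).trans (le_of_eq ?_)
      exact H395.fib_mul (fun x w hw => S.As_inv _ r m x w hw)
        ((hw c r).mul (tauT_meas hw hf n (c :: r))) x

end unfold

/-! ### the payoff of the throughput -/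

variable (S)

/-- the payoff of the throughput at a label of `r`: change of the body over `(deficit) ^ th` -/
noncomputable def pay (m : ℕ) (r : List ℕ) (x : E) : ℝ≥0∞ := S.Dl r m x / S.Dc r m x ^ S.th

variable {S}

lemma pay_meas (m : ℕ) (r : List ℕ) : Measurable (S.pay m r) :=
  (S.Dl_meas r m).div ((S.Dc_meas r m).pow_const _)

lemma pay_inv (m : ℕ) (r : List ℕ) : Inv (S.W r m) (S.pay m r) := by
  intro x w hw
  unfold pay
  rw [S.Dl_inv r m x w hw, S.Dc_inv r m x w hw]

lemma xd_le (m : ℕ) (r : List ℕ) (x : E) : S.xd r m x ≤ S.As S.th r m x * S.pay m r x := by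
  have hth := S.hth
  unfold xd pay
  by_cases h0 : S.Dc r m x = 0
  · have : S.Dl r m x = 0 := le_antisymm (h0 ▸ S.Dl_le_Dc r m x) zero_le
    rw [this, mul_zero]
    exact zero_le
  · have h1 : S.A r m x / max (S.A r m x) (S.Dc r m x) ≤ S.A r m x / S.Dc r m x :=
      ENNReal.div_le_div_left (le_max_right _ _) _
    calc (S.A r m x / max (S.A r m x) (S.Dc r m x)) ^ S.th * S.Dl r m x
        ≤ (S.A r m x / S.Dc r m x) ^ S.th * S.Dl r m x := by
          gcongr
      _ = S.As S.th r m x * (S.Dl r m x / S.Dc r m x ^ S.th) := by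
          rw [ENNReal.div_rpow_of_nonneg _ _ hth.le, S.A_rpow hth.le, div_eq_mul_inv,
            div_eq_mul_inv]
          ring

/-! ### the labels through which the rotation goes -/

lemma thru_iff {c : ℕ} {p : List ℕ} {m : ℕ} (hj : S.mv.jj m = c :: p) (x : E) :
    x ∈ S.thru (p.length + 1) m ↔ S.nd m x p.length = p ∧ S.kl p m x = c := by
  unfold thru
  rw [mem_setOf_eq, nd_succ, hj]
  constructor
  · intro h
    obtain ⟨h1, h2⟩ := List.cons.inj h
    rw [h2] at h1
    exact ⟨h2, h1⟩
  · rintro ⟨h1, h2⟩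
    rw [h1, h2]

lemma measurableSet_thru (j m : ℕ) : MeasurableSet (S.thru j m) := by
  classical
  have e : S.thru j m = {x | x ∈ (fun r => if r = S.mv.jj m then (univ : Set E) else ∅)
      (S.nd m x j)} := by
    ext x
    simp only [thru, mem_setOf_eq]
    split_ifs with h <;> simp [h]
  rw [e]
  exact measurableSet_nd (S := S) m j
    (s := fun r => if r = S.mv.jj m then (univ : Set E) else ∅) fun r => by
      show MeasurableSet (if r = S.mv.jj m then (univ : Set E) else ∅)
      split_ifs
      · exact MeasurableSet.univ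
      · exact MeasurableSet.empty

lemma thru_OL_inv {c : ℕ} {p : List ℕ} {m : ℕ} (hm : S.mv.tm m < S.T)
    (hj : S.mv.jj m = c :: p) :
    InvS (S.W p m) (S.thru (p.length + 1) m ∩ S.OL (p.length + 1) m) := by
  have key : ∀ x : E, ∀ w ∈ (S.W p m)ᗮ,
      x ∈ S.thru (p.length + 1) m ∩ S.OL (p.length + 1) m →
      x + w ∈ S.thru (p.length + 1) m ∩ S.OL (p.length + 1) m := by
    rintro x w hw ⟨h1, h2⟩
    have h3 := (thru_iff hj x).1 h1
    have h4 : w ∈ (S.W (S.nd m x p.length) m)ᗮ := by rw [h3.1]; exact hw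
    have h5 := nd_inv (S := S) hm x p.length h4
    refine ⟨?_, ?_⟩
    · show S.nd m (x + w) (p.length + 1) = S.mv.jj m
      rw [h5 _ le_rfl]
      exact h1
    · intro i hi
      rw [h5 i (by omega)]
      have h6 : w ∈ (S.W (S.nd m x i) m)ᗮ :=
        Submodule.orthogonal_le (S.W_mono (nd_suffix_nd m x (by omega)) m) h4
      exact (om_inv _ hm x w h6).2 (h2 i hi)
  intro x w hw
  constructor
  · intro h
    have h1 := key (x + w) (-w) (Submodule.neg_mem _ hw) h
    rwa [add_neg_cancel_right] at h1
  · exact key x w hw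

lemma iw_inv {W : Submodule ℝ E} {s : Set E} (h : InvS W s) : Inv W (iw s : E → ℝ≥0∞) := by
  intro x w hw
  unfold iw
  by_cases hx : x ∈ s
  · rw [Set.indicator_of_mem ((h x w hw).2 hx), Set.indicator_of_mem hx]
    rfl
  · rw [Set.indicator_of_notMem (fun h' => hx ((h x w hw).1 h')), Set.indicator_of_notMem hx]

/-- **(UNFOLD)** the throughput `n` levels below the rotating node is at most the average of `tau`
over the labels of its parent. -/
theorem thq_le_tau {wt : ℕ → List ℕ → E → ℝ≥0∞} {c : ℕ} {p : List ℕ} {m : ℕ} (hm : m < S.mT)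
    (hj : S.mv.jj m = c :: p)
    (hwt : ∀ c r y, ¬ S.Leaf r m → S.As S.th (c :: r) m y ≤ wt c r y * S.As S.th r m y)
    (hwp : ∀ y, S.As S.th (c :: p) m y ≤ wt c p y * S.As S.th p m y)
    (hw : ∀ c r, Measurable (wt c r)) (n : ℕ) :
    S.thq (p.length + 1) (p.length + 1 + n) m ≤
      ∫⁻ x, iw (S.thru (p.length + 1) m ∩ S.OL (p.length + 1) m) x * (S.As S.th p m x *
        fib (S.W p m) (fun y => wt c p y * S.tauT wt (S.pay m) m n (c :: p) y) x)
        ∂stdGaussian E := by
  classical
  have hT := tm_lt_mT hm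
  set A : Set E := S.thru (p.length + 1) m ∩ S.OL (p.length + 1) m with hA
  have hAm : MeasurableSet A := (measurableSet_thru _ _).inter (measurableSet_OL _ _)
  have hAi : InvS (S.W p m) A := thru_OL_inv hT hj
  set G : E → ℝ≥0∞ := fun x => iw (S.nlf (c :: p) m n) x *
    (S.As S.th (S.nb (c :: p) m x n) m x * S.pay m (S.nb (c :: p) m x n) x) with hG
  have hGm : Measurable G := (iw_meas (measurableSet_nlf _ _ _)).mul
    (measurable_nb (c :: p) m n (F := fun q y => S.As S.th q m y * S.pay m q y) fun q =>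
      (S.As_meas _ q m).mul (pay_meas m q))
  have h1 : S.thq (p.length + 1) (p.length + 1 + n) m ≤ ∫⁻ x, iw A x * G x ∂stdGaussian E := by
    unfold thq
    refine lintegral_mono fun x => ?_
    by_cases hx : x ∈ S.thru (p.length + 1) m ∩ S.OL (p.length + 1) m ∩
        S.alj (p.length + 1) (p.length + 1 + n) m
    · have e1 : S.nd m x (p.length + 1) = c :: p := by
        have := hx.1.1
        rwa [thru, mem_setOf_eq, hj] at this
      have e2 : ∀ k, S.nd m x (p.length + 1 + k) = S.nb (c :: p) m x k := fun k => by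
        rw [nd_add, e1]
      have h2 : x ∈ S.nlf (c :: p) m n := fun k hk => by
        have := (hx.2 (p.length + 1 + k) (by omega) (by omega)).2
        rwa [e2] at this
      rw [iw, Set.indicator_of_mem hx, iw, Set.indicator_of_mem (show x ∈ A from hx.1)]
      simp only [hG]
      rw [iw, Set.indicator_of_mem h2, e2]
      simp only [Pi.one_apply, one_mul]
      exact xd_le m _ x
    · rw [iw, Set.indicator_of_notMem hx, zero_mul]
      exact zero_le
  refine h1.trans ?_
  have h2 : ∫⁻ x, iw A x * G x ∂stdGaussian E =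
      ∫⁻ x, iw A x * fib (S.W p m) G x ∂stdGaussian E := by
    rw [← H395.lintegral_fib (W := S.W p m) (f := fun x => iw A x * G x) ((iw_meas hAm).mul hGm)]
    refine lintegral_congr fun x => ?_
    exact H395.fib_mul (iw_inv hAi) hGm x
  rw [h2]
  refine lintegral_mono fun x => ?_
  refine mul_le_mul_right ?_ _
  rw [← H395.fib_tower (S.W_le c p m) hGm]
  have h5 : ∀ y, fib (S.W (c :: p) m) G y ≤
      S.As S.th p m y * (wt c p y * S.tauT wt (S.pay m) m n (c :: p) y) := fun y => by
    refine (unfold_node hT hwt hw (pay_meas m) (pay_inv m) n (c :: p) y).trans ?_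
    refine (mul_le_mul_left (hwp y) _).trans (le_of_eq ?_)
    ring
  refine (fib_mono h5 x).trans (le_of_eq ?_)
  exact H395.fib_mul (fun x w hw => S.As_inv _ p m x w hw)
    ((hw c p).mul (tauT_meas hw (pay_meas m) n (c :: p))) x

/-- **the pointwise line of (THR)**: at every label `x` of the parent `p` of the rotating node
`c :: p` (counted ancestors, not killed, of class `c`). -/
def Line (wt : ℕ → List ℕ → E → ℝ≥0∞) (CT lam : ℝ) (m c : ℕ) (p : List ℕ) : Prop :=
  ∀ n, p.length + 1 + n ≤ S.nl → ∀ x, S.nd m x p.length = p → x ∈ S.OL (p.length + 1) m →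
    x ∈ S.om p m → S.kl p m x = c →
    fib (S.W p m) (fun y => wt c p y * S.tauT wt (S.pay m) m n (c :: p) y) x ≤
      ENNReal.ofReal (CT * S.mv.ph m * lam ^ (S.kr m + n)) * (S.psi p m x * S.s2 p m x)

/-- from the pointwise line to the throughput, one rotation -/
theorem thq_of_line {wt : ℕ → List ℕ → E → ℝ≥0∞} {CT lam : ℝ} {c : ℕ} {p : List ℕ} {m : ℕ}
    (hm : m < S.mT) (hj : S.mv.jj m = c :: p)
    (hwt : ∀ c r y, ¬ S.Leaf r m → S.As S.th (c :: r) m y ≤ wt c r y * S.As S.th r m y)
    (hwp : ∀ y, S.As S.th (c :: p) m y ≤ wt c p y * S.As S.th p m y)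
    (hw : ∀ c r, Measurable (wt c r)) (hL : Line (S := S) wt CT lam m c p) (i : ℕ)
    (hi : p.length + 1 ≤ i) (hi' : i ≤ S.nl) :
    S.thq (p.length + 1) i m ≤
      ENNReal.ofReal (CT * S.mv.ph m * lam ^ (S.kr m + (i - (p.length + 1)))) *
        S.Rw p.length m := by
  obtain ⟨n, rfl⟩ : ∃ n, i = p.length + 1 + n := ⟨i - (p.length + 1), by omega⟩
  refine (thq_le_tau hm hj hwt hwp hw n).trans ?_
  unfold Rw
  rw [← lintegral_const_mul' _ _ ENNReal.ofReal_ne_top]
  refine lintegral_mono fun x => ?_
  by_cases hx : x ∈ S.thru (p.length + 1) m ∩ S.OL (p.length + 1) m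
  · have h1 := (thru_iff hj x).1 hx.1
    have h2 : x ∈ S.om p m := by
      have := hx.2 p.length (Nat.lt_succ_self _)
      rwa [h1.1] at this
    have h3 := hL n (by omega) x h1.1 hx.2 h2 h1.2
    rw [iw, Set.indicator_of_mem hx, h1.1]
    simp only [Pi.one_apply, one_mul]
    have e : p.length + 1 + n - (p.length + 1) = n := by omega
    rw [e]
    calc S.As S.th p m x *
          fib (S.W p m) (fun y => wt c p y * S.tauT wt (S.pay m) m n (c :: p) y) x
        ≤ S.As S.th p m x * (ENNReal.ofReal (CT * S.mv.ph m * lam ^ (S.kr m + n)) *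
          (S.psi p m x * S.s2 p m x)) := mul_le_mul_right h3 _
      _ = _ := by ring
  · rw [iw, Set.indicator_of_notMem hx, zero_mul]
    exact zero_le

/-- **(THR), parent of class `≥ 1`**, from the pointwise line -/
theorem THRp_of_line {wt : ℕ → ℕ → List ℕ → E → ℝ≥0∞} {CT lam : ℝ}
    (hwt : ∀ m < S.mT, ∀ c r y, S.As S.th (c :: r) m y ≤ wt m c r y * S.As S.th r m y)
    (hw : ∀ m c r, Measurable (wt m c r))
    (hL : ∀ m < S.mT, S.mv.IsRot m → ∀ c p, S.mv.jj m = c :: p → c ≠ 0 →
      Line (S := S) (wt m) CT lam m c p) : S.THRp CT lam := by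
  intro m hm hr c p hj hc i hi hi'
  exact thq_of_line hm hj (fun c r y _ => hwt m hm c r y) (hwt m hm c p) (hw m)
    (hL m hm hr c p hj hc) i hi hi'

/-- **(THR), parent of class `0`**, from the pointwise line -/
theorem THR0_of_line {wt : ℕ → ℕ → List ℕ → E → ℝ≥0∞} {CT lam : ℝ}
    (hwt : ∀ m < S.mT, ∀ c r y, S.As S.th (c :: r) m y ≤ wt m c r y * S.As S.th r m y)
    (hw : ∀ m c r, Measurable (wt m c r))
    (hL : ∀ m < S.mT, S.mv.IsRot m → ∀ p, S.mv.jj m = 0 :: p →
      Line (S := S) (wt m) CT lam m 0 p) : S.THR0 CT lam := by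
  intro m hm hr p hj i hi hi'
  exact thq_of_line hm hj (fun c r y _ => hwt m hm c r y) (hwt m hm 0 p) (hw m)
    (hL m hm hr p hj) i hi hi'

end Vale.Agent.P262.M2.Sys
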