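import Vale.Agent.P262.M2.Close
import Vale.Agent.P262.M2.Blocks

/-!
# P262, milestone 2: the Prop CLOSE of the interface
-/

set_option linter.all false

namespace Vale.Agent.P262.M2.Sys

variable {E : Type*} [NormedAddCommGroup E] [InnerProductSpace ℝ E] [FiniteDimensional ℝ E]
  [MeasurableSpace E] [BorelSpace E] {S : Sys E}

/-- **CLOSE** -/
theorem close (hε : 2 * (Real.sqrt 2 * Real.exp (-(S.qq / 4))) ≤ 1 / 2) (hk : S.kp 1 ≤ 1 / 2)
    (hA : 16 * (S.M + 1) * S.kp 1 ≤ 1) : S.CLOSE :=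
  fun _ _ _ hm _ hx => close_F hε hk hA hm hx

end Vale.Agent.P262.M2.Sys
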