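import Vale.Agent.P262.M2.Top

/-!
# P262, milestone 2: existence of the constants

`Small2 K n Lam c`: the constants `c` are small in the order `c0, M, b0, A0, kap, C0` with the
absolute numbers `K, n` and the parameter `Lam ≥ 1` of the rotation block (`kap` is chosen last,
from `Lam`).  `exists_small2`: such constants exist, with `C0 ≤ C1 √(1 + log Lam)`; everything except
`kap` and `C0` is independent of `Lam`.  `exists_fam`: the same for `Lam = C2 (1 + log (d+1))` with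
class bounds `cm d`, `K (cm d + 1) ≤ Lam d`.
`Sys.Sm`: the smallness for a system.  `sigma_of`, `sigma_fam`: the closed root estimate for all
systems with small constants implies the bounds for `signedConst`.
-/

set_option linter.all false

open MeasureTheory ProbabilityTheory Set
open scoped ENNReal RealInnerProductSpace

namespace Vale.Agent.P262.M2

open Real

/-- **smallness of the constants** -/
structure Small2 (K : ℝ) (n : ℕ) (Lam : ℝ) (c : Cst) : Prop where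
  th : c.th = 1 / 2
  qq : c.qq = 200
  q0 : c.q0 = ENNReal.ofReal (exp (-1420))
  δ : c.δ = 1 / 10 ^ 6
  ρ : c.ρ = 1 / 1000
  c0 : K * c.c0 ≤ 1
  M0 : K ≤ c.M
  M : K * (1 / c.c0) ^ n ≤ c.M
  b0 : K * (c.M / c.c0) ^ n * c.b0 ≤ 1
  A0 : K * (c.M / (c.c0 * c.b0)) ^ n * c.A0 ≤ 1
  A0' : K * c.A0 ≤ c.b0
  kap : K * (Lam * c.M / (c.c0 * c.b0 * c.A0)) ^ n * c.kap ^ (1 / ((n : ℝ) + 2)) ≤ 1
  rad : ∀ D d : ℕ, D ≤ d → 1 ≤ d →
    (sqrt (c.qq * D) + sqrt (8 * log (c.b0 / (c.A0 * c.kap ^ D)))) ^ 2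
      + 8 * (K + log (1 / (c.A0 * c.kap ^ D))) ≤ c.C0 ^ 2 * d

/-! ### auxiliary facts -/

lemma rad_aux {q b0 A0 kap K0 C0 : ℝ} (hq : 0 ≤ q) (hA : 0 < A0) (hAb : A0 ≤ b0) (hb : b0 ≤ 1)
    (hk : 0 < kap) (hk1 : kap ≤ 1) (hK : 0 ≤ K0)
    (hC : C0 ^ 2 = 2 * q + 24 * log (1 / kap) + 24 * log (1 / A0) + 8 * K0) (D d : ℕ)
    (hDd : D ≤ d) (hd : 1 ≤ d) :
    (sqrt (q * D) + sqrt (8 * log (b0 / (A0 * kap ^ D)))) ^ 2
      + 8 * (K0 + log (1 / (A0 * kap ^ D))) ≤ C0 ^ 2 * d := by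
  have hD : (D : ℝ) ≤ d := by exact_mod_cast hDd
  have hd1 : (1 : ℝ) ≤ d := by exact_mod_cast hd
  have hD0 : (0 : ℝ) ≤ D := Nat.cast_nonneg D
  have hb0 : 0 < b0 := hA.trans_le hAb
  have hkD : 0 < kap ^ D := pow_pos hk D
  have lk : 0 ≤ log (1 / kap) := log_nonneg (by rw [one_div]; exact (one_le_inv₀ hk).2 hk1)
  have lA : 0 ≤ log (1 / A0) := log_nonneg (by
    rw [one_div]; exact (one_le_inv₀ hA).2 (hAb.trans hb))
  have lb : log b0 ≤ 0 := log_nonpos hb0.le hb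
  have lb2 : log A0 ≤ log b0 := log_le_log hA hAb
  have eA : log (1 / A0) = -log A0 := by rw [one_div, log_inv]
  have ek : log (1 / kap) = -log kap := by rw [one_div, log_inv]
  have e1 : log (b0 / (A0 * kap ^ D)) = log b0 + log (1 / A0) + D * log (1 / kap) := by
    rw [log_div hb0.ne' (mul_pos hA hkD).ne', log_mul hA.ne' hkD.ne', log_pow, eA, ek]
    ring
  have e2 : log (1 / (A0 * kap ^ D)) = log (1 / A0) + D * log (1 / kap) := by
    rw [one_div, log_inv, log_mul hA.ne' hkD.ne', log_pow, eA, ek]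
    ring
  have h1 : 0 ≤ log (b0 / (A0 * kap ^ D)) := by
    rw [e1]
    have : 0 ≤ (D : ℝ) * log (1 / kap) := mul_nonneg hD0 lk
    linarith
  have h2 : (sqrt (q * D) + sqrt (8 * log (b0 / (A0 * kap ^ D)))) ^ 2
      ≤ 2 * (q * D) + 2 * (8 * log (b0 / (A0 * kap ^ D))) := by
    have s1 := sq_sqrt (show 0 ≤ q * (D : ℝ) by positivity)
    have s2 := sq_sqrt (show 0 ≤ 8 * log (b0 / (A0 * kap ^ D)) by positivity)
    nlinarith [sq_nonneg (sqrt (q * D) - sqrt (8 * log (b0 / (A0 * kap ^ D))))]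
  have h3 : (D : ℝ) * log (1 / kap) ≤ d * log (1 / kap) := mul_le_mul_of_nonneg_right hD lk
  have h4 : q * D ≤ q * d := mul_le_mul_of_nonneg_left hD hq
  have h5 : log (1 / A0) ≤ log (1 / A0) * d := by nlinarith
  have h6 : K0 ≤ K0 * d := by nlinarith
  rw [e1] at h2
  rw [e1] at *
  rw [e2, hC]
  nlinarith

/-- constants for given `c0, M, b0, A0, kap` -/
lemma exists_cst_aux {c0 M b0 A0 kap K0 : ℝ} (hc0 : 0 < c0) (hc1 : c0 < 1 / 10 ^ 6) (hM : 2 ≤ M)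
    (hA : 0 < A0) (hA1 : A0 ≤ 1 / 400) (hk : 0 < kap) (hk1 : kap ≤ 1) (hAb : A0 ≤ b0)
    (hMb : 2 * (M + 1) * b0 ≤ 1 / 16) (hK : 1 ≤ K0) :
    ∃ c : Cst, c.th = 1 / 2 ∧ c.qq = 200 ∧ c.q0 = ENNReal.ofReal (exp (-1420)) ∧
      c.δ = 1 / 10 ^ 6 ∧ c.ρ = 1 / 1000 ∧ c.c0 = c0 ∧ c.M = M ∧ c.b0 = b0 ∧ c.A0 = A0 ∧
      c.kap = kap ∧
      c.C0 ^ 2 = 2 * 200 + 24 * log (1 / kap) + 24 * log (1 / A0) + 8 * K0 := by
  have lk : 0 ≤ log (1 / kap) := log_nonneg (by rw [one_div]; exact (one_le_inv₀ hk).2 hk1)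
  have lA : 0 ≤ log (1 / A0) := log_nonneg (by
    rw [one_div]; exact (one_le_inv₀ hA).2 (by linarith))
  set X := 2 * 200 + 24 * log (1 / kap) + 24 * log (1 / A0) + 8 * K0 with hX
  have hX1 : 1 ≤ X := by linarith
  have hX0 : 0 ≤ X := by linarith
  refine ⟨{ δ := 1 / 10 ^ 6
            c0 := c0
            ρ := 1 / 1000
            M := M
            th := 1 / 2
            A0 := A0
            kap := kap
            qq := 200
            b0 := b0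
            q0 := ENNReal.ofReal (exp (-1420))
            C0 := sqrt X
            hδ := by norm_num
            hδ1 := by norm_num
            hc0 := hc0
            hc0δ := hc1
            hρ := by norm_num
            hρ1 := by norm_num
            hM := hM
            hth := by norm_num
            hth1 := by norm_num
            hA0 := hA
            hA1 := hA1
            hkap := hk
            hkap1 := hk1
            hqq := by norm_num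
            hAb := hAb
            hMb := hMb
            hq0 := ?_
            hq1 := ?_
            hC1 := ?_
            hC0 := ?_ }, rfl, rfl, rfl, rfl, rfl, rfl, rfl, rfl, rfl, rfl, ?_⟩
  · exact ENNReal.ofReal_pos.2 (exp_pos _)
  · have h1 : exp (-1420) ≤ 1 / 8 := by
      have h2 : (8 : ℝ) ≤ exp 1420 := by
        have := add_one_le_exp (1420 : ℝ)
        linarith
      rw [exp_neg, one_div]
      exact inv_anti₀ (by norm_num) h2
    calc ENNReal.ofReal (exp (-1420)) ≤ ENNReal.ofReal (1 / 8) := ENNReal.ofReal_le_ofReal h1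
      _ = 1 / 8 := by
        rw [ENNReal.ofReal_div_of_pos (by norm_num)]
        norm_num
  · rw [one_le_sqrt]; exact hX1
  · rw [sq_sqrt hX0]
    have h1 : A0 = exp (-log (1 / A0)) := by rw [one_div, log_inv, neg_neg, exp_log hA]
    have h2 : (2 : ℝ) ≤ exp 1 := by
      have := add_one_le_exp (1 : ℝ)
      linarith
    calc 2 * exp (-(3 / 8 * X)) ≤ exp 1 * exp (-(3 / 8 * X)) := by
          gcongr
      _ = exp (1 + -(3 / 8 * X)) := (exp_add _ _).symm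
      _ ≤ exp (-log (1 / A0)) := exp_le_exp.2 (by linarith)
      _ = A0 := h1.symm
  · exact sq_sqrt hX0

/-! ### existence -/

/-- the absolute constants -/
lemma exists_base2 {K0 : ℝ} (hK1 : (10 : ℝ) ^ 6 ≤ K0) {m : ℕ} (hm : 1 ≤ m) :
    ∃ c0 M b0 A0 : ℝ, 0 < c0 ∧ c0 < 1 / 10 ^ 6 ∧ K0 * c0 ≤ 1 ∧ K0 ≤ M ∧ K0 * (1 / c0) ^ m ≤ M ∧
      0 < b0 ∧ b0 ≤ 1 ∧ K0 * (M / c0) ^ m * b0 ≤ 1 ∧ K0 * M * b0 ≤ 1 ∧ 0 < A0 ∧
      K0 * (M / (c0 * b0)) ^ m * A0 ≤ 1 ∧ K0 * A0 ≤ b0 ∧ 1 ≤ 1 / c0 ∧ 1 ≤ M / c0 ∧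
      1 ≤ M / (c0 * b0) ∧ 1 ≤ M / (c0 * b0 * A0) := by
  have hK2 : (1 : ℝ) ≤ K0 := le_trans (by norm_num) hK1
  have hKp : (0 : ℝ) < K0 := by linarith only [hK2]
  obtain ⟨c0, hc0⟩ : ∃ c0 : ℝ, c0 = 1 / (K0 * 10 ^ 7) := ⟨_, rfl⟩
  have hc0p : 0 < c0 := by rw [hc0]; positivity
  have hc0K : K0 * c0 = 1 / 10 ^ 7 := by rw [hc0]; field_simp
  have hc0δ : c0 < 1 / 10 ^ 6 := by
    have h1 : c0 ≤ K0 * c0 := by nlinarith only [hK2, hc0p]
    rw [hc0K] at h1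
    exact lt_of_le_of_lt h1 (by norm_num)
  have hc01 : c0 ≤ 1 := hc0δ.le.trans (by norm_num)
  have hQ : 1 ≤ 1 / c0 := by rw [le_div_iff₀ hc0p]; linarith only [hc01]
  obtain ⟨M, hM⟩ : ∃ M : ℝ, M = K0 * (1 / c0) ^ m := ⟨_, rfl⟩
  have hMK : K0 ≤ M := by
    rw [hM]; nlinarith only [one_le_pow₀ (n := m) hQ, hKp]
  have hM1 : 1 ≤ M := hK2.trans hMK
  have hM0 : 0 < M := by linarith only [hM1]
  have hMc : 1 ≤ M / c0 := by rw [le_div_iff₀ hc0p]; linarith only [hM1, hc01]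
  have hMc' : M ≤ M / c0 := by
    rw [le_div_iff₀ hc0p]; nlinarith only [hM0, hc01]
  have hMcm : 1 ≤ (M / c0) ^ m := one_le_pow₀ hMc
  obtain ⟨b0, hb0⟩ : ∃ b0 : ℝ, b0 = 1 / (K0 * (M / c0) ^ m) := ⟨_, rfl⟩
  have hden : 0 < K0 * (M / c0) ^ m := by positivity
  have hb0p : 0 < b0 := by rw [hb0]; positivity
  have hb0K : K0 * (M / c0) ^ m * b0 = 1 := by
    rw [hb0, mul_one_div, div_self hden.ne']
  have hb01 : b0 ≤ 1 := by
    rw [hb0, div_le_one hden]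
    nlinarith only [hMcm, hK2]
  have hMb : K0 * M * b0 ≤ 1 := by
    rw [← hb0K]
    have h1 : M ≤ (M / c0) ^ m := by
      calc M ≤ (M / c0) ^ 1 := by rw [pow_one]; exact hMc'
        _ ≤ _ := pow_le_pow_right₀ hMc hm
    gcongr
  have hcbp : 0 < c0 * b0 := mul_pos hc0p hb0p
  have hcb : c0 * b0 ≤ 1 := by
    calc c0 * b0 ≤ 1 * 1 := mul_le_mul hc01 hb01 hb0p.le (by norm_num)
      _ = 1 := one_mul 1
  have hMcb : 1 ≤ M / (c0 * b0) := by rw [le_div_iff₀ hcbp]; linarith only [hM1, hcb]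
  have hMcbm : 1 ≤ (M / (c0 * b0)) ^ m := one_le_pow₀ hMcb
  obtain ⟨A0, hA0⟩ : ∃ A0 : ℝ, A0 = b0 / (K0 * (M / (c0 * b0)) ^ m) := ⟨_, rfl⟩
  have hden2 : 0 < K0 * (M / (c0 * b0)) ^ m := by positivity
  have hA0p : 0 < A0 := by rw [hA0]; positivity
  have hAK : K0 * (M / (c0 * b0)) ^ m * A0 = b0 := by
    rw [hA0, mul_div_cancel₀ _ hden2.ne']
  have hAb' : K0 * A0 ≤ b0 := by
    have h2 : 0 ≤ K0 * A0 := by positivity
    calc K0 * A0 = K0 * 1 * A0 := by ring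
      _ ≤ K0 * (M / (c0 * b0)) ^ m * A0 := by gcongr
      _ = b0 := hAK
  have hA01 : A0 ≤ 1 := by nlinarith only [hAb', hb01, hK2, hA0p]
  have hcbA : 0 < c0 * b0 * A0 := mul_pos hcbp hA0p
  have hcbA1 : c0 * b0 * A0 ≤ 1 := by
    calc c0 * b0 * A0 ≤ 1 * 1 := mul_le_mul hcb hA01 hA0p.le (by norm_num)
      _ = 1 := one_mul 1
  refine ⟨c0, M, b0, A0, hc0p, hc0δ, ?_, hMK, hM.ge, hb0p, hb01, hb0K.le, hMb, hA0p,
    hAK.le.trans hb01, hAb', hQ, hMc, hMcb, ?_⟩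
  · rw [hc0K]; norm_num
  · rw [le_div_iff₀ hcbA]; linarith only [hM1, hcbA1]

/-- the cap decay -/
lemma exists_kap2 {K0 P : ℝ} (hK : 1 ≤ K0) (hP : 1 ≤ P) (m n : ℕ) : ∃ Bk : ℝ, 1 ≤ Bk ∧
    ∀ Lam : ℝ, 1 ≤ Lam → ∃ kap : ℝ, 0 < kap ∧ kap ≤ 1 ∧
      K0 * (Lam * P) ^ m * kap ^ (1 / ((n : ℝ) + 2)) ≤ 1 ∧
      log (1 / kap) ≤ Bk * (1 + log Lam) := by
  have hKp : 0 < K0 := by linarith only [hK]
  have hP0 : 0 < P := by linarith only [hP]
  have hlP : 0 ≤ log P := log_nonneg hP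
  have hlK : 0 ≤ log K0 := log_nonneg hK
  have hm0 : (0 : ℝ) ≤ m := Nat.cast_nonneg m
  have hn0 : (0 : ℝ) ≤ n := Nat.cast_nonneg n
  have hn2 : (0 : ℝ) < (n : ℝ) + 2 := by linarith only [hn0]
  have hmP : 0 ≤ (m : ℝ) * log P := mul_nonneg hm0 hlP
  have hG0 : 0 ≤ log K0 + m * log P + m := by linarith only [hlK, hmP, hm0]
  refine ⟨((n : ℝ) + 2) * (log K0 + m * log P + m) + 1, ?_, fun Lam hL => ?_⟩
  · have := mul_nonneg hn2.le hG0
    linarith only [this]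
  have hL0 : 0 < Lam := by linarith only [hL]
  have hlL : 0 ≤ log Lam := log_nonneg hL
  have hLP : 1 ≤ Lam * P := by
    calc (1 : ℝ) = 1 * 1 := (one_mul 1).symm
      _ ≤ Lam * P := mul_le_mul hL hP (by norm_num) hL0.le
  have hLPm : 1 ≤ (Lam * P) ^ m := one_le_pow₀ hLP
  have hD0 : 0 < K0 * (Lam * P) ^ m := by positivity
  have hD1 : 1 ≤ K0 * (Lam * P) ^ m := by
    calc (1 : ℝ) = 1 * 1 := (one_mul 1).symm
      _ ≤ _ := mul_le_mul hK hLPm (by norm_num) hKp.le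
  refine ⟨(1 / (K0 * (Lam * P) ^ m)) ^ (n + 2), by positivity, ?_, ?_, ?_⟩
  · refine pow_le_one₀ (by positivity) ?_
    rw [div_le_one hD0]; exact hD1
  · have h1 : ((1 / (K0 * (Lam * P) ^ m)) ^ (n + 2)) ^ (1 / ((n : ℝ) + 2))
        = 1 / (K0 * (Lam * P) ^ m) := by
      rw [← rpow_natCast, ← rpow_mul (by positivity)]
      rw [show ((n + 2 : ℕ) : ℝ) * (1 / ((n : ℝ) + 2)) = 1 by push_cast; field_simp, rpow_one]
    rw [h1, mul_one_div, div_self hD0.ne']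
  · have hlk : log (1 / (1 / (K0 * (Lam * P) ^ m)) ^ (n + 2))
        = ((n : ℝ) + 2) * (log K0 + m * (log Lam + log P)) := by
      rw [one_div_pow, one_div_one_div, log_pow, log_mul hKp.ne' (by positivity), log_pow,
        log_mul hL0.ne' hP0.ne']
      push_cast
      ring
    rw [hlk]
    have h1 : log K0 + m * (log Lam + log P) ≤ (log K0 + m * log P + m) * (1 + log Lam) := by
      nlinarith only [mul_nonneg hlK hlL, mul_nonneg hmP hlL, mul_nonneg hm0 hlL, hlL, hm0]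
    have h2 := mul_le_mul_of_nonneg_left h1 hn2.le
    nlinarith only [h2, hlL]

/-- **existence of the constants**: everything except `kap` and `C0` is independent of `Lam`. -/
theorem exists_small2 (K : ℝ) (n : ℕ) : ∃ (c0 M b0 A0 Bk C1 : ℝ), 0 < A0 ∧ A0 ≤ 1 ∧ 1 ≤ Bk ∧
    1 ≤ C1 ∧ ∀ Lam : ℝ, 1 ≤ Lam → ∃ c : Cst, Small2 K n Lam c ∧ c.c0 = c0 ∧ c.M = M ∧ c.b0 = b0 ∧
      c.A0 = A0 ∧ log (1 / c.kap) ≤ Bk * (1 + log Lam) ∧ c.C0 ≤ C1 * sqrt (1 + log Lam) := by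
  obtain ⟨K0, hK1, hKK⟩ : ∃ K0 : ℝ, (10 : ℝ) ^ 6 ≤ K0 ∧ K ≤ K0 :=
    ⟨max K (10 ^ 6), le_max_right _ _, le_max_left _ _⟩
  have hK2 : (1 : ℝ) ≤ K0 := le_trans (by norm_num) hK1
  have hKp : (0 : ℝ) < K0 := by linarith only [hK2]
  obtain ⟨c0, M, b0, A0, hc0p, hc0δ, hc0K, hMK, hMc, hb0p, hb01, hb0K, hMb, hA0p, hAK, hAb', hQ,
    hMc1, hMcb1, hP1⟩ := exists_base2 hK1 (m := n + 1) (by omega)
  have hAb : A0 ≤ b0 := by nlinarith only [hAb', hK2, hA0p]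
  have hA01 : A0 ≤ 1 := hAb.trans hb01
  have hA400 : A0 ≤ 1 / 400 := by
    have h1 : (10 : ℝ) ^ 6 * A0 ≤ K0 * A0 := mul_le_mul_of_nonneg_right hK1 hA0p.le
    linarith only [h1, hAb', hb01]
  have hlA : 0 ≤ log (1 / A0) := log_nonneg (by
    rw [one_div]; exact (one_le_inv₀ hA0p).2 hA01)
  obtain ⟨Bk, hBk1, HB⟩ := exists_kap2 hK2 hP1 (n + 1) n
  refine ⟨c0, M, b0, A0, Bk, 2 * 200 + 24 * Bk + 24 * log (1 / A0) + 8 * K0, hA0p, hA01, hBk1,
    by linarith only [hlA, hBk1, hKp], fun Lam hL => ?_⟩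
  have hL0 : 0 < Lam := by linarith only [hL]
  have hlL : 0 ≤ log Lam := log_nonneg hL
  obtain ⟨kap, hkp, hk1, hkm, hlk⟩ := HB Lam hL
  have hM2 : 2 ≤ M := le_trans (le_trans (by norm_num) hK1) hMK
  have hMb2 : 2 * (M + 1) * b0 ≤ 1 / 16 := by
    have h1 : (10 : ℝ) ^ 6 * (M * b0) ≤ K0 * (M * b0) :=
      mul_le_mul_of_nonneg_right hK1 (by positivity)
    have h2 : b0 ≤ M * b0 := by nlinarith only [hM2, hb0p]
    linarith only [h1, h2, hMb]
  obtain ⟨c, e1, e2, e3, e4, e5, e6, e7, e8, e9, e10, e11⟩ := exists_cst_aux (K0 := K0) hc0p hc0δ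
    hM2 hA0p hA400 hkp hk1 hAb hMb2 hK2
  have key : ∀ {x y : ℝ}, 1 ≤ x → 0 ≤ y → K * x ^ n * y ≤ K0 * x ^ (n + 1) * y := by
    intro x y hx hy
    have h1 : x ^ n ≤ x ^ (n + 1) := pow_le_pow_right₀ hx (by omega)
    have h2 : 0 ≤ x ^ n := by positivity
    refine mul_le_mul_of_nonneg_right ?_ hy
    calc K * x ^ n ≤ K0 * x ^ n := mul_le_mul_of_nonneg_right hKK h2
      _ ≤ K0 * x ^ (n + 1) := mul_le_mul_of_nonneg_left h1 hKp.le
  refine ⟨c, ?_, e6, e7, e8, e9, by rw [e10]; exact hlk, ?_⟩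
  · refine ⟨e1, e2, e3, e4, e5, ?_, ?_, ?_, ?_, ?_, ?_, ?_, ?_⟩
    · rw [e6]
      exact (mul_le_mul_of_nonneg_right hKK hc0p.le).trans hc0K
    · rw [e7]; exact hKK.trans hMK
    · rw [e6, e7]
      have := key (y := 1) hQ (by norm_num)
      rw [mul_one, mul_one] at this
      exact this.trans hMc
    · rw [e6, e7, e8]
      exact (key hMc1 hb0p.le).trans hb0K
    · rw [e6, e7, e8, e9]
      exact (key hMcb1 hA0p.le).trans hAK
    · rw [e8, e9]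
      exact (mul_le_mul_of_nonneg_right hKK hA0p.le).trans hAb'
    · rw [e6, e7, e8, e9, e10]
      have h1 : Lam * M / (c0 * b0 * A0) = Lam * (M / (c0 * b0 * A0)) := by ring
      rw [h1]
      have h2 : 1 ≤ Lam * (M / (c0 * b0 * A0)) := by
        calc (1 : ℝ) = 1 * 1 := (one_mul 1).symm
          _ ≤ _ := mul_le_mul hL hP1 (by norm_num) hL0.le
      exact (key h2 (rpow_nonneg hkp.le _)).trans hkm
    · intro D d hDd hd
      have h1 := rad_aux (q := 200) (C0 := c.C0) (K0 := K0) (by norm_num) hA0p hAb hb01 hkp hk1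
        hKp.le e11 D d hDd hd
      rw [e2, e8, e9, e10]
      linarith only [h1, hKK]
  · have hC11 : 1 ≤ 2 * 200 + 24 * Bk + 24 * log (1 / A0) + 8 * K0 := by
      linarith only [hlA, hBk1, hKp]
    have h1 : c.C0 ^ 2 ≤ ((2 * 200 + 24 * Bk + 24 * log (1 / A0) + 8 * K0) *
        sqrt (1 + log Lam)) ^ 2 := by
      rw [mul_pow, sq_sqrt (by linarith only [hlL]), e11]
      have h2 : 2 * 200 + 24 * log (1 / kap) + 24 * log (1 / A0) + 8 * K0 ≤
          (2 * 200 + 24 * Bk + 24 * log (1 / A0) + 8 * K0) * (1 + log Lam) := by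
        nlinarith only [mul_nonneg hlA hlL, mul_nonneg hKp.le hlL, hlk, hlL]
      refine h2.trans ?_
      refine mul_le_mul_of_nonneg_right ?_ (by linarith only [hlL])
      nlinarith only [hC11]
    refine le_of_sq_le_sq h1 (mul_nonneg (by linarith only [hC11]) (sqrt_nonneg _))

/-! ### the family -/

/-- a class bound -/
lemma exists_cm2 {A0 kap : ℝ} (hA : 0 < A0) (hk : 0 < kap) {X : ℝ} (hX1 : 1 ≤ X) {D : ℕ}
    (hX : 1 + log (1 / A0) + D * log (1 / kap) ≤ X) :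
    ∃ cm : ℕ, exp (1 - 4 ^ cm) / 10 ≤ A0 * kap ^ D ∧ (cm : ℝ) ≤ log X + 1 := by
  have hX0 : 0 < X := by linarith only [hX1]
  have hlX : 0 ≤ log X := log_nonneg hX1
  have hl4 : 1 ≤ log 4 := by
    rw [le_log_iff_exp_le (by norm_num)]
    have := exp_one_lt_d9
    linarith
  have hl4' : 0 < log 4 := by linarith only [hl4]
  refine ⟨⌈log X / log 4⌉₊, ?_, ?_⟩
  · have h1 : X ≤ 4 ^ ⌈log X / log 4⌉₊ := by
      have h2 := Nat.le_ceil (log X / log 4)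
      rw [div_le_iff₀ hl4'] at h2
      have h3 : log X ≤ log (4 ^ ⌈log X / log 4⌉₊) := by rw [log_pow]; exact h2
      exact (log_le_log_iff hX0 (by positivity)).1 h3
    have h2 : exp (1 - 4 ^ ⌈log X / log 4⌉₊) ≤ A0 * kap ^ D := by
      have h3 : 0 < A0 * kap ^ D := by positivity
      rw [← exp_log h3]
      apply exp_le_exp.2
      rw [log_mul hA.ne' (by positivity), log_pow]
      rw [one_div, log_inv, one_div, log_inv] at hX
      linarith only [h1, hX]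
    have h3 := (exp_pos (1 - 4 ^ ⌈log X / log 4⌉₊)).le
    linarith only [h2, h3]
  · have h1 := (Nat.ceil_lt_add_one (div_nonneg hlX hl4'.le)).le
    have h2 : log X / log 4 ≤ log X := div_le_self hlX hl4
    linarith only [h1, h2]

/-- **constants depending on the dimension**: `Lam d = C2 (1 + log (d+1))`. -/
theorem exists_fam2 (K : ℝ) (n : ℕ) : ∃ (c : ℕ → Cst) (cm : ℕ → ℕ) (Lam : ℕ → ℝ) (C1 : ℝ),
    0 < C1 ∧ ∀ d : ℕ, 1 ≤ Lam d ∧ K * (cm d + 1) ≤ Lam d ∧ Small2 K n (Lam d) (c d) ∧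
      exp (1 - 4 ^ cm d) / 10 ≤ (c d).A0 * (c d).kap ^ (d + 1) ∧
      (c d).C0 ≤ C1 * sqrt (1 + log (1 + log ((d : ℝ) + 1))) := by
  obtain ⟨c0, M, b0, A0, Bk, C1, hA0, hA1, hBk, hC1, H⟩ := exists_small2 K n
  have hlA : 0 ≤ log (1 / A0) := log_nonneg (by
    rw [one_div]; exact (one_le_inv₀ hA0).2 hA1)
  obtain ⟨K1, hK1, hKK⟩ : ∃ K1 : ℝ, 1 ≤ K1 ∧ K ≤ K1 := ⟨max K 1, le_max_right _ _, le_max_left _ _⟩
  obtain ⟨B, hB⟩ : ∃ B : ℝ, B = 1 + log (1 / A0) + Bk := ⟨_, rfl⟩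
  have hB1 : 1 ≤ B := by linarith only [hB, hlA, hBk]
  obtain ⟨Y, hY⟩ : ∃ Y : ℝ, Y = K1 * (2 + B + 3 * Bk) := ⟨_, rfl⟩
  have hY1 : 1 ≤ Y := by
    rw [hY]
    have h1 : 1 * (2 + B + 3 * Bk) ≤ K1 * (2 + B + 3 * Bk) :=
      mul_le_mul_of_nonneg_right hK1 (by linarith only [hB1, hBk])
    linarith only [h1, hB1, hBk]
  have hY0 : 0 < Y := by linarith only [hY1]
  have hC2 : 1 ≤ Y ^ 2 := one_le_pow₀ hY1
  have hlC2 : log (Y ^ 2) ≤ 2 * Y := by
    rw [log_pow]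
    have := log_le_sub_one_of_pos hY0
    push_cast
    linarith only [this]
  have hlC20 : 0 ≤ log (Y ^ 2) := log_nonneg hC2
  -- the main inequality for `C2 = Y ^ 2`
  have hmain : K1 * (2 + B + Bk + Bk * log (Y ^ 2)) ≤ Y ^ 2 := by
    have h1 : 2 + B + Bk ≤ (2 + B + Bk) * Y := by nlinarith only [hY1, hB1, hBk]
    have h2 : Bk * log (Y ^ 2) ≤ Bk * (2 * Y) := mul_le_mul_of_nonneg_left hlC2 (by linarith only [hBk])
    have h3 : 2 + B + Bk + Bk * log (Y ^ 2) ≤ (2 + B + 3 * Bk) * Y := by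
      linarith only [h1, h2]
    calc K1 * (2 + B + Bk + Bk * log (Y ^ 2)) ≤ K1 * ((2 + B + 3 * Bk) * Y) :=
          mul_le_mul_of_nonneg_left h3 (by linarith only [hK1])
      _ = Y ^ 2 := by rw [← mul_assoc, ← hY]; ring
  have key : ∀ d : ℕ, ∃ (c : Cst) (cm : ℕ), 1 ≤ Y ^ 2 * (1 + log ((d : ℝ) + 1)) ∧
      K * (cm + 1) ≤ Y ^ 2 * (1 + log ((d : ℝ) + 1)) ∧
      Small2 K n (Y ^ 2 * (1 + log ((d : ℝ) + 1))) c ∧
      exp (1 - 4 ^ cm) / 10 ≤ c.A0 * c.kap ^ (d + 1) ∧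
      c.C0 ≤ C1 * sqrt (1 + log (Y ^ 2)) * sqrt (1 + log (1 + log ((d : ℝ) + 1))) := by
    intro d
    have hd0 : (0 : ℝ) ≤ d := Nat.cast_nonneg d
    obtain ⟨l, hl⟩ : ∃ l : ℝ, l = log ((d : ℝ) + 1) := ⟨_, rfl⟩
    have hl0 : 0 ≤ l := by rw [hl]; exact log_nonneg (by linarith only [hd0])
    have hld : l ≤ d := by
      rw [hl]
      have := log_le_sub_one_of_pos (show (0 : ℝ) < (d : ℝ) + 1 by linarith only [hd0])
      linarith only [this]
    rw [← hl]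
    have hL1 : 1 ≤ Y ^ 2 * (1 + l) := by
      calc (1 : ℝ) = 1 * 1 := (one_mul 1).symm
        _ ≤ _ := mul_le_mul hC2 (by linarith only [hl0]) (by norm_num) (by positivity)
    obtain ⟨c, h1, h2, h3, h4, h5, h6, h7⟩ := H _ hL1
    have hlog : log (Y ^ 2 * (1 + l)) = log (Y ^ 2) + log (1 + l) :=
      log_mul (by positivity) (by linarith only [hl0])
    have hll0 : 0 ≤ log (1 + l) := log_nonneg (by linarith only [hl0])
    have hll : log (1 + l) ≤ l := by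
      have := log_le_sub_one_of_pos (show (0 : ℝ) < 1 + l by linarith only [hl0])
      linarith only [this]
    -- the bound `X`
    obtain ⟨G, hG⟩ : ∃ G : ℝ, G = B + Bk + Bk * log (Y ^ 2) := ⟨_, rfl⟩
    have hBl : 0 ≤ Bk * log (Y ^ 2) := mul_nonneg (by linarith only [hBk]) hlC20
    have hG1 : 1 ≤ G := by linarith only [hG, hB1, hBk, hBl]
    have hX1 : 1 ≤ ((d : ℝ) + 1) ^ 2 * G := by
      calc (1 : ℝ) = 1 * 1 := (one_mul 1).symm
        _ ≤ _ := mul_le_mul (one_le_pow₀ (by linarith only [hd0])) hG1 (by norm_num) (by positivity)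
    have hX : 1 + log (1 / c.A0) + ((d + 1 : ℕ) : ℝ) * log (1 / c.kap)
        ≤ ((d : ℝ) + 1) ^ 2 * G := by
      rw [h5]
      push_cast
      have e1 : ((d : ℝ) + 1) * log (1 / c.kap) ≤ ((d : ℝ) + 1) * (Bk * (1 + (log (Y ^ 2) + d))) := by
        refine mul_le_mul_of_nonneg_left (h6.trans ?_) (by linarith only [hd0])
        refine mul_le_mul_of_nonneg_left ?_ (by linarith only [hBk])
        rw [hlog]
        linarith only [hll, hld]
      have e2 : Bk * (1 + (log (Y ^ 2) + d)) ≤ ((d : ℝ) + 1) * (Bk + Bk * log (Y ^ 2)) := by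
        nlinarith only [hBl, hd0, hBk, mul_nonneg hd0 hBl]
      have e3 : ((d : ℝ) + 1) * (Bk * (1 + (log (Y ^ 2) + d)))
          ≤ ((d : ℝ) + 1) * (((d : ℝ) + 1) * (Bk + Bk * log (Y ^ 2))) :=
        mul_le_mul_of_nonneg_left e2 (by linarith only [hd0])
      have e4 : B ≤ ((d : ℝ) + 1) ^ 2 * B := by
        have : 1 ≤ ((d : ℝ) + 1) ^ 2 := one_le_pow₀ (by linarith only [hd0])
        nlinarith only [this, hB1]
      have e5 : 1 + log (1 / A0) ≤ B := by linarith only [hB, hBk]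
      rw [hG]
      nlinarith only [e1, e3, e4, e5]
    obtain ⟨cm, g1, g2⟩ := exists_cm2 (D := d + 1) c.hA0 c.hkap hX1 hX
    refine ⟨c, cm, hL1, ?_, h1, g1, ?_⟩
    · have e1 : log (((d : ℝ) + 1) ^ 2 * G) ≤ 2 * l + G := by
        rw [log_mul (by positivity) (by linarith only [hG1]), log_pow, ← hl]
        have := log_le_sub_one_of_pos (show (0 : ℝ) < G by linarith only [hG1])
        push_cast
        linarith only [this]
      have e2 : (cm : ℝ) + 1 ≤ (2 + G) * (1 + l) := by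
        nlinarith only [g2, e1, hG1, hl0, mul_nonneg (show 0 ≤ G by linarith only [hG1]) hl0]
      calc K * (cm + 1) ≤ K1 * (cm + 1) := mul_le_mul_of_nonneg_right hKK (by positivity)
        _ ≤ K1 * ((2 + G) * (1 + l)) := mul_le_mul_of_nonneg_left e2 (by linarith only [hK1])
        _ = K1 * (2 + B + Bk + Bk * log (Y ^ 2)) * (1 + l) := by rw [hG]; ring
        _ ≤ Y ^ 2 * (1 + l) := mul_le_mul_of_nonneg_right hmain (by linarith only [hl0])
    · rw [hlog] at h7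
      refine h7.trans ?_
      rw [mul_assoc, ← sqrt_mul (by linarith only [hlC20])]
      refine mul_le_mul_of_nonneg_left (sqrt_le_sqrt ?_) (by linarith only [hC1])
      nlinarith only [mul_nonneg hlC20 hll0]
  choose c cm h using key
  refine ⟨c, cm, fun d => Y ^ 2 * (1 + log ((d : ℝ) + 1)), C1 * sqrt (1 + log (Y ^ 2)), ?_,
    fun d => h d⟩
  have : 0 < sqrt (1 + log (Y ^ 2)) := sqrt_pos.2 (by linarith only [hlC20])
  exact mul_pos (by linarith only [hC1]) this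

/-! ### smallness for a system -/

section sys

variable {E : Type*} [NormedAddCommGroup E] [InnerProductSpace ℝ E] [FiniteDimensional ℝ E]
  [MeasurableSpace E] [BorelSpace E]

/-- **the constants of the system are small** -/
structure Sys.Sm (S : Sys E) (K : ℝ) (n : ℕ) (Lam : ℝ) : Prop where
  th : S.th = 1 / 2
  qq : S.qq = 200
  q0 : S.q0 = ENNReal.ofReal (exp (-1420))
  δ : S.δ = 1 / 10 ^ 6
  ρ : S.ρ = 1 / 1000
  c0 : K * S.c0 ≤ 1
  M0 : K ≤ S.M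
  M : K * (1 / S.c0) ^ n ≤ S.M
  b0 : K * (S.M / S.c0) ^ n * S.b0 ≤ 1
  A0 : K * (S.M / (S.c0 * S.b0)) ^ n * S.A0 ≤ 1
  A0' : K * S.A0 ≤ S.b0
  kap : K * (Lam * S.M / (S.c0 * S.b0 * S.A0)) ^ n * S.kap ^ (1 / ((n : ℝ) + 2)) ≤ 1
  rad : ∀ D : ℕ, D ≤ Module.finrank ℝ E →
    (sqrt (S.qq * D) + sqrt (8 * log (S.b0 / (S.A0 * S.kap ^ D)))) ^ 2
      + 8 * (K + log (1 / (S.A0 * S.kap ^ D))) ≤ S.R ^ 2

theorem Sys.Has.sm {S : Sys E} {c : Cst} (h : S.Has c) {K : ℝ} {n : ℕ} {Lam : ℝ}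
    (hc : Small2 K n Lam c) : S.Sm K n Lam := by
  refine ⟨?_, ?_, ?_, ?_, ?_, ?_, ?_, ?_, ?_, ?_, ?_, ?_, ?_⟩
  · rw [h.th]; exact hc.th
  · rw [h.qq]; exact hc.qq
  · rw [h.q0]; exact hc.q0
  · rw [h.δ]; exact hc.δ
  · rw [h.ρ]; exact hc.ρ
  · rw [h.c0]; exact hc.c0
  · rw [h.M]; exact hc.M0
  · rw [h.M, h.c0]; exact hc.M
  · rw [h.M, h.c0, h.b0]; exact hc.b0
  · rw [h.M, h.c0, h.b0, h.A0]; exact hc.A0
  · rw [h.b0, h.A0]; exact hc.A0'
  · rw [h.M, h.c0, h.b0, h.A0, h.kap]; exact hc.kap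
  · intro D hD
    have h2 := S.hd2
    have h1 := hc.rad D (Module.finrank ℝ E) hD (by omega)
    rw [h.qq, h.b0, h.A0, h.kap, h.R, mul_pow, sq_sqrt (Nat.cast_nonneg _)]
    exact h1

namespace Sys.Sm

variable {S : Sys E} {K : ℝ} {n : ℕ} {Lam : ℝ}

lemma c0_pos (_h : S.Sm K n Lam) : 0 < S.c0 := S.hc0

lemma c0_le_one (h : S.Sm K n Lam) : S.c0 ≤ 1 := by
  have h1 := S.hc0δ
  rw [h.δ] at h1
  exact h1.le.trans (by norm_num)

lemma one_le_inv_c0 (h : S.Sm K n Lam) : 1 ≤ 1 / S.c0 := by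
  rw [le_div_iff₀ S.hc0, one_mul]; exact h.c0_le_one

lemma b0_pos (_h : S.Sm K n Lam) : 0 < S.b0 := S.hA0.trans_le S.hAb

lemma b0_le (_h : S.Sm K n Lam) : S.b0 ≤ 1 / 96 := by
  have h1 := S.hMb
  have h2 := S.hM
  have h3 : 0 < S.b0 := S.hA0.trans_le S.hAb
  nlinarith only [h1, h2, h3]

lemma b0_le_one (h : S.Sm K n Lam) : S.b0 ≤ 1 := h.b0_le.trans (by norm_num)

lemma A0_le_one (h : S.Sm K n Lam) : S.A0 ≤ 1 := S.hAb.trans h.b0_le_one

lemma one_le_inv_b0 (h : S.Sm K n Lam) : 1 ≤ 1 / S.b0 := by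
  rw [le_div_iff₀ h.b0_pos, one_mul]; exact h.b0_le_one

lemma one_le_inv_A0 (h : S.Sm K n Lam) : 1 ≤ 1 / S.A0 := by
  rw [le_div_iff₀ S.hA0, one_mul]; exact h.A0_le_one

lemma one_le_M (_h : S.Sm K n Lam) : 1 ≤ S.M := by
  have := S.hM
  linarith only [this]

/-- smaller numbers -/
theorem mono (h : S.Sm K n Lam) {K' : ℝ} {n' : ℕ} {Lam' : ℝ} (hK0 : 0 ≤ K') (hK : K' ≤ K)
    (hn : n' ≤ n) (hL1 : 1 ≤ Lam') (hL : Lam' ≤ Lam) : S.Sm K' n' Lam' := by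
  have hc := S.hc0
  have hb := h.b0_pos
  have hA := S.hA0
  have hM := h.one_le_M
  have q1 := h.one_le_inv_c0
  have q2 := h.one_le_inv_b0
  have q3 := h.one_le_inv_A0
  have hK1 : 0 ≤ K := hK0.trans hK
  have mm : ∀ {a b : ℝ}, 1 ≤ a → 1 ≤ b → 1 ≤ a * b := fun ha hb' => by nlinarith only [ha, hb']
  have key : ∀ {x x' y : ℝ}, 1 ≤ x' → x' ≤ x → 0 ≤ y → K' * x' ^ n' * y ≤ K * x ^ n * y := by
    intro x x' y h1 h2 hy
    refine mul_le_mul_of_nonneg_right ?_ hy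
    refine mul_le_mul hK ?_ (by positivity) hK1
    exact (pow_le_pow_right₀ h1 hn).trans (pow_le_pow_left₀ (by linarith only [h1]) h2 n)
  refine ⟨h.th, h.qq, h.q0, h.δ, h.ρ, ?_, hK.trans h.M0, ?_, ?_, ?_, ?_, ?_, ?_⟩
  · exact (mul_le_mul_of_nonneg_right hK hc.le).trans h.c0
  · have := key (x := 1 / S.c0) (y := 1) q1 le_rfl (by norm_num)
    rw [mul_one, mul_one] at this
    exact this.trans h.M
  · refine (key ?_ le_rfl hb.le).trans h.b0
    rw [div_eq_mul_one_div]; exact mm hM q1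
  · refine (key ?_ le_rfl hA.le).trans h.A0
    rw [show S.M / (S.c0 * S.b0) = S.M * (1 / S.c0) * (1 / S.b0) by field_simp]
    exact mm (mm hM q1) q2
  · exact (mul_le_mul_of_nonneg_right hK hA.le).trans h.A0'
  · have hk := S.hkap
    have e1 : S.kap ^ (1 / ((n' : ℝ) + 2)) ≤ S.kap ^ (1 / ((n : ℝ) + 2)) := by
      apply rpow_le_rpow_of_exponent_ge hk S.hkap1
      have h1 : (n' : ℝ) ≤ n := by exact_mod_cast hn
      have h2 : (0 : ℝ) ≤ n' := Nat.cast_nonneg n'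
      apply one_div_le_one_div_of_le <;> linarith only [h1, h2]
    have hX : 1 ≤ Lam' * S.M / (S.c0 * S.b0 * S.A0) := by
      rw [show Lam' * S.M / (S.c0 * S.b0 * S.A0)
        = Lam' * (S.M * (1 / S.c0) * (1 / S.b0) * (1 / S.A0)) by field_simp]
      exact mm hL1 (mm (mm (mm hM q1) q2) q3)
    have hX2 : Lam' * S.M / (S.c0 * S.b0 * S.A0) ≤ Lam * S.M / (S.c0 * S.b0 * S.A0) := by
      have h0 : 0 < S.c0 * S.b0 * S.A0 := by positivity
      have : 0 ≤ S.M := by linarith only [hM]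
      gcongr
    have h3 := key hX hX2 (rpow_nonneg hk.le (1 / ((n' : ℝ) + 2)))
    refine h3.trans (le_trans ?_ h.kap)
    refine mul_le_mul_of_nonneg_left e1 (mul_nonneg hK1 ?_)
    exact pow_nonneg (by linarith only [hX, hX2]) n
  · intro D hD
    have := h.rad D hD
    linarith only [this, hK]

/-- **the master inequality**: any product of powers `≤ n`, any power `s ≥ 1/(n+2)` of `kap` -/
theorem master (h : S.Sm K n Lam) (hK : 0 ≤ K) (hL : 1 ≤ Lam) {X s : ℝ} {a b c d e : ℕ}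
    (ha : a ≤ n) (hb : b ≤ n) (hc : c ≤ n) (hd : d ≤ n) (he : e ≤ n)
    (hs : 1 / ((n : ℝ) + 2) ≤ s)
    (hX : X ≤ K * (Lam ^ a * S.M ^ b * (1 / S.c0) ^ c * (1 / S.b0) ^ d * (1 / S.A0) ^ e)) :
    X * S.kap ^ s ≤ 1 := by
  have hM := h.one_le_M
  have q1 := h.one_le_inv_c0
  have q2 := h.one_le_inv_b0
  have q3 := h.one_le_inv_A0
  have hk := S.hkap
  have p : ∀ {x : ℝ} {k : ℕ}, 1 ≤ x → k ≤ n → x ^ k ≤ x ^ n := fun hx hk => pow_le_pow_right₀ hx hk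
  have e0 : S.kap ^ s ≤ S.kap ^ (1 / ((n : ℝ) + 2)) :=
    rpow_le_rpow_of_exponent_ge hk S.hkap1 hs
  have e1 : (Lam * S.M / (S.c0 * S.b0 * S.A0)) ^ n
      = Lam ^ n * S.M ^ n * (1 / S.c0) ^ n * (1 / S.b0) ^ n * (1 / S.A0) ^ n := by
    rw [← mul_pow, ← mul_pow, ← mul_pow, ← mul_pow]
    congr 1
    field_simp
  have g1 := p hL ha
  have g2 := p hM hb
  have g3 := p q1 hc
  have g4 := p q2 hd
  have g5 := p q3 he
  have z : ∀ {x : ℝ} (k : ℕ), 1 ≤ x → 0 ≤ x ^ k := fun k hx => pow_nonneg (by linarith only [hx]) k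
  have z1 := z a hL
  have z2 := z b hM
  have z3 := z c q1
  have z4 := z d q2
  have z5 := z e q3
  have w1 := z n hL
  have w2 := z n hM
  have w3 := z n q1
  have w4 := z n q2
  have w5 := z n q3
  have hmain : X ≤ K * (Lam * S.M / (S.c0 * S.b0 * S.A0)) ^ n := by
    refine hX.trans (mul_le_mul_of_nonneg_left ?_ hK)
    rw [e1]
    exact mul_le_mul (mul_le_mul (mul_le_mul (mul_le_mul g1 g2 z2 w1) g3 z3 (by positivity)) g4 z4
      (by positivity)) g5 z5 (by positivity)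
  have hR0 : 0 ≤ K * (Lam * S.M / (S.c0 * S.b0 * S.A0)) ^ n := by
    rw [e1]; positivity
  calc X * S.kap ^ s ≤ K * (Lam * S.M / (S.c0 * S.b0 * S.A0)) ^ n * S.kap ^ s :=
        mul_le_mul_of_nonneg_right hmain (rpow_nonneg hk.le _)
    _ ≤ K * (Lam * S.M / (S.c0 * S.b0 * S.A0)) ^ n * S.kap ^ (1 / ((n : ℝ) + 2)) :=
        mul_le_mul_of_nonneg_left e0 hR0
    _ ≤ 1 := h.kap

/-- only `K` and a power of `kap` -/
lemma K_kap_rpow (h : S.Sm K n Lam) (hK : 0 ≤ K) (hL : 1 ≤ Lam) {s : ℝ}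
    (hs : 1 / ((n : ℝ) + 2) ≤ s) : K * S.kap ^ s ≤ 1 :=
  h.master hK hL (a := 0) (b := 0) (c := 0) (d := 0) (e := 0) (Nat.zero_le _) (Nat.zero_le _)
    (Nat.zero_le _) (Nat.zero_le _) (Nat.zero_le _) hs (by simp)

lemma one_div_le_half (_h : S.Sm K n Lam) : 1 / ((n : ℝ) + 2) ≤ 1 / 2 := by
  have : (0 : ℝ) ≤ n := Nat.cast_nonneg n
  apply one_div_le_one_div_of_le <;> linarith only [this]

lemma K_kap_th (h : S.Sm K n Lam) (hK : 0 ≤ K) (hL : 1 ≤ Lam) : K * S.kap ^ S.th ≤ 1 := by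
  rw [h.th]; exact h.K_kap_rpow hK hL h.one_div_le_half

lemma K_kap (h : S.Sm K n Lam) (hK : 0 ≤ K) (hL : 1 ≤ Lam) : K * S.kap ≤ 1 := by
  have h1 := h.K_kap_rpow hK hL (s := 1) (h.one_div_le_half.trans (by norm_num))
  rwa [rpow_one] at h1

end Sys.Sm

end sys

/-! ### the top theorems -/

/-- **The top theorem**, absolute constants. -/
theorem sigma_of {K : ℝ} {n : ℕ} {Lam : ℝ} (hL : 1 ≤ Lam)
    (H : ∀ (E : Type) [NormedAddCommGroup E] [InnerProductSpace ℝ E] [FiniteDimensional ℝ E]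
      [MeasurableSpace E] [BorelSpace E] (S : Sys E), S.Sm K n Lam → (∀ k ≤ S.mT, S.Healthy k) →
      S.De [] S.mT 0 ≤ ENNReal.ofReal (2 * S.A0)) :
    ∃ C : ℝ, 0 < C ∧ ∀ d : ℕ, 1 ≤ d → signedConst d ≤ ENNReal.ofReal (C * sqrt d) := by
  obtain ⟨c0, M, b0, A0, Bk, C1, -, -, -, -, H1⟩ := exists_small2 K n
  obtain ⟨c, hc, -⟩ := H1 Lam hL
  refine final_of c fun E _ _ _ _ _ S hS hh => ?_
  rw [← hS.A0]
  exact H E S (hS.sm hc) hh

/-- **The top theorem**, with the class bound in the rotation block. -/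
theorem sigma_fam {K : ℝ} {n : ℕ}
    (H : ∀ (E : Type) [NormedAddCommGroup E] [InnerProductSpace ℝ E] [FiniteDimensional ℝ E]
      [MeasurableSpace E] [BorelSpace E] (S : Sys E) (Lam : ℝ), 1 ≤ Lam → K * (S.cm + 1) ≤ Lam →
      S.Sm K n Lam → (∀ k ≤ S.mT, S.Healthy k) → S.De [] S.mT 0 ≤ ENNReal.ofReal (2 * S.A0)) :
    ∃ C : ℝ, 0 < C ∧ ∀ d : ℕ, 1 ≤ d →
      signedConst d ≤ ENNReal.ofReal (C * (sqrt d * sqrt (1 + log (1 + log ((d : ℝ) + 1))))) := by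
  obtain ⟨c, cm, Lam, C1, hC1, h⟩ := exists_fam2 K n
  refine final_fam c cm (δ := 1 / 10 ^ 6) (K := C1)
    (g := fun d : ℕ => sqrt (1 + log (1 + log ((d : ℝ) + 1)))) (by norm_num) hC1
    (fun d => (h d).2.2.1.δ) (fun d _ => (h d).2.2.2.2) (fun d _ => (h d).2.2.2.1) ?_
  intro d hd S hS hcm hh
  rw [← hS.A0]
  refine H _ S (Lam d) (h d).1 ?_ (hS.sm (h d).2.2.1) hh
  rw [hcm]
  exact (h d).2.1

end Vale.Agent.P262.M2
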