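import Vale.Agent.P262.M2.Price2
import Vale.Agent.P262.H44.L2Fin

/-!
# P262, milestone 2: the concrete price array is admissible for the block lemma
-/

set_option linter.all false

open MeasureTheory ProbabilityTheory Set
open scoped ENNReal RealInnerProductSpace

namespace Vale.Agent.P262.M2.Sys

variable {E : Type*} [NormedAddCommGroup E] [InnerProductSpace ℝ E] [FiniteDimensional ℝ E]
  [MeasurableSpace E] [BorelSpace E] {S : Sys E} {Gi : List ℕ → ℕ → E → ℝ≥0∞}

/-- **the prices bound all moves** -/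
theorem GG_PriceOK (hI : S.InOK Gi) {Lam : ℝ} (hLam : 1 ≤ Lam) (hR : S.RimC Lam)
    (hδ : S.δ ≤ 1 / 10) : S.PriceOK (S.GG Gi) :=
  ⟨fun m hm hs p hl x => GG_starAt hLam hR hδ hm hs hl x,
    fun m hm hs p hl x hx _ => GG_soft hI hm hs hx.1⟩

end Vale.Agent.P262.M2.Sys
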