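import Vale.Agent.P262.M2.Fld

/-!
# P262, milestone 2: the field in the active moves (stars and rotations)

In an active move the label spaces, classes, caps, killed labels and leaves do not change.  The tree
of the children of `p` through the class `k` changes only in a rotation of a descendant of
`k :: p`; in all other cases only the payoff changes.
-/

set_option linter.all false

open MeasureTheory ProbabilityTheory Set
open scoped ENNReal RealInnerProductSpace
open Vale.Agent.P262.H118 (ON rotE Rot2 El2 K2 wrd paths)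
open Vale.Agent.P262.H395 (fib mix Inv Fixes measurable_fib fib_tower fib_mono)
open Vale.Agent.P262.H847 (UI)
open Vale.Agent.P262.H713 (Pa FT NodeOK LabF sft ch fN fC good_sft above_sft good_ch above_ch
  fr_congr fib_congr fr_sel fr_fix)
open Vale.Agent.P262.H654 (tr phi sg Bd InvR fr fr_mono fr_const fr_add fr_tower ofReal_fr
  invR_fr)
open Vale.Agent.P262.H493 (star)

namespace Vale.Agent.P262.M2.Sys

variable {E : Type*} [NormedAddCommGroup E] [InnerProductSpace ℝ E] [FiniteDimensional ℝ E]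
  [MeasurableSpace E] [BorelSpace E] {S : Sys E}

/-- an active move: a star or a rotation -/
def Act (S : Sys E) (m : ℕ) : Prop := S.mv.IsStar m ∨ S.mv.IsRot m

section act

variable {m : ℕ} (h : S.Act m) (hm : m < S.mT)
include h hm

lemma Act.same_nw (p : List ℕ) : S.Same (S.K.nw p) m (m + 1) :=
  Same.active (S.K.zero_mem_nw p) h (S.tm_lt_f hm.le)

lemma Act.kl_eq (p : List ℕ) (x : E) : S.kl p (m + 1) x = S.kl p m x :=
  kl_same (Same.active (zero_mem_BB p m x) h (S.tm_lt_f hm.le)) (S.tm_lt_f hm.le)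

lemma Act.kl_eq' (p : List ℕ) : S.kl p (m + 1) = S.kl p m := funext fun x => h.kl_eq hm p x

lemma Act.W_eq (p : List ℕ) : S.W p (m + 1) = S.W p m := S.W_succ_active h p

lemma Act.As_eq (s : ℝ) (p : List ℕ) : S.As s p (m + 1) = S.As s p m :=
  (h.same_nw hm p).As le_rfl (S.tm_lt_f hm.le) s

lemma Act.A_eq (p : List ℕ) : S.A p (m + 1) = S.A p m := h.As_eq hm 1 p

lemma Act.Z_eq (p : List ℕ) : S.Z p (m + 1) = S.Z p m :=
  (h.same_nw hm p).Z le_rfl (S.tm_lt_f hm.le)

lemma Act.leaf_iff (p : List ℕ) : S.Leaf p (m + 1) ↔ S.Leaf p m :=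
  (h.same_nw hm p).leaf le_rfl (S.tm_lt_f hm.le)

lemma Act.cf_eq (p : List ℕ) : S.cf (m + 1) p = S.cf m p := by
  funext x
  unfold cf
  rw [h.A_eq hm p]

lemma Act.nb_eq (p : List ℕ) (x : E) (k : ℕ) : S.nb p (m + 1) x k = S.nb p m x k := by
  induction k with
  | zero => rfl
  | succ k ih => rw [nb, nb, ih, h.kl_eq hm]

lemma Act.nd_eq (x : E) (j : ℕ) : S.nd (m + 1) x j = S.nd m x j := h.nb_eq hm [] x j

/-- **the trees do not change** if no descendant of `k :: p` rotates -/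
theorem Act.tCn_eq (n : ℕ) : ∀ (p : List ℕ) (k : ℕ),
    (∀ r, (k :: p) <:+ r → S.mv.Q (m + 1) r = S.mv.Q m r) →
    S.tCn n p (m + 1) k = S.tCn n p m k := by
  induction n with
  | zero => intro p k _; rw [tCn_zero, tCn_zero]
  | succ n ih =>
    intro p k hQ
    rw [tCn_succ, tCn_succ]
    by_cases hl : S.Leaf p m
    · rw [if_pos hl, if_pos ((h.leaf_iff hm p).2 hl)]
    · rw [if_neg hl, if_neg (fun h' => hl ((h.leaf_iff hm p).1 h')), hQ (k :: p) List.suffix_rfl,
        h.W_eq hm, h.cf_eq hm, h.Z_eq hm, h.kl_eq' hm]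
      have e : S.tCn n (k :: p) (m + 1) = S.tCn n (k :: p) m :=
        funext fun k' => ih (k :: p) k' fun r hr => hQ r ((List.suffix_cons k' (k :: p)).trans hr)
      rw [e]

theorem Act.tC_eq {p : List ℕ} {k : ℕ}
    (hQ : ∀ r, (k :: p) <:+ r → S.mv.Q (m + 1) r = S.mv.Q m r) :
    S.tC p (m + 1) k = S.tC p m k := h.tCn_eq hm _ p k hQ

/-- the field if no descendant through the class of the label rotates: only the payoff changes -/
theorem Act.fld_succ {p : List ℕ} {x : E}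
    (hQ : ∀ r, (S.kl p m x :: p) <:+ r → S.mv.Q (m + 1) r = S.mv.Q m r) :
    S.fld p (m + 1) x = FT.fl (S.tC p m (S.kl p m x)) (fun _ => S.pf p (m + 1)) x := by
  unfold fld
  rw [h.kl_eq hm, h.tC_eq hm hQ]

/-- the hidden field and the alive points in this case -/
theorem Act.alr_succ {p : List ℕ} {x : E}
    (hQ : ∀ r, (S.kl p m x :: p) <:+ r → S.mv.Q (m + 1) r = S.mv.Q m r) :
    S.alr p (m + 1) x = S.alr p m x := by
  unfold alr
  rw [h.kl_eq hm, h.tC_eq hm hQ]

/-- the mean -/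
theorem Act.Fr_succ {p : List ℕ} {x : E}
    (hQ : ∀ r, (S.kl p m x :: p) <:+ r → S.mv.Q (m + 1) r = S.mv.Q m r) :
    S.Fr p (m + 1) x
      = fr (S.W p m) (FT.fl (S.tC p m (S.kl p m x)) fun _ => S.pf p (m + 1)) x := by
  rw [(S.labOK (show m + 1 ≤ S.mT by omega)).Fr_eq, h.W_eq hm, h.kl_eq hm, h.tC_eq hm hQ]

end act

/-! ### stars -/

section stars

variable {m : ℕ} (h : S.mv.IsStar m) (hm : m < S.mT)
include h

lemma star_Q : S.mv.Q (m + 1) = S.mv.Q m := by
  have h1 := S.mv.star (S.mv.tm m)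
  unfold El2.IsStar at h
  rw [← h] at h1
  exact h1

lemma star_act : S.Act m := Or.inl h

include hm

/-- in a star move all trees are the same -/
theorem star_tC (p : List ℕ) (k : ℕ) : S.tC p (m + 1) k = S.tC p m k :=
  (star_act h).tC_eq hm fun r _ => by rw [star_Q h]

theorem star_fld (p : List ℕ) (x : E) :
    S.fld p (m + 1) x = FT.fl (S.tC p m (S.kl p m x)) (fun _ => S.pf p (m + 1)) x :=
  (star_act h).fld_succ hm fun r _ => by rw [star_Q h]

theorem star_Fr (p : List ℕ) (x : E) : S.Fr p (m + 1) x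
    = fr (S.W p m) (FT.fl (S.tC p m (S.kl p m x)) fun _ => S.pf p (m + 1)) x :=
  (star_act h).Fr_succ hm fun r _ => by rw [star_Q h]

theorem star_alr (p : List ℕ) (x : E) : S.alr p (m + 1) x = S.alr p m x :=
  (star_act h).alr_succ hm fun r _ => by rw [star_Q h]

end stars

/-! ### rotations -/

section rots

variable {m : ℕ} (h : S.mv.IsRot m) (hm : m < S.mT)
include h

lemma rot_act : S.Act m := Or.inr h

lemma rot_Q_ne {r : List ℕ} (hr : r ≠ S.mv.jj m) : S.mv.Q (m + 1) r = S.mv.Q m r :=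
  (S.mv.rot (S.mv.tm m) m h.1 h.2).1.of_ne hr

lemma rot_ne_nil : S.mv.jj m ≠ [] := (S.mv.rot (S.mv.tm m) m h.1 h.2).2.2.2.1

lemma rot_mem : S.mv.jj m ∈ paths S.cm (Module.finrank ℝ E) :=
  (S.mv.rot (S.mv.tm m) m h.1 h.2).2.2.1

/-- the rotating node: `θ` a new label direction of `jj m`, `b` orthogonal to its labels -/
lemma rot_Q : ∃ (θ b : E) (hb : ON θ b), θ ∈ S.W (S.mv.jj m) m ∧ θ ∈ (S.W (S.mv.jj m).tail m)ᗮ ∧
    b ∈ (S.W (S.mv.jj m) m)ᗮ ∧
    S.mv.Q (m + 1) (S.mv.jj m) = (rotE hb (S.mv.ph m)).trans (S.mv.Q m (S.mv.jj m)) := by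
  obtain ⟨θ, b, hb, h1, h2, h3, -, -, h4⟩ := (S.mv.rot (S.mv.tm m) m h.1 h.2).1
  exact ⟨θ, b, hb, h1, h2, h3, by rw [h4, Function.update_self]⟩

include hm

/-- the tree of the children of `p` through `k` changes only if `jj m` is a descendant of
`k :: p` -/
theorem rot_tC {p : List ℕ} {k : ℕ} (hk : ¬ (k :: p) <:+ S.mv.jj m) :
    S.tC p (m + 1) k = S.tC p m k :=
  (rot_act h).tC_eq hm fun r hr => rot_Q_ne h fun h' => hk (h' ▸ hr)

theorem rot_fld {p : List ℕ} {x : E} (hk : ¬ (S.kl p m x :: p) <:+ S.mv.jj m) :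
    S.fld p (m + 1) x = FT.fl (S.tC p m (S.kl p m x)) (fun _ => S.pf p (m + 1)) x :=
  (rot_act h).fld_succ hm fun r hr => rot_Q_ne h fun h' => hk (h' ▸ hr)

theorem rot_alr {p : List ℕ} {x : E} (hk : ¬ (S.kl p m x :: p) <:+ S.mv.jj m) :
    S.alr p (m + 1) x = S.alr p m x :=
  (rot_act h).alr_succ hm fun r hr => rot_Q_ne h fun h' => hk (h' ▸ hr)

theorem rot_Fr {p : List ℕ} {x : E} (hk : ¬ (S.kl p m x :: p) <:+ S.mv.jj m) :
    S.Fr p (m + 1) x
      = fr (S.W p m) (FT.fl (S.tC p m (S.kl p m x)) fun _ => S.pf p (m + 1)) x :=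
  (rot_act h).Fr_succ hm fun r hr => rot_Q_ne h fun h' => hk (h' ▸ hr)

omit hm in
/-- the body of a node which is not a descendant of `jj m` does not change -/
lemma rot_pf {p : List ℕ} (hp : ¬ S.mv.jj m <:+ p) : S.pf p (m + 1) = S.pf p m := by
  unfold pf
  rw [S.X_rot_not h hp]

/-- **rotations which are not seen**: `jj m` neither above `p` nor below the child of the label -/
theorem rot_not_fld {p : List ℕ} {x : E} (hp : ¬ S.mv.jj m <:+ p)
    (hk : ¬ (S.kl p m x :: p) <:+ S.mv.jj m) : S.fld p (m + 1) x = S.fld p m x := by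
  rw [rot_fld h hm hk, rot_pf h hp]
  rfl

theorem rot_not_Fr {p : List ℕ} {x : E} (hp : ¬ S.mv.jj m <:+ p)
    (hk : ¬ (S.kl p m x :: p) <:+ S.mv.jj m) : S.Fr p (m + 1) x = S.Fr p m x := by
  rw [rot_Fr h hm hk, rot_pf h hp, (S.labOK hm.le).Fr_eq]

theorem rot_not_F {p : List ℕ} {x : E} (hp : ¬ S.mv.jj m <:+ p)
    (hk : ¬ (S.kl p m x :: p) <:+ S.mv.jj m) : S.F p (m + 1) x = S.F p m x := by
  rw [(S.labOK (show m + 1 ≤ S.mT by omega)).F_eq, (S.labOK hm.le).F_eq, rot_not_Fr h hm hp hk]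

omit hm in
/-- if `jj m` is `p` or an ancestor of `p` no descendant of `p` rotates -/
lemma not_suffix_of_outer {p : List ℕ} (hp : S.mv.jj m <:+ p) (k : ℕ) :
    ¬ (k :: p) <:+ S.mv.jj m := by
  intro h1
  have h2 := (h1.trans hp).length_le
  simp at h2

/-- **outer rotations**: the trees below `p` are the same, the body of `p` rotates -/
theorem outer_fld {p : List ℕ} (hp : S.mv.jj m <:+ p) (x : E) :
    S.fld p (m + 1) x = FT.fl (S.tC p m (S.kl p m x)) (fun _ => S.pf p (m + 1)) x :=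
  rot_fld h hm (not_suffix_of_outer h hp _)

theorem outer_Fr {p : List ℕ} (hp : S.mv.jj m <:+ p) (x : E) : S.Fr p (m + 1) x
    = fr (S.W p m) (FT.fl (S.tC p m (S.kl p m x)) fun _ => S.pf p (m + 1)) x :=
  rot_Fr h hm (not_suffix_of_outer h hp _)

omit hm in
/-- the bodies of the descendants of `jj m`: one direction `θ`, `b` depends on the node -/
theorem outer_X : ∃ θ, θ ∈ S.W (S.mv.jj m) m ∧ θ ∈ (S.W (S.mv.jj m).tail m)ᗮ ∧
    ∀ p, S.mv.jj m <:+ p → ∃ (b : E) (hb : ON θ b), b ∈ (S.W (S.mv.jj m) m)ᗮ ∧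
      S.X p (m + 1) = (fun x => rotE hb (S.mv.ph m) x) ⁻¹' S.X p m := by
  obtain ⟨θ, h1, h2, h3⟩ := S.mv.Bd_rot (Kt := S.Kt) h.1 h.2
  refine ⟨θ, h1, h2, fun p hp => ?_⟩
  obtain ⟨b, hb, h4, -, h5⟩ := h3 p hp
  exact ⟨b, hb, h4, h5⟩

end rots

end Vale.Agent.P262.M2.Sys
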