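import Vale.Agent.P262.H59.StarFld
import Vale.Agent.P262.H44.L2Sick
import Vale.Agent.P262.M2.FldA
import Vale.Agent.P262.M2.Blocks
import Vale.Agent.P262.M2.Nodes

/-!
# P262, milestone 2: the concrete price array

`GG Gi p m x`: price of the move `m < mT` at the label `x` of the node `p`: `Gst` (helper59) at
stars, `Gi` at the rotations of a node strictly below `p` (inner rotations), and the `L¹` distance
`L1f` of the two fields in all other cases (outer and unseen rotations, reopenings).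
-/

set_option linter.all false

open MeasureTheory ProbabilityTheory Set
open scoped ENNReal RealInnerProductSpace
open Vale.Agent.P262.H118 (Iv st en K2 El2 paths wd wrd ON rotE)
open Vale.Agent.P262.H395 (fib mix Inv measurable_fib fib_mono inv_fib fib_add)
open Vale.Agent.P262.H847 (UI)
open Vale.Agent.P262.H174 (Soft)
open Vale.Agent.P262.H654 (fr Bd phi)
open Vale.Agent.P262.H44 (StarAt SoftAt sf sf_UI)
open Vale.Agent.P262.H713 (FT NodeOK)

namespace Vale.Agent.P262.M2.Sys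

variable {E : Type*} [NormedAddCommGroup E] [InnerProductSpace ℝ E] [FiniteDimensional ℝ E]
  [MeasurableSpace E] [BorelSpace E] (S : Sys E)

/-- `L¹` price of a move -/
noncomputable def L1f (p : List ℕ) (m : ℕ) (x : E) : ℝ≥0∞ :=
  fib (S.W p m) (fun y => ENNReal.ofReal |S.fld p (m + 1) y - S.fld p m y|) x

/-- the move `m` rotates a node strictly below `p` -/
def Inr (p : List ℕ) (m : ℕ) : Prop := S.mv.IsRot m ∧ p <:+ S.mv.jj m ∧ p ≠ S.mv.jj m

open Classical in
/-- **the price array** -/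
noncomputable def GG (Gi : List ℕ → ℕ → E → ℝ≥0∞) (p : List ℕ) (m : ℕ) (x : E) : ℝ≥0∞ :=
  if m < S.mT then
    if S.mv.IsStar m then S.Gst p m x else if S.Inr p m then Gi p m x else S.L1f p m x
  else 0

/-- what is asked from the price of the inner rotations -/
structure InOK (Gi : List ℕ → ℕ → E → ℝ≥0∞) : Prop where
  meas : ∀ p m, m < S.mT → S.Inr p m → Measurable (Gi p m)
  inv : ∀ p m, m < S.mT → S.Inr p m → Inv (S.W p m) (Gi p m)
  soft : ∀ p m, m < S.mT → S.Inr p m → ∀ x, x ∉ S.Z p m →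
    SoftAt (sf (S.W p m) x (S.fld p m)) (sf (S.W p m) x (S.fld p (m + 1))) (Gi p m x)

section rfls

variable {S} {Gi : List ℕ → ℕ → E → ℝ≥0∞} {p : List ℕ} {m : ℕ} {x : E}

lemma GG_star (hm : m < S.mT) (h : S.mv.IsStar m) : S.GG Gi p m = S.Gst p m := by
  funext x
  unfold GG
  rw [if_pos hm, if_pos h]

lemma GG_in (hm : m < S.mT) (h : S.Inr p m) : S.GG Gi p m = Gi p m := by
  funext x
  unfold GG
  rw [if_pos hm, if_neg h.1.not_star, if_pos h]

lemma GG_of_not (hm : m < S.mT) (h : ¬ S.mv.IsStar m) (h' : ¬ S.Inr p m) :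
    S.GG Gi p m = S.L1f p m := by
  funext x
  unfold GG
  rw [if_pos hm, if_neg h, if_neg h']

lemma GG_re (hm : m < S.mT) (h : S.mv.IsRe m) : S.GG Gi p m = S.L1f p m :=
  GG_of_not hm h.not_star fun h' => h'.1.not_re h

lemma GG_rot (hm : m < S.mT) (h : S.mv.IsRot m) (h' : ¬ (p <:+ S.mv.jj m ∧ p ≠ S.mv.jj m)) :
    S.GG Gi p m = S.L1f p m :=
  GG_of_not hm h.not_star fun h'' => h' h''.2

/-- rotations of a node at or above `p`, or not related to `p` -/
lemma GG_out (hm : m < S.mT) (h : S.mv.IsRot m) (h' : (S.mv.jj m).length ≤ p.length) :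
    S.GG Gi p m = S.L1f p m := by
  refine GG_rot hm h fun h'' => h''.2 ?_
  exact h''.1.eq_of_length_le h'

lemma GG_top (hm : ¬ m < S.mT) : S.GG Gi p m = 0 := by
  funext x
  unfold GG
  rw [if_neg hm]
  rfl

end rfls

section basic

variable {S} {Gi : List ℕ → ℕ → E → ℝ≥0∞} {p : List ℕ} {m : ℕ} {x : E}

lemma dist_UI (hm : m < S.mT) : UI fun y => |S.fld p (m + 1) y - S.fld p m y| :=
  H752.UI.dist (S.labOK (show m + 1 ≤ S.mT from hm)).fld_UI (S.labOK hm.le).fld_UI

lemma L1f_meas (hm : m < S.mT) : Measurable (S.L1f p m) :=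
  measurable_fib (dist_UI hm).meas.ennreal_ofReal

lemma L1f_inv (p : List ℕ) (m : ℕ) : Inv (S.W p m) (S.L1f p m) := inv_fib _ _

/-- mean of the field as an integral over the fibre -/
lemma F_sf (hm : m ≤ S.mT) (p : List ℕ) (x : E) : S.F p m x
    = ENNReal.ofReal (∫ z, sf (S.W p m) x (S.fld p m) z ∂(stdGaussian (S.W p m)ᗮ)) := by
  rw [H44.int_sf (S.labOK hm).fld_UI, (S.labOK hm).F_eq, H752.fib_ofReal (S.labOK hm).fld_UI]
  rfl

/-- the mass changes by at most the charge of a soft change -/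
lemma F_le_of_soft (hm : m < S.mT) (hW : S.W p (m + 1) = S.W p m) {G : ℝ≥0∞}
    (h : SoftAt (sf (S.W p m) x (S.fld p m)) (sf (S.W p m) x (S.fld p (m + 1))) G) :
    S.F p m x ≤ S.F p (m + 1) x + G ∧ S.F p (m + 1) x ≤ S.F p m x + G := by
  obtain ⟨al, be, hs, hb, hle⟩ := h
  have hL := S.labOK hm.le
  have hL' := S.labOK (show m + 1 ≤ S.mT from hm)
  have u := sf_UI (S.W p m) x (hL.fld_UI (p := p))
  have u' := sf_UI (S.W p m) x (hL'.fld_UI (p := p))
  have hal := hs.nonneg
  have h1 := abs_le.1 (hs.mass u u')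
  have e0 := F_sf hm.le p x
  have e1 : S.F p (m + 1) x
      = ENNReal.ofReal (∫ z, sf (S.W p m) x (S.fld p (m + 1)) z ∂(stdGaussian (S.W p m)ᗮ)) := by
    have := F_sf (show m + 1 ≤ S.mT from hm) p x
    rw [this, hW]
  set I := ∫ z, sf (S.W p m) x (S.fld p m) z ∂(stdGaussian (S.W p m)ᗮ) with hI
  set I' := ∫ z, sf (S.W p m) x (S.fld p (m + 1)) z ∂(stdGaussian (S.W p m)ᗮ) with hI'
  have n0 : 0 ≤ I := integral_nonneg fun z => u.nonneg z
  have n1 : 0 ≤ I' := integral_nonneg fun z => u'.nonneg z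
  have ha : ENNReal.ofReal al ≤ G := (ENNReal.ofReal_le_ofReal (by linarith)).trans hle
  rw [e0, e1]
  constructor
  · refine le_trans ?_ (add_le_add le_rfl ha)
    rw [← ENNReal.ofReal_add n1 hal]
    exact ENNReal.ofReal_le_ofReal (by linarith [h1.1])
  · refine le_trans ?_ (add_le_add le_rfl ha)
    rw [← ENNReal.ofReal_add n0 hal]
    exact ENNReal.ofReal_le_ofReal (by linarith [h1.2])

/-- **the `L¹` price is a soft charge** -/
theorem soft_L1 (hm : m < S.mT) (p : List ℕ) (x : E) :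
    SoftAt (sf (S.W p m) x (S.fld p m)) (sf (S.W p m) x (S.fld p (m + 1))) (S.L1f p m x) := by
  have hL := S.labOK hm.le
  have hL' := S.labOK (show m + 1 ≤ S.mT from hm)
  have e : ENNReal.ofReal (∫ z, |sf (S.W p m) x (S.fld p (m + 1)) z - sf (S.W p m) x (S.fld p m) z|
      ∂(stdGaussian (S.W p m)ᗮ)) = S.L1f p m x := H44.int_sf (dist_UI (p := p) hm)
  rw [← e]
  exact SoftAt.of_L1 (sf_UI _ x hL.fld_UI) (sf_UI _ x hL'.fld_UI) le_rfl

lemma GG_meas (hI : S.InOK Gi) (p : List ℕ) (m : ℕ) : Measurable (S.GG Gi p m) := by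
  by_cases hm : m < S.mT
  · by_cases h : S.mv.IsStar m
    · rw [GG_star hm h]; exact S.Gst_meas hm p
    · by_cases h' : S.Inr p m
      · rw [GG_in hm h']; exact hI.meas p m hm h'
      · rw [GG_of_not hm h h']; exact L1f_meas hm
  · rw [GG_top hm]; exact measurable_const

lemma GG_inv (hI : S.InOK Gi) (p : List ℕ) (m : ℕ) : Inv (S.W p m) (S.GG Gi p m) := by
  by_cases hm : m < S.mT
  · by_cases h : S.mv.IsStar m
    · rw [GG_star hm h]; exact S.Gst_inv p m
    · by_cases h' : S.Inr p m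
      · rw [GG_in hm h']; exact hI.inv p m hm h'
      · rw [GG_of_not hm h h']; exact L1f_inv p m
  · rw [GG_top hm]; intro x w hw; rfl

/-- **all moves which are not stars are soft, with the price as charge** -/
theorem GG_soft (hI : S.InOK Gi) (hm : m < S.mT) (h : ¬ S.mv.IsStar m) {x : E}
    (hx : x ∉ S.Z p m) :
    SoftAt (sf (S.W p m) x (S.fld p m)) (sf (S.W p m) x (S.fld p (m + 1))) (S.GG Gi p m x) := by
  by_cases h' : S.Inr p m
  · rw [GG_in hm h']; exact hI.soft p m hm h' x hx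
  · rw [GG_of_not hm h h']; exact soft_L1 hm p x

/-- **stars**, every node which is not a leaf -/
theorem GG_starAt {Lam : ℝ} (hLam : 1 ≤ Lam) (hR : S.RimC Lam) (hδ : S.δ ≤ 1 / 10)
    (hm : m < S.mT) (h : S.mv.IsStar m) (hl : ¬ S.Leaf p m) (x : E) :
    StarAt (wd (S.W p m) (wrd S.v (S.K.S p)) (S.mv.tm m)) (sf (S.W p m) x (S.fld p m))
      (sf (S.W p m) x (S.fld p (m + 1))) (S.GG Gi p m x) := by
  rw [GG_star hm h]
  exact S.star_at hLam hR hδ h hm hl x

/-- one move which does not change the label space -/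
theorem GG_move_of (hI : S.InOK Gi) (hm : m < S.mT) (hW : S.W p (m + 1) = S.W p m) {x : E}
    (hx : x ∉ S.Z p m) :
    S.F p m x ≤ S.F p (m + 1) x + S.GG Gi p m x ∧
      S.F p (m + 1) x ≤ S.F p m x + S.GG Gi p m x := by
  by_cases h : S.mv.IsStar m
  · rw [GG_star hm h]; exact S.star_move hm h p x
  · exact F_le_of_soft hm hW (GG_soft hI hm h hx)

/-- **(MOVE)** -/
theorem GG_MOVE (hI : S.InOK Gi) : S.MOVE (S.GG Gi) := by
  intro j hj m hm x hx
  have ht := S.tm_lt_f hm.le
  have hs : S.Same (S.BB (S.nd m x j) m x) m (m + 1) := same_succ ht hx.2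
  have hW : S.W (S.nd m x j) (m + 1) = S.W (S.nd m x j) m := hs.W (nw_sub_BB _ m x) ht
  exact GG_move_of hI hm hW hx.1.2.1

end basic

/-! ### the field of a node seen by its parent, the rotation of a move, the hidden moment -/

open Classical in
/-- the field of the node `q` as its parent sees it (own truncation and killed labels of `q`
included), in the coordinates of `q` -/
noncomputable def fup (q : List ℕ) (m : ℕ) (x : E) : ℝ :=
  if x ∈ S.Z q m then 1 else phi (S.cf m q x) (S.Fr q m x) * S.fld q m x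

/-- the isometry of the rotation move `m`, in the coordinates of the rotating node `jj m` -/
noncomputable def rho (m : ℕ) : E ≃ₗᵢ[ℝ] E :=
  (S.mv.Q (m + 1) (S.mv.jj m)).trans (S.mv.Q m (S.mv.jj m)).symm

/-- **hidden part of the rotating node times the displacement** -/
noncomputable def Hd (m : ℕ) (x : E) : ℝ≥0∞ :=
  ENNReal.ofReal |S.pf (S.mv.jj m) m x - S.fup (S.mv.jj m) m x| * ENNReal.ofReal ‖S.rho m x - x‖

section hidden

variable {S} {p : List ℕ} {m : ℕ} {x : E}

/-- the field of the parent in terms of `fup` -/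
theorem fld_eq_fup (hm : m ≤ S.mT) (hl : ¬ S.Leaf p m) (x : E) : S.fld p m x
    = S.fup (S.kl p m x :: p) m ((S.mv.Q m (S.kl p m x :: p)).symm x) := by
  rw [fld_node (S.labOK hm) hm hl]
  rfl

/-- `fup` as a field on a tree -/
lemma LabOK.fup_eq (hL : S.LabOK m) (q : List ℕ) (x : E) : S.fup q m x
    = FT.fl (.node (S.W q m) (S.cf m q) (S.Z q m) (S.kl q m) (S.tC q m))
      (fun _ => S.pf q m) x := by
  rw [FT.fl_node]
  rfl

lemma LabOK.good_up (hL : S.LabOK m) (q : List ℕ) :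
    FT.Good S.cc (.node (S.W q m) (S.cf m q) (S.Z q m) (S.kl q m) (S.tC q m)) :=
  ⟨hL.ok q, fun k => hL.above_tC, fun k => hL.good_tC⟩

lemma LabOK.fup_UI (hL : S.LabOK m) (q : List ℕ) : UI (S.fup q m) := by
  have e : S.fup q m = FT.fl (.node (S.W q m) (S.cf m q) (S.Z q m) (S.kl q m) (S.tC q m))
      (fun _ => S.pf q m) := funext fun x => hL.fup_eq q x
  rw [e]
  exact FT.fl_UI (hL.good_up q) S.cc_le' fun _ => S.pf_UI q m

lemma Q_succ_jj (m : ℕ) :
    S.mv.Q (m + 1) (S.mv.jj m) = (S.rho m).trans (S.mv.Q m (S.mv.jj m)) := by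
  unfold rho
  ext x
  simp

/-- **the isometry is a rotation in the plane of `θ` and `b`** -/
theorem rho_eq (h : S.mv.IsRot m) : ∃ (θ b : E) (hb : ON θ b), θ ∈ S.W (S.mv.jj m) m ∧
    θ ∈ (S.W (S.mv.jj m).tail m)ᗮ ∧ b ∈ (S.W (S.mv.jj m) m)ᗮ ∧
    S.rho m = rotE hb (S.mv.ph m) := by
  obtain ⟨θ, b, hb, h1, h2, h3, h4⟩ := rot_Q h
  refine ⟨θ, b, hb, h1, h2, h3, ?_⟩
  unfold rho
  rw [h4]
  ext x
  simp

lemma Hd_meas (hm : m ≤ S.mT) : Measurable (S.Hd m) := by
  have h1 := ((S.pf_UI (S.mv.jj m) m).meas.sub ((S.labOK hm).fup_UI (S.mv.jj m)).meas).abs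
  have h2 : Measurable fun x : E => ‖S.rho m x - x‖ := by
    have : Continuous fun x : E => ‖S.rho m x - x‖ :=
      ((S.rho m).continuous.sub continuous_id).norm
    exact this.measurable
  exact h1.ennreal_ofReal.mul h2.ennreal_ofReal

end hidden

end Vale.Agent.P262.M2.Sys
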