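import Vale.Agent.P262.M2.SumRot

/-!
# P262, milestone 2: the sum over all rotations of one level
-/

set_option linter.all false

open MeasureTheory ProbabilityTheory Set
open scoped ENNReal RealInnerProductSpace
open Vale.Agent.P262.H118 (Iv st en K2 El2 paths Cl cl_paths mem_paths iv_st iv_en)
open Vale.Agent.P262.H274 (Slow Cost)
open Vale.Agent.P262.H395 (fib Inv)

namespace Vale.Agent.P262.M2.Sys

variable {E : Type*} [NormedAddCommGroup E] [InnerProductSpace ℝ E] [FiniteDimensional ℝ E]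
  [MeasurableSpace E] [BorelSpace E] {S : Sys E}

/-! ### nodes on the path are constant on the lives -/

lemma nd_succ_s (m : ℕ) (x : E) (j : ℕ) :
    S.nd m x (j + 1) = S.kl (S.nd m x j) m x :: S.nd m x j := rfl

lemma nd_length_s (m : ℕ) (x : E) (j : ℕ) : (S.nd m x j).length = j := by
  induction j with
  | zero => rfl
  | succ j ih => rw [nd_succ_s, List.length_cons, ih]

lemma nd_same_s {m k : ℕ} (hm : S.mv.tm m < S.T) {x : E} {j : ℕ}
    (h : S.Same (S.K.nw (S.nd m x j)) m k) : S.nd k x j = S.nd m x j := by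
  induction j with
  | zero => rfl
  | succ j ih =>
    rw [nd_succ_s] at h
    have h1 : S.Same (S.BB (S.nd m x j) m x) m k :=
      h.mono (S.K.B_sub_nw _ _) (zero_mem_BB _ _ _) hm
    have h2 : S.Same (S.K.nw (S.nd m x j)) m k :=
      h1.mono (nw_sub_BB _ _ _) (S.K.zero_mem_nw _) hm
    have h3 := ih h2
    rw [nd_succ_s, nd_succ_s, h3, kl_same h1 hm]

lemma same_up_s {m k : ℕ} (hm : S.mv.tm m < S.T) {x : E} {i j : ℕ} (hij : i < j)
    (h : S.Same (S.K.nw (S.nd m x j)) m k) : S.Same (S.BB (S.nd m x i) m x) m k := by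
  induction j, hij using Nat.le_induction with
  | base => exact h.mono (S.K.B_sub_nw _ _) (zero_mem_BB _ _ _) hm
  | succ j hj ih =>
    refine ih ?_
    have h1 : S.Same (S.BB (S.nd m x j) m x) m k :=
      h.mono (S.K.B_sub_nw _ _) (zero_mem_BB _ _ _) hm
    exact h1.mono (nw_sub_BB _ _ _) (S.K.zero_mem_nw _) hm

lemma nd_same_le_s {m k : ℕ} (hm : S.mv.tm m < S.T) {x : E} {i j : ℕ} (hij : i ≤ j)
    (h : S.Same (S.K.nw (S.nd m x j)) m k) : S.nd k x i = S.nd m x i := by
  rcases hij.eq_or_lt with rfl | hij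
  · exact nd_same_s hm h
  · refine nd_same_s hm ?_
    exact (same_up_s hm hij h).mono (nw_sub_BB _ _ _) (S.K.zero_mem_nw _) hm

lemma OL_same_s {m k : ℕ} (hm : S.mv.tm m < S.T) {x : E} {j : ℕ}
    (h : S.Same (S.K.nw (S.nd m x j)) m k) : x ∈ S.OL j k ↔ x ∈ S.OL j m := by
  have h1 : ∀ i, i < j → (x ∈ S.om (S.nd k x i) k ↔ x ∈ S.om (S.nd m x i) m) := by
    intro i hi
    rw [nd_same_le_s hm hi.le h]
    exact om_same (same_up_s hm hi h) hm
  constructor
  · intro h2 i hi
    exact (h1 i hi).1 (h2 i hi)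
  · intro h2 i hi
    exact (h1 i hi).2 (h2 i hi)

/-- on the block of the label of level `j`: node, counted ancestors and the label itself -/
lemma blk_same_s {m k : ℕ} (hm : S.mv.tm m < S.T) {x : E} {j : ℕ}
    (h : S.Same (S.BB (S.nd m x j) m x) m k) :
    S.nd k x j = S.nd m x j ∧ (x ∈ S.OL j k ↔ x ∈ S.OL j m) ∧
      (x ∈ S.om (S.nd k x j) k ↔ x ∈ S.om (S.nd m x j) m) := by
  have h1 : S.Same (S.K.nw (S.nd m x j)) m k := h.mono (nw_sub_BB _ _ _) (S.K.zero_mem_nw _) hm
  refine ⟨nd_same_s hm h1, OL_same_s hm h1, ?_⟩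
  rw [nd_same_s hm h1]
  exact om_same h hm

lemma OL_succ_s {m j : ℕ} {x : E} :
    x ∈ S.OL (j + 1) m ↔ x ∈ S.OL j m ∧ x ∈ S.om (S.nd m x j) m := by
  constructor
  · exact fun h => ⟨fun i hi => h i (by omega), h j (by omega)⟩
  · rintro ⟨h1, h2⟩ i hi
    rcases Nat.lt_succ_iff_lt_or_eq.1 hi with h3 | rfl
    · exact h1 i h3
    · exact h2

lemma tm_lt_mT {m : ℕ} (h : m < S.mT) : S.mv.tm m < S.T := by
  refine S.mv.tm_lt_of_lt ?_
  unfold Sys.mT at h
  omega

/-- a leaf node has no surviving children -/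
lemma not_leaf_of_rot {m : ℕ} (hm : m < S.mT) (hr : S.mv.IsRot m) {c : ℕ} {p : List ℕ}
    (hj : S.mv.jj m = c :: p) : ¬ S.Leaf p m := by
  intro hl
  obtain ⟨h1, h2, h3, h4⟩ := S.mv.rot_data hr
  rw [hj] at h4
  have ht : S.mv.tm m < S.T := tm_lt_mT hm
  have h0 := S.K.zero_mem_B p c
  obtain ⟨hiv, h5, h6⟩ := iv_st h0 ht
  have hW : S.K.W p (S.mv.tm m) = S.K.W p (st (S.K.B p c) (S.mv.tm m)) :=
    S.K.W_const (S.K.nw_sub_B p c) hiv h5 h6
  have h7 : Module.finrank ℝ (S.K.W p (st (S.K.B p c) (S.mv.tm m)))ᗮ ≤ 1 := by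
    rw [← hW]; exact hl
  have hN : S.N c < S.δ := by
    rw [S.hN]
    refine lt_of_le_of_lt ?_ S.hc0δ
    exact div_le_self S.hc0.le (one_le_pow₀ (by norm_num))
  have h8 := S.K.leaf_window S.hv hN h7 hiv
  rcases hiv.2.2.2.1 with h9 | h9
  · refine h4 (S.K.B_sub_nw p c ?_)
    have h10 : S.mv.tm m + 1 = en (S.K.B p c) S.T (st (S.K.B p c) (S.mv.tm m)) := by omega
    rw [h10]
    exact h9
  · omega

/-- weight of the right side of the throughput at the label of level `j` -/
noncomputable def rw1 (p : List ℕ) (m : ℕ) (x : E) : ℝ≥0∞ :=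
  S.As S.th p m x * S.psi p m x * S.s2 p m x

lemma s2_same_s {p : List ℕ} {m k : ℕ} {x : E} (h : S.Same (S.BB p m x) m k)
    (hm : S.mv.tm m < S.T) : S.s2 p k x = S.s2 p m x := by
  unfold Sys.s2
  rw [kl_same h hm]

lemma rw1_same_s {p : List ℕ} {m k : ℕ} {x : E} (h : S.Same (S.BB p m x) m k)
    (hm : S.mv.tm m < S.T) : S.rw1 p k x = S.rw1 p m x := by
  unfold Sys.rw1
  rw [h.As (nw_sub_BB p m x) hm, psi_same h hm, s2_same_s h hm]

/-- `√(1 - log D*) ≤ 2 * 2 ^ kl` at counted labels. -/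
lemma sl_le_s2 {p : List ℕ} {m : ℕ} {x : E} (hm : S.mv.tm m < S.T) (h : x ∈ S.om p m) :
    S.sl p m x ≤ 2 * S.s2 p m x := by
  have hs : S.s2 p m x = ENNReal.ofReal (2 ^ S.kl p m x) := by
    unfold Sys.s2
    rw [ENNReal.ofReal_pow (by norm_num)]
    norm_num
  rw [hs]
  unfold Sys.sl
  split_ifs with h0
  · rw [h0, pow_zero, ENNReal.ofReal_one, mul_one]
    exact one_le_two
  · have hD := thr_le_Db_of_om hm h
    set c := S.kl p m x with hc
    have hD1 : S.Db p m x ≤ 1 := Dw_le_one _ _ _ _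
    have hDt : S.Db p m x ≠ ⊤ := (hD1.trans_lt ENNReal.one_lt_top).ne
    rw [S.hthr] at hD
    have hD2 : Real.exp (1 - 4 ^ c) / 10 ≤ (S.Db p m x).toReal := by
      have := ENNReal.toReal_mono hDt hD
      rwa [ENNReal.toReal_ofReal (by positivity)] at this
    have hpos : (0 : ℝ) < Real.exp (1 - 4 ^ c) / 10 := by positivity
    have hlog : Real.log (Real.exp (1 - 4 ^ c) / 10) ≤ Real.log (S.Db p m x).toReal :=
      Real.log_le_log hpos hD2
    have h10 : Real.log 10 ≤ 3 := by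
      have h1 : (10 : ℝ) ≤ Real.exp 3 := by
        have h2 : (2.7 : ℝ) ≤ Real.exp 1 := by
          have := Real.exp_one_gt_d9; linarith
        have h3 : Real.exp 3 = Real.exp 1 ^ 3 := by
          rw [← Real.exp_nat_mul]; norm_num
        rw [h3]
        calc (10 : ℝ) ≤ 2.7 ^ 3 := by norm_num
          _ ≤ _ := pow_le_pow_left₀ (by norm_num) h2 3
      calc Real.log 10 ≤ Real.log (Real.exp 3) := Real.log_le_log (by norm_num) h1
        _ = 3 := Real.log_exp 3
    rw [Real.log_div (Real.exp_pos _).ne' (by norm_num), Real.log_exp] at hlog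
    have h4 : (4 : ℝ) ≤ 4 ^ c := by
      calc (4 : ℝ) = 4 ^ 1 := (pow_one _).symm
        _ ≤ 4 ^ c := pow_le_pow_right₀ (by norm_num) (by omega)
    have h5 : Real.sqrt (1 - Real.log (S.Db p m x).toReal) ≤ 2 * 2 ^ c := by
      rw [show (2 : ℝ) * 2 ^ c = Real.sqrt ((2 * 2 ^ c) ^ 2) from
        (Real.sqrt_sq (by positivity)).symm]
      apply Real.sqrt_le_sqrt
      have h6 : ((2 : ℝ) * 2 ^ c) ^ 2 = 4 * 4 ^ c := by
        rw [mul_pow, ← pow_mul, mul_comm c 2, pow_mul]
        norm_num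
      rw [h6]
      linarith
    calc ENNReal.ofReal (Real.sqrt (1 - Real.log (S.Db p m x).toReal))
        ≤ ENNReal.ofReal (2 * 2 ^ c) := ENNReal.ofReal_le_ofReal h5
      _ = 2 * ENNReal.ofReal (2 ^ c) := by
          rw [ENNReal.ofReal_mul (by norm_num)]
          norm_num

/-- the two forms of the right side of the throughput. -/
theorem RwS_le {j m : ℕ} (hm : m < S.mT) : S.RwS j m ≤ 2 * S.Rw j m := by
  unfold Sys.RwS Sys.Rw
  rw [← lintegral_const_mul' _ _ (by norm_num)]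
  refine lintegral_mono fun x => ?_
  simp only
  by_cases hx : x ∈ S.thru (j + 1) m ∩ S.OL (j + 1) m
  · unfold iw
    rw [Set.indicator_of_mem hx, Pi.one_apply, one_mul, one_mul]
    have h1 := sl_le_s2 (tm_lt_mT hm) (OL_succ_s.1 hx.2).2
    calc S.As S.th (S.nd m x j) m x * S.psi (S.nd m x j) m x * S.sl (S.nd m x j) m x
        ≤ S.As S.th (S.nd m x j) m x * S.psi (S.nd m x j) m x * (2 * S.s2 (S.nd m x j) m x) :=
          mul_le_mul_right h1 _
      _ = _ := by ring
  · unfold iw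
    rw [Set.indicator_of_notMem hx, zero_mul, zero_mul, mul_zero]

open Classical in
/-- **rotations of level `j + 1` seen by one point**: they are paid by the units of level `j`. -/
theorem rot_point {w : ℝ} (hw : 0 ≤ w) (hwρ : 3 * w ≤ S.ρ) (j : ℕ) (x : E) :
    ∑ m ∈ Finset.range S.mT, (if S.mv.IsRot m ∧ (S.mv.jj m).length = j + 1 then
      ENNReal.ofReal (w ^ S.kr m * S.mv.ph m) * (iw (S.thru (j + 1) m ∩ S.OL (j + 1) m) x *
        S.rw1 (S.nd m x j) m x) else 0) ≤
    ENNReal.ofReal (2 * Real.pi * S.c0 / S.δ) *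
      ∑ m ∈ Finset.range S.mT, iw (S.NL j m ∩ S.OL j m ∩
        {x | x ∈ S.om (S.nd m x j) m ∧ S.bs (S.nd m x j) m x = m}) x *
          S.un (S.nd m x j) m x := by
  set b : ℕ → ℕ := fun m => S.bs (S.nd m x j) m x with hbdef
  set e : ℕ → ℕ := fun m => S.be (S.nd m x j) m x with hedef
  have hlast : ∀ m < S.mT, S.Same (S.BB (S.nd m x j) m x) m (b m) := fun m hm =>
    ⟨le_rfl, (bs_le _ m x).trans (le_be _ x (tm_lt_mT hm))⟩
  have hbb : ∀ m < S.mT, b (b m) = b m := by
    intro m hm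
    have h1 := blk_same_s (tm_lt_mT hm) (hlast m hm)
    show S.bs (S.nd (b m) x j) (b m) x = _
    rw [h1.1, bs_same (hlast m hm) (tm_lt_mT hm)]
  have heb : ∀ m < S.mT, e (b m) = e m := by
    intro m hm
    have h1 := blk_same_s (tm_lt_mT hm) (hlast m hm)
    show S.be (S.nd (b m) x j) (b m) x = _
    rw [h1.1, be_same (hlast m hm) (tm_lt_mT hm)]
  refine (regroup (n := S.mT) (b := b) (e := e) (fun m hm => bs_le _ m x) hbb
    (fun m hm => by rw [heb m hm]; exact le_be _ x (tm_lt_mT hm)) _).trans ?_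
  rw [Finset.mul_sum]
  refine Finset.sum_le_sum fun a ha => ?_
  rw [Finset.mem_range] at ha
  have hta := tm_lt_mT ha
  split_ifs with hba
  swap
  · exact zero_le
  set p := S.nd a x j with hp
  -- facts about the moves of the block
  have hs : ∀ m ∈ Finset.Ico a (e a + 1), S.Same (S.BB p a x) a m := by
    intro m hm
    rw [Finset.mem_Ico] at hm
    refine ⟨?_, ?_⟩
    · have : S.bs p a x = a := hba
      show S.bs p a x ≤ m
      omega
    · show m ≤ S.be p a x
      have : e a = S.be p a x := rfl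
      omega
  by_cases hom : x ∈ S.OL (j + 1) a
  swap
  · -- not counted: nothing
    refine le_of_eq_of_le (Finset.sum_eq_zero fun m hm => ?_) (zero_le)
    split_ifs with hr
    · have h1 := blk_same_s hta (hs m hm)
      have h2 : x ∉ S.OL (j + 1) m := by
        rw [OL_succ_s, h1.2.1, h1.2.2, ← OL_succ_s]
        exact hom
      unfold iw
      rw [Set.indicator_of_notMem (fun h => h2 h.2), zero_mul, mul_zero]
    · rfl
  obtain ⟨hOL, hom'⟩ := OL_succ_s.1 hom
  -- is there a rotation?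
  by_cases hex : ∃ m ∈ Finset.Ico a (e a + 1), S.mv.IsRot m ∧ S.mv.jj m = S.kl p a x :: p ∧
      m < S.mT
  swap
  · refine le_of_eq_of_le (Finset.sum_eq_zero fun m hm => ?_) (zero_le)
    split_ifs with hr
    · have h1 := blk_same_s hta (hs m hm)
      have h2 : x ∉ S.thru (j + 1) m := by
        intro h3
        have h4 : S.nd m x (j + 1) = S.mv.jj m := h3
        rw [nd_succ_s, h1.1, kl_same (hs m hm) hta] at h4
        refine hex ⟨m, hm, hr.1, h4.symm, ?_⟩
        have h5 := (S.mv.rot_data hr.1).1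
        have h6 := hr.1.2
        have h7 := S.mv.n_mono (Nat.succ_le_of_lt ((Nat.lt_succ_self (S.mv.tm m)).trans h5))
        rw [Nat.succ_eq_add_one] at h7
        have h8 := S.mv.n_mono h5.le
        have h9 := S.mv.n_lt (S.mv.tm m + 1)
        unfold Sys.mT
        omega
      unfold iw
      rw [Set.indicator_of_notMem (fun h => h2 h.1), zero_mul, mul_zero]
    · rfl
  obtain ⟨m1, hm1, hr1, hj1, hm1T⟩ := hex
  have hleaf : ¬ S.Leaf p a := by
    have h1 := not_leaf_of_rot hm1T hr1 hj1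
    rwa [(hs m1 hm1).leaf (nw_sub_BB p a x) hta] at h1
  have hG : S.kl p a x :: p ∈ paths S.cm (Module.finrank ℝ E) := by
    rw [← hj1]; exact (S.mv.rot_data hr1).2.1
  have hmem : x ∈ S.NL j a ∩ S.OL j a ∩
      {x | x ∈ S.om (S.nd a x j) a ∧ S.bs (S.nd a x j) a x = a} :=
    ⟨⟨hleaf, hOL⟩, hom', hba⟩
  have e2 : iw (S.NL j a ∩ S.OL j a ∩
      {x | x ∈ S.om (S.nd a x j) a ∧ S.bs (S.nd a x j) a x = a}) x = 1 := by
    unfold iw; rw [Set.indicator_of_mem hmem]; rfl
  rw [e2, one_mul]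
  -- the block
  have key := rot_block hta hleaf hG hw hwρ
  have hbs : S.bs p a x = a := hba
  rw [hbs] at key
  have e3 : ∀ m ∈ Finset.Ico a (e a + 1), (if S.mv.IsRot m ∧ (S.mv.jj m).length = j + 1 then
      ENNReal.ofReal (w ^ S.kr m * S.mv.ph m) * (iw (S.thru (j + 1) m ∩ S.OL (j + 1) m) x *
        S.rw1 (S.nd m x j) m x) else 0) ≤
      (if S.mv.IsRot m ∧ S.mv.jj m = S.kl p a x :: p then
        ENNReal.ofReal (w ^ S.kr m * S.mv.ph m) else 0) * S.rw1 p a x := by
    intro m hm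
    split_ifs with h1 h2
    · rw [(blk_same_s hta (hs m hm)).1, ← hp, rw1_same_s (hs m hm) hta]
      refine mul_le_mul_right ?_ _
      unfold iw
      calc (S.thru (j + 1) m ∩ S.OL (j + 1) m).indicator 1 x * S.rw1 p a x
          ≤ 1 * S.rw1 p a x := by
            gcongr
            exact indicator_le_one' _ _
        _ = _ := one_mul _
    · have h3 : x ∉ S.thru (j + 1) m := by
        intro h3
        have h4 : S.nd m x (j + 1) = S.mv.jj m := h3
        rw [nd_succ_s, (blk_same_s hta (hs m hm)).1, kl_same (hs m hm) hta] at h4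
        exact h2 ⟨h1.1, h4.symm⟩
      unfold iw
      rw [Set.indicator_of_notMem (fun h => h3 h.1), zero_mul, mul_zero]
      exact zero_le
    · exact zero_le
    · exact zero_le
  refine (Finset.sum_le_sum e3).trans ?_
  rw [← Finset.sum_mul]
  refine (mul_le_mul_left key _).trans ?_
  have h5 := N_s2 (S := S) (p := p) (m := a) (x := x)
  calc ENNReal.ofReal (Real.pi * S.N (S.kl p a x) / S.δ) * S.cst p a x * S.rw1 p a x
      = ENNReal.ofReal (Real.pi * S.N (S.kl p a x) / S.δ) * S.s2 p a x * S.un p a x := by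
        unfold Sys.rw1 Sys.un
        ring
    _ ≤ _ := mul_le_mul_left h5 _

end Vale.Agent.P262.M2.Sys
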