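import Vale.Agent.P262.M2.Defs
import Vale.Agent.P262.H118.SysGeo
import Vale.Agent.P262.H44.Tree

/-!
# P262, milestone 2: bodies, deficits, caps (measurability, invariance, moves)
-/

set_option linter.all false

open MeasureTheory ProbabilityTheory Set
open scoped ENNReal RealInnerProductSpace
open Vale.Agent.P262.H118 (Iv st en ON rotE tau wd wrd Mg Piece K2 El2 paths Cl cl_paths mem_paths
  iv_st)
open Vale.Agent.P262.H274 (Slow Cost)
open Vale.Agent.P262.H395 (fib mix Inv inv_fib measurable_fib fib_mono)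
open Vale.Agent.P262.H395.Tree (InvN)
open Vale.Agent.P262.H44 (InvS)
open Vale.Agent.P262.H493 (star)

namespace Vale.Agent.P262.M2.Sys

variable {E : Type*} [NormedAddCommGroup E] [InnerProductSpace ℝ E] [FiniteDimensional ℝ E]
  [MeasurableSpace E] [BorelSpace E] (S : Sys E)

/-! ### bodies -/

lemma Kt_subset (t : ℕ) : S.Kt t ⊆ Metric.closedBall 0 S.R := M1.body_subset _ _ t
lemma isCompact_Kt (t : ℕ) : IsCompact (S.Kt t) := M1.isCompact_body _ _ t
lemma isClosed_Kt (t : ℕ) : IsClosed (S.Kt t) := (S.isCompact_Kt t).isClosed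
lemma measurableSet_Kt (t : ℕ) : MeasurableSet (S.Kt t) := (S.isClosed_Kt t).measurableSet
lemma convex_Kt (t : ℕ) : Convex ℝ (S.Kt t) := M1.convex_body _ _ t
lemma neg_mem_Kt (t : ℕ) : ∀ x ∈ S.Kt t, -x ∈ S.Kt t := M1.neg_mem_body _ _ t

lemma isClosed_X (p : List ℕ) (m : ℕ) : IsClosed (S.X p m) := S.mv.isClosed_Bd S.isClosed_Kt p m
lemma convex_X (p : List ℕ) (m : ℕ) : Convex ℝ (S.X p m) := S.mv.convex_Bd S.convex_Kt p m
lemma neg_mem_X (p : List ℕ) (m : ℕ) : ∀ x ∈ S.X p m, -x ∈ S.X p m :=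
  S.mv.neg_mem_Bd S.neg_mem_Kt p m
lemma X_subset_ball (p : List ℕ) (m : ℕ) : S.X p m ⊆ Metric.closedBall 0 S.R :=
  S.mv.Bd_subset_ball S.Kt_subset p m
lemma isCompact_X (p : List ℕ) (m : ℕ) : IsCompact (S.X p m) :=
  (isCompact_closedBall (0 : E) S.R).of_isClosed_subset (S.isClosed_X p m) (S.X_subset_ball p m)
lemma measurableSet_X (p : List ℕ) (m : ℕ) : MeasurableSet (S.X p m) :=
  (S.isClosed_X p m).measurableSet

lemma X_nil (m : ℕ) : S.X [] m = S.mv.Kb S.Kt m := rfl

lemma cl_G : Cl (paths S.cm (Module.finrank ℝ E)) := cl_paths _ _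

lemma mem_G {p : List ℕ} : p ∈ paths S.cm (Module.finrank ℝ E) ↔
    p.length ≤ Module.finrank ℝ E ∧ ∀ c ∈ p, c ≤ S.cm := mem_paths

/-- star move -/
theorem X_star {m : ℕ} (h : S.mv.IsStar m) (hm : m < S.mT) (p : List ℕ) :
    S.X p (m + 1) = star (S.X p m) (wrd S.v (S.K.S p) (S.mv.tm m)) ∩
      Metric.closedBall 0 S.R := by
  have ht : S.mv.tm m < S.T := S.mv.tm_lt_of_lt (by unfold mT at hm; omega)
  have h1 := S.mv.Bd_star (Kt := S.Kt) (R := S.R) ht rfl p
  unfold X
  unfold El2.IsStar at h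
  rw [← h] at h1
  exact h1

/-- rotation: nodes which do not have `jj m` as a suffix do not move -/
theorem X_rot_not {m : ℕ} (h : S.mv.IsRot m) {r : List ℕ} (hr : ¬ S.mv.jj m <:+ r) :
    S.X r (m + 1) = S.X r m := S.mv.Bd_rot_not h.1 h.2 hr

/-- reopening: surviving nodes do not move -/
theorem X_re {m : ℕ} (h : S.mv.IsRe m) (hm : S.mv.tm m + 1 < S.T) {p : List ℕ}
    (hp : p ∈ paths S.cm (Module.finrank ℝ E)) (hn : S.mv.tm m + 1 ∉ S.K.nw p) :
    S.X p (m + 1) = S.X p m := by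
  have h1 := S.mv.Bd_reopen (Kt := S.Kt) S.cl_G hm hp hn
  unfold El2.IsRe at h
  unfold X
  have e : m = S.mv.n (S.mv.tm m + 1) - 1 := by omega
  rw [h]
  conv_rhs => rw [e]
  exact h1

/-! ### label spaces -/

lemma W_le (c : ℕ) (p : List ℕ) (m : ℕ) : S.W p m ≤ S.W (c :: p) m := S.K.W_le c p _

lemma W_mono {p q : List ℕ} (h : p <:+ q) (m : ℕ) : S.W p m ≤ S.W q m := S.K.W_mono h _

lemma W_nil (m : ℕ) : S.W [] m = ⊥ := S.K.W_nil _

/-- label spaces are constant on the intervals of any partition finer than the lives. -/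
lemma W_eq {p : List ℕ} {B : Set ℕ} (hB : S.K.nw p ⊆ B) {m k : ℕ} (hm : S.mv.tm m < S.T)
    (h1 : S.mv.sS B m ≤ k) (h2 : k ≤ S.mv.eS B m) : S.W p k = S.W p m := by
  have h0 : 0 ∈ B := hB (S.K.zero_mem_nw p)
  obtain ⟨h3, h4⟩ := S.mv.tm_mem h0 hm h1 h2
  have h5 := iv_st h0 hm
  unfold W
  rw [S.K.W_const hB h5.1 h3 h4, S.K.W_const hB h5.1 h5.2.1 h5.2.2]

lemma W_succ_active {m : ℕ} (h : S.mv.IsStar m ∨ S.mv.IsRot m) (p : List ℕ) :
    S.W p (m + 1) = S.W p m := by
  unfold W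
  rcases h with h | h
  · rw [S.mv.tm_succ_star h]
  · rw [S.mv.tm_succ_rot h]

lemma not_re_iff {m : ℕ} : ¬ S.mv.IsRe m ↔ (S.mv.IsStar m ∨ S.mv.IsRot m) := by
  constructor
  · intro h
    rcases S.mv.cases_move m with h1 | h1 | h1
    · exact Or.inl h1
    · exact Or.inr h1
    · exact absurd h1 h
  · rintro (h | h)
    · exact fun h1 => h1.not_star h
    · exact h.not_re

/-! ### deficits -/

lemma De_meas (p : List ℕ) (m : ℕ) : Measurable (S.De p m) :=
  measurable_fib (measurable_one.indicator (S.measurableSet_X p m).compl)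
lemma De_inv (p : List ℕ) (m : ℕ) : Inv (S.W p m) (S.De p m) := inv_fib _ _
lemma q_meas (p : List ℕ) (m : ℕ) : Measurable (S.q p m) :=
  measurable_fib (measurable_one.indicator (S.measurableSet_X p m))
lemma q_inv (p : List ℕ) (m : ℕ) : Inv (S.W p m) (S.q p m) := inv_fib _ _

omit S in
lemma indicator_le_one' (s : Set E) (x : E) : s.indicator (1 : E → ℝ≥0∞) x ≤ 1 := by
  by_cases h : x ∈ s
  · rw [indicator_of_mem h]; rfl
  · rw [indicator_of_notMem h]; exact zero_le

lemma De_le_one (p : List ℕ) (m : ℕ) (x : E) : S.De p m x ≤ 1 :=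
  H395.fib_le_one (fun y => indicator_le_one' _ y) x
lemma q_le_one (p : List ℕ) (m : ℕ) (x : E) : S.q p m x ≤ 1 :=
  H395.fib_le_one (fun y => indicator_le_one' _ y) x

lemma De_add_q (p : List ℕ) (m : ℕ) (x : E) : S.De p m x + S.q p m x = 1 := by
  unfold De q
  rw [← H395.fib_add (measurable_one.indicator (S.measurableSet_X p m).compl)]
  rw [show (fun y => (S.X p m)ᶜ.indicator (1 : E → ℝ≥0∞) y + (S.X p m).indicator 1 y)
    = fun _ => 1 from ?_]
  · exact H395.fib_const _ 1 x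
  · funext y
    by_cases h : y ∈ S.X p m
    · rw [indicator_of_notMem (by simpa using h), indicator_of_mem h]; simp
    · rw [indicator_of_mem (by simpa using h), indicator_of_notMem h]; simp

lemma Dc_active {p : List ℕ} {m : ℕ} (h : S.mv.IsStar m ∨ S.mv.IsRot m) (x : E) :
    S.Dc p m x = fib (S.W p m) ((S.X p m ∩ S.X p (m + 1))ᶜ.indicator 1) x := by
  unfold Dc; rw [if_neg (S.not_re_iff.2 h)]

lemma Dc_re {p : List ℕ} {m : ℕ} (h : S.mv.IsRe m) (x : E) : S.Dc p m x = S.De p m x := by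
  unfold Dc; rw [if_pos h]

lemma Dl_active {p : List ℕ} {m : ℕ} (h : S.mv.IsStar m ∨ S.mv.IsRot m) (x : E) :
    S.Dl p m x = fib (S.W p m) ((symmDiff (S.X p m) (S.X p (m + 1))).indicator 1) x := by
  unfold Dl; rw [if_neg (S.not_re_iff.2 h)]

lemma Dl_re {p : List ℕ} {m : ℕ} (h : S.mv.IsRe m) (x : E) : S.Dl p m x = 0 := by
  unfold Dl; rw [if_pos h]

lemma Dc_meas (p : List ℕ) (m : ℕ) : Measurable (S.Dc p m) := by
  by_cases h : S.mv.IsRe m
  · have : S.Dc p m = S.De p m := by funext x; exact S.Dc_re h x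
    rw [this]; exact S.De_meas p m
  · have : S.Dc p m = fib (S.W p m) ((S.X p m ∩ S.X p (m + 1))ᶜ.indicator 1) := by
      funext x; exact S.Dc_active (S.not_re_iff.1 h) x
    rw [this]
    exact measurable_fib (measurable_one.indicator
      ((S.measurableSet_X p m).inter (S.measurableSet_X p (m + 1))).compl)

lemma Dc_inv (p : List ℕ) (m : ℕ) : Inv (S.W p m) (S.Dc p m) := by
  by_cases h : S.mv.IsRe m
  · have : S.Dc p m = S.De p m := by funext x; exact S.Dc_re h x
    rw [this]; exact S.De_inv p m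
  · have : S.Dc p m = fib (S.W p m) ((S.X p m ∩ S.X p (m + 1))ᶜ.indicator 1) := by
      funext x; exact S.Dc_active (S.not_re_iff.1 h) x
    rw [this]; exact inv_fib _ _

lemma Dl_meas (p : List ℕ) (m : ℕ) : Measurable (S.Dl p m) := by
  by_cases h : S.mv.IsRe m
  · have : S.Dl p m = fun _ => 0 := by funext x; exact S.Dl_re h x
    rw [this]; exact measurable_const
  · have : S.Dl p m = fib (S.W p m) ((symmDiff (S.X p m) (S.X p (m + 1))).indicator 1) := by
      funext x; exact S.Dl_active (S.not_re_iff.1 h) x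
    rw [this]
    exact measurable_fib (measurable_one.indicator
      ((S.measurableSet_X p m).symmDiff (S.measurableSet_X p (m + 1))))

lemma Dl_inv (p : List ℕ) (m : ℕ) : Inv (S.W p m) (S.Dl p m) := by
  by_cases h : S.mv.IsRe m
  · have : S.Dl p m = fun _ => 0 := by funext x; exact S.Dl_re h x
    rw [this]; exact H395.inv_const _ 0
  · have : S.Dl p m = fib (S.W p m) ((symmDiff (S.X p m) (S.X p (m + 1))).indicator 1) := by
      funext x; exact S.Dl_active (S.not_re_iff.1 h) x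
    rw [this]; exact inv_fib _ _

lemma Dc_le_one (p : List ℕ) (m : ℕ) (x : E) : S.Dc p m x ≤ 1 := by
  by_cases h : S.mv.IsRe m
  · rw [S.Dc_re h]; exact S.De_le_one p m x
  · rw [S.Dc_active (S.not_re_iff.1 h)]
    exact H395.fib_le_one (fun y => indicator_le_one' _ y) x

omit S in
lemma ind_le_ind {s t : Set E} (h : s ⊆ t) (x : E) :
    s.indicator (1 : E → ℝ≥0∞) x ≤ t.indicator 1 x := indicator_le_indicator_of_subset h
      (fun _ => zero_le) x

lemma De_le_Dc (p : List ℕ) (m : ℕ) (x : E) : S.De p m x ≤ S.Dc p m x := by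
  by_cases h : S.mv.IsRe m
  · rw [S.Dc_re h]
  · rw [S.Dc_active (S.not_re_iff.1 h)]
    exact fib_mono (fun y => ind_le_ind (compl_subset_compl.2 inter_subset_left) y) x

lemma De_succ_le_Dc {p : List ℕ} {m : ℕ} (h : S.mv.IsStar m ∨ S.mv.IsRot m) (x : E) :
    S.De p (m + 1) x ≤ S.Dc p m x := by
  rw [S.Dc_active h]
  unfold De
  rw [S.W_succ_active h]
  exact fib_mono (fun y => ind_le_ind (compl_subset_compl.2 inter_subset_right) y) x

lemma Dc_le_De_add_Dl (p : List ℕ) (m : ℕ) (x : E) : S.Dc p m x ≤ S.De p m x + S.Dl p m x := by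
  by_cases h : S.mv.IsRe m
  · rw [S.Dc_re h]; exact le_self_add
  · have h' := S.not_re_iff.1 h
    rw [S.Dc_active h', S.Dl_active h']
    unfold De
    rw [← H395.fib_add (measurable_one.indicator (S.measurableSet_X p m).compl)]
    refine fib_mono (fun y => ?_) x
    by_cases h1 : y ∈ S.X p m
    · by_cases h2 : y ∈ S.X p (m + 1)
      · rw [indicator_of_notMem (by simp [h1, h2])]; exact zero_le
      · have : y ∈ symmDiff (S.X p m) (S.X p (m + 1)) := Or.inl ⟨h1, h2⟩
        rw [indicator_of_mem this]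
        exact (indicator_le_one' _ y).trans le_add_self
    · rw [indicator_of_mem (show y ∈ (S.X p m)ᶜ from h1)]
      exact (indicator_le_one' _ y).trans le_self_add

lemma Dc_le_De_succ_add_Dl {p : List ℕ} {m : ℕ} (h : S.mv.IsStar m ∨ S.mv.IsRot m) (x : E) :
    S.Dc p m x ≤ S.De p (m + 1) x + S.Dl p m x := by
  rw [S.Dc_active h, S.Dl_active h]
  unfold De
  rw [S.W_succ_active h,
    ← H395.fib_add (measurable_one.indicator (S.measurableSet_X p (m + 1)).compl)]
  refine fib_mono (fun y => ?_) x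
  by_cases h1 : y ∈ S.X p (m + 1)
  · by_cases h2 : y ∈ S.X p m
    · rw [indicator_of_notMem (by simp [h1, h2])]; exact zero_le
    · have : y ∈ symmDiff (S.X p m) (S.X p (m + 1)) := Or.inr ⟨h1, h2⟩
      rw [indicator_of_mem this]
      exact (indicator_le_one' _ y).trans le_add_self
  · rw [indicator_of_mem (show y ∈ (S.X p (m + 1))ᶜ from h1)]
    exact (indicator_le_one' _ y).trans le_self_add

lemma Dc_le_De_add_De {p : List ℕ} {m : ℕ} (h : S.mv.IsStar m ∨ S.mv.IsRot m) (x : E) :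
    S.Dc p m x ≤ S.De p m x + S.De p (m + 1) x := by
  rw [S.Dc_active h]
  unfold De
  rw [S.W_succ_active h,
    ← H395.fib_add (measurable_one.indicator (S.measurableSet_X p m).compl)]
  refine fib_mono (fun y => ?_) x
  by_cases h1 : y ∈ S.X p m
  · by_cases h2 : y ∈ S.X p (m + 1)
    · rw [indicator_of_notMem (by simp [h1, h2])]; exact zero_le
    · rw [indicator_of_mem (show y ∈ (S.X p (m + 1))ᶜ from h2)]
      exact (indicator_le_one' _ y).trans le_add_self
  · rw [indicator_of_mem (show y ∈ (S.X p m)ᶜ from h1)]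
    exact (indicator_le_one' _ y).trans le_self_add

lemma Dl_le_Dc (p : List ℕ) (m : ℕ) (x : E) : S.Dl p m x ≤ S.Dc p m x := by
  by_cases h : S.mv.IsRe m
  · rw [S.Dl_re h]; exact zero_le
  · have h' := S.not_re_iff.1 h
    rw [S.Dc_active h', S.Dl_active h']
    refine fib_mono (fun y => ind_le_ind ?_ y) x
    rintro z (⟨h1, h2⟩ | ⟨h1, h2⟩) h3
    · exact h2 h3.2
    · exact h2 h3.1

/-! ### caps -/

lemma le_of_mem_chn {p : List ℕ} {m : ℕ} {V : Submodule ℝ E} (h : V ∈ S.chn p m) :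
    V ≤ S.W p m := by
  induction p with
  | nil => simp [chn] at h
  | cons c p ih =>
    rw [chn, List.mem_append] at h
    rcases h with h | h
    · exact (ih h).trans (S.W_le c p m)
    · rw [List.mem_singleton] at h; rw [h]

/-- the last element of the flag is the label space -/
lemma W_mem_chn (p : List ℕ) (m : ℕ) : S.W p m ∈ S.chn p m ∨ S.W p m = ⊥ := by
  cases p with
  | nil => exact Or.inr (S.W_nil m)
  | cons c p => left; rw [chn]; simp

lemma As_meas (s : ℝ) (p : List ℕ) (m : ℕ) : Measurable (S.As s p m) := H962.measurable_capS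
lemma As_continuous (s : ℝ) (p : List ℕ) (m : ℕ) : Continuous (S.As s p m) := H962.continuous_capS
lemma As_inv (s : ℝ) (p : List ℕ) (m : ℕ) : Inv (S.W p m) (S.As s p m) :=
  H962.inv_capS fun V hV => S.le_of_mem_chn hV
lemma A_meas (p : List ℕ) (m : ℕ) : Measurable (S.A p m) := S.As_meas 1 p m
lemma A_inv (p : List ℕ) (m : ℕ) : Inv (S.W p m) (S.A p m) := S.As_inv 1 p m

lemma A_rpow {s : ℝ} (hs : 0 ≤ s) (p : List ℕ) (m : ℕ) (x : E) : S.A p m x ^ s = S.As s p m x :=
  H962.capS_rpow S.hA0 S.hkap hs x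

lemma one_le_dw {a : ℝ} (ha : 0 ≤ a) (B : Set E) (x : E) : 1 ≤ H606.dw a B x := by
  unfold H606.dw
  rw [← ENNReal.ofReal_one]
  apply ENNReal.ofReal_le_ofReal
  have : 0 ≤ a * Metric.infDist x B ^ 2 := by positivity
  exact Real.one_le_exp this

lemma As_ge {s : ℝ} (hs : 0 ≤ s) (p : List ℕ) (m : ℕ) (x : E) :
    ENNReal.ofReal ((S.A0 * S.kap ^ Module.finrank ℝ (S.W p m)) ^ s) ≤ S.As s p m x := by
  unfold As H962.capS
  calc _ = ENNReal.ofReal ((S.A0 * S.kap ^ Module.finrank ℝ (S.W p m)) ^ s) * 1 := by rw [mul_one]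
    _ ≤ _ := by gcongr; exact one_le_dw (by positivity) _ x

lemma A_ge (p : List ℕ) (m : ℕ) (x : E) :
    ENNReal.ofReal (S.A0 * S.kap ^ Module.finrank ℝ (S.W p m)) ≤ S.A p m x := by
  have := S.As_ge (s := 1) zero_le_one p m x
  rwa [Real.rpow_one] at this

lemma As_pos {s : ℝ} (hs : 0 ≤ s) (p : List ℕ) (m : ℕ) (x : E) : 0 < S.As s p m x := by
  have h1 := S.hA0
  have h2 := S.hkap
  exact lt_of_lt_of_le (ENNReal.ofReal_pos.2 (by positivity)) (S.As_ge hs p m x)

lemma A_pos (p : List ℕ) (m : ℕ) (x : E) : 0 < S.A p m x := S.As_pos zero_le_one p m x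

lemma As_ne_top (s : ℝ) (p : List ℕ) (m : ℕ) (x : E) : S.As s p m x ≠ ⊤ := by
  unfold As H962.capS H606.dw
  exact ENNReal.mul_ne_top ENNReal.ofReal_ne_top ENNReal.ofReal_ne_top

lemma A_ne_top (p : List ℕ) (m : ℕ) (x : E) : S.A p m x ≠ ⊤ := S.As_ne_top 1 p m x

lemma thr_cm_le (p : List ℕ) (m : ℕ) (x : E) : S.thr S.cm ≤ S.A p m x := by
  refine S.hcm.trans (le_trans ?_ (S.A_ge p m x))
  apply ENNReal.ofReal_le_ofReal
  have h1 := S.hA0
  have h2 := S.hkap
  have h3 : Module.finrank ℝ (S.W p m) ≤ Module.finrank ℝ E := Submodule.finrank_le _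
  have := pow_le_pow_of_le_one h2.le S.hkap1 h3
  gcongr

/-- the cap of the root -/
lemma A_nil (m : ℕ) (x : E) : S.A [] m x = ENNReal.ofReal S.A0 := by
  unfold A As H962.capS H606.dw
  have h1 : H962.PB (S.chn [] m) S.qq = univ := by
    ext y
    simp [H962.PB, chn]
  rw [h1, S.W_nil]
  have h2 : Metric.infDist x (univ : Set E) = 0 := Metric.infDist_zero_of_mem (mem_univ x)
  rw [h2]
  simp

/-! ### killed labels -/

lemma Z_nil (m : ℕ) : S.Z [] m = ∅ := rfl
lemma Z_cons (c : ℕ) (p : List ℕ) (m : ℕ) :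
    S.Z (c :: p) m = S.Z p m ∪ {x | ENNReal.ofReal S.b0 < S.A (c :: p) m x} := rfl

lemma Z_sub (c : ℕ) (p : List ℕ) (m : ℕ) : S.Z p m ⊆ S.Z (c :: p) m := subset_union_left

lemma Z_mono {p q : List ℕ} (h : p <:+ q) (m : ℕ) : S.Z p m ⊆ S.Z q m := by
  obtain ⟨r, rfl⟩ := h
  induction r with
  | nil => exact subset_rfl
  | cons c r ih => exact ih.trans (S.Z_sub c (r ++ p) m)

lemma A_le_of_not_Z {p : List ℕ} {m : ℕ} {x : E} (h : x ∉ S.Z p m) :
    S.A p m x ≤ ENNReal.ofReal S.b0 := by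
  cases p with
  | nil => rw [S.A_nil]; exact ENNReal.ofReal_le_ofReal S.hAb
  | cons c p =>
    rw [Z_cons, mem_union, not_or] at h
    exact not_lt.1 h.2

lemma Z_compl_cons (c : ℕ) (p : List ℕ) (m : ℕ) :
    (S.Z (c :: p) m)ᶜ = (S.Z p m)ᶜ ∩ {x | S.A (c :: p) m x ≤ ENNReal.ofReal S.b0} := by
  ext x
  rw [Z_cons, compl_union]
  simp only [mem_inter_iff, mem_compl_iff, mem_setOf_eq, not_lt]

lemma isClosed_Z_compl (p : List ℕ) (m : ℕ) : IsClosed (S.Z p m)ᶜ := by
  induction p with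
  | nil => rw [S.Z_nil, compl_empty]; exact isClosed_univ
  | cons c p ih => rw [S.Z_compl_cons]; exact ih.inter (H962.isClosed_capS_le _)

lemma convex_Z_compl (p : List ℕ) (m : ℕ) : Convex ℝ (S.Z p m)ᶜ := by
  induction p with
  | nil => rw [S.Z_nil, compl_empty]; exact convex_univ
  | cons c p ih =>
    rw [S.Z_compl_cons]
    exact ih.inter (H962.convex_capS_le S.hqq.le one_pos S.hA0 S.hkap _)

lemma measurableSet_Z (p : List ℕ) (m : ℕ) : MeasurableSet (S.Z p m) := by
  simpa using (S.isClosed_Z_compl p m).measurableSet.compl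

lemma Z_inv (p : List ℕ) (m : ℕ) : InvS (S.W p m) (S.Z p m) := by
  induction p with
  | nil => intro x w hw; simp [S.Z_nil]
  | cons c p ih =>
    intro x w hw
    rw [Z_cons, mem_union, mem_union, ih.mono (S.W_le c p m) x w hw]
    simp only [mem_setOf_eq]
    rw [S.A_inv (c :: p) m x w hw]

end Vale.Agent.P262.M2.Sys
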