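import Vale.Agent.P262.M2.FldA
import Vale.Agent.P262.M2.Nodes

/-!
# P262, milestone 2: walks on the tree with and without coordinate changes

The labels of the nodes below `p` are read on the tree in the coordinates of `p`
(`FT`: `Q (c :: p)` inverse at every step).  Over a label of `p` the mean of every affine recursion
is the same if all functions are read at the same vector (`292`: `nb p m x k`).
-/

set_option linter.all false

open MeasureTheory ProbabilityTheory Set
open scoped ENNReal RealInnerProductSpace
open Vale.Agent.P262.H395 (fib mix Inv Fixes measurable_fib fib_tower fib_mono fib_fixes fib_add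
  fib_mul inv_fib)
open Vale.Agent.P262.H713 (Pa FT)

namespace Vale.Agent.P262.M2.Sys

variable {E : Type*} [NormedAddCommGroup E] [InnerProductSpace ℝ E] [FiniteDimensional ℝ E]
  [MeasurableSpace E] [BorelSpace E]

/-- affine walk along the tree: `b` at the nodes, factors `a`, payoff `e` at the leaf; the
functions of a node are in its own coordinates -/
noncomputable def twk (S : Sys E) (m : ℕ) (a b e : List ℕ → E → ℝ≥0∞) : ℕ → List ℕ → E → ℝ≥0∞
  | 0, p, x => e p x
  | n + 1, p, x =>
      open Classical in
      if S.Leaf p m then e p x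
      else b (S.kl p m x :: p) ((S.mv.Q m (S.kl p m x :: p)).symm x)
        + a (S.kl p m x :: p) ((S.mv.Q m (S.kl p m x :: p)).symm x)
          * twk S m a b e n (S.kl p m x :: p) ((S.mv.Q m (S.kl p m x :: p)).symm x)

/-- the same walk with the same vector at all levels -/
noncomputable def swk (S : Sys E) (m : ℕ) (a b e : List ℕ → E → ℝ≥0∞) : ℕ → List ℕ → E → ℝ≥0∞
  | 0, p, x => e p x
  | n + 1, p, x =>
      open Classical in
      if S.Leaf p m then e p x
      else b (S.kl p m x :: p) x + a (S.kl p m x :: p) x * swk S m a b e n (S.kl p m x :: p) x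

variable {S : Sys E} {m : ℕ} {a b e : List ℕ → E → ℝ≥0∞}

lemma twk_zero (p : List ℕ) (x : E) : S.twk m a b e 0 p x = e p x := rfl
lemma swk_zero (p : List ℕ) (x : E) : S.swk m a b e 0 p x = e p x := rfl

lemma twk_leaf {p : List ℕ} (hl : S.Leaf p m) (n : ℕ) (x : E) : S.twk m a b e n p x = e p x := by
  cases n with
  | zero => rfl
  | succ n => rw [twk, if_pos hl]

lemma swk_leaf {p : List ℕ} (hl : S.Leaf p m) (n : ℕ) (x : E) : S.swk m a b e n p x = e p x := by
  cases n with
  | zero => rfl
  | succ n => rw [swk, if_pos hl]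

lemma twk_succ {p : List ℕ} (hl : ¬ S.Leaf p m) (n : ℕ) (x : E) :
    S.twk m a b e (n + 1) p x = b (S.kl p m x :: p) ((S.mv.Q m (S.kl p m x :: p)).symm x)
        + a (S.kl p m x :: p) ((S.mv.Q m (S.kl p m x :: p)).symm x)
          * S.twk m a b e n (S.kl p m x :: p) ((S.mv.Q m (S.kl p m x :: p)).symm x) := by
  rw [twk, if_neg hl]

lemma swk_succ {p : List ℕ} (hl : ¬ S.Leaf p m) (n : ℕ) (x : E) :
    S.swk m a b e (n + 1) p x = b (S.kl p m x :: p) x
        + a (S.kl p m x :: p) x * S.swk m a b e n (S.kl p m x :: p) x := by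
  rw [swk, if_neg hl]

/-- one step through the class `c` -/
noncomputable def tF (S : Sys E) (m : ℕ) (a b e : List ℕ → E → ℝ≥0∞) (n : ℕ) (p : List ℕ) (c : ℕ)
    (x : E) : ℝ≥0∞ :=
  b (c :: p) ((S.mv.Q m (c :: p)).symm x) + a (c :: p) ((S.mv.Q m (c :: p)).symm x)
    * S.twk m a b e n (c :: p) ((S.mv.Q m (c :: p)).symm x)

/-- one step through the class `c`, same vector -/
noncomputable def sF (S : Sys E) (m : ℕ) (a b e : List ℕ → E → ℝ≥0∞) (n : ℕ) (p : List ℕ) (c : ℕ)
    (x : E) : ℝ≥0∞ := b (c :: p) x + a (c :: p) x * S.swk m a b e n (c :: p) x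

section meas

variable (ha : ∀ q, Measurable (a q)) (hb : ∀ q, Measurable (b q)) (he : ∀ q, Measurable (e q))
include ha hb he

lemma measurable_twk (n : ℕ) : ∀ p, Measurable (S.twk m a b e n p) := by
  induction n with
  | zero => intro p; exact he p
  | succ n ih =>
    intro p
    by_cases hl : S.Leaf p m
    · have : S.twk m a b e (n + 1) p = e p := funext fun x => twk_leaf hl _ x
      rw [this]; exact he p
    · have : S.twk m a b e (n + 1) p = fun x => tF S m a b e n p (S.kl p m x) x :=
        funext fun x => twk_succ hl n x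
      rw [this]
      refine measurable_of_kl fun c => ?_
      have hq : Measurable fun x : E => (S.mv.Q m (c :: p)).symm x :=
        (S.mv.Q m (c :: p)).symm.continuous.measurable
      exact ((hb _).comp hq).add (((ha _).comp hq).mul ((ih _).comp hq))

lemma measurable_swk (n : ℕ) : ∀ p, Measurable (S.swk m a b e n p) := by
  induction n with
  | zero => intro p; exact he p
  | succ n ih =>
    intro p
    by_cases hl : S.Leaf p m
    · have : S.swk m a b e (n + 1) p = e p := funext fun x => swk_leaf hl _ x
      rw [this]; exact he p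
    · have : S.swk m a b e (n + 1) p = fun x => sF S m a b e n p (S.kl p m x) x :=
        funext fun x => swk_succ hl n x
      rw [this]
      exact measurable_of_kl fun c => (hb _).add ((ha _).mul (ih _))

/-- **the same vector at all levels** -/
theorem fib_twk (hm : S.mv.tm m < S.T) (hai : ∀ q, Inv (S.W q m) (a q)) (n : ℕ) :
    ∀ (p : List ℕ) (x : E),
      fib (S.W p m) (S.twk m a b e n p) x = fib (S.W p m) (S.swk m a b e n p) x := by
  induction n with
  | zero => intro p x; rfl
  | succ n ih =>
    intro p x
    by_cases hl : S.Leaf p m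
    · have h1 : S.twk m a b e (n + 1) p = e p := funext fun x => twk_leaf hl _ x
      have h2 : S.swk m a b e (n + 1) p = e p := funext fun x => swk_leaf hl _ x
      rw [h1, h2]
    · have h1 : S.twk m a b e (n + 1) p = fun x => tF S m a b e n p (S.kl p m x) x :=
        funext fun x => twk_succ hl n x
      have h2 : S.swk m a b e (n + 1) p = fun x => sF S m a b e n p (S.kl p m x) x :=
        funext fun x => swk_succ hl n x
      rw [h1, h2, H395.Tree.fib_sel (kl_inv p hm), H395.Tree.fib_sel (kl_inv p hm)]
      unfold tF sF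
      set q := S.kl p m x :: p with hq
      have hW : S.W p m ≤ S.W q m := S.W_le _ p m
      have e1 : fib (S.W p m) (fun x => b q ((S.mv.Q m q).symm x) + a q ((S.mv.Q m q).symm x)
          * S.twk m a b e n q ((S.mv.Q m q).symm x)) x
          = fib (S.W p m) (fun z => b q z + a q z * S.twk m a b e n q z) x :=
        fib_fixes (R := (S.mv.Q m q).symm) (S.Q_fix _ p m).symm
          (f := fun z => b q z + a q z * S.twk m a b e n q z)
          ((hb q).add ((ha q).mul (measurable_twk ha hb he n q))) x
      rw [e1, fib_add (hb q), fib_add (hb q)]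
      congr 1
      have e2 : ∀ f : E → ℝ≥0∞, Measurable f → fib (S.W p m) (fun z => a q z * f z) x
          = fib (S.W p m) (fun z => a q z * fib (S.W q m) f z) x := by
        intro f hf
        rw [← fib_tower hW (f := fun z => a q z * f z) ((ha q).mul hf)]
        congr 1
        funext z
        exact fib_mul (hai q) hf z
      rw [e2 _ (measurable_twk ha hb he n q), e2 _ (measurable_swk ha hb he n q)]
      congr 1
      funext z
      rw [ih q z]

end meas

/-! ### closed form -/

open Classical in
/-- product of the factors of the first `k` levels (zero below a leaf) -/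
noncomputable def prd (S : Sys E) (m : ℕ) (a : List ℕ → E → ℝ≥0∞) (p : List ℕ) (x : E) (k : ℕ) :
    ℝ≥0∞ :=
  ∏ i ∈ Finset.range k, if S.Leaf (S.nb p m x i) m then 0 else a (S.nb p m x (i + 1)) x

lemma prd_zero (p : List ℕ) (x : E) : S.prd m a p x 0 = 1 := by simp [prd]

open Classical in
lemma prd_succ' (p : List ℕ) (x : E) (k : ℕ) : S.prd m a p x (k + 1)
    = (if S.Leaf p m then 0 else a (S.kl p m x :: p) x) * S.prd m a (S.kl p m x :: p) x k := by
  unfold prd
  rw [Finset.prod_range_succ', mul_comm]
  congr 1
  refine Finset.prod_congr rfl fun i _ => ?_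
  rw [nb_succ' p, nb_succ' p]

lemma prd_succ (p : List ℕ) (x : E) (k : ℕ) : S.prd m a p x (k + 1) = S.prd m a p x k *
    (open Classical in if S.Leaf (S.nb p m x k) m then 0 else a (S.nb p m x (k + 1)) x) := by
  unfold prd
  rw [Finset.prod_range_succ]

lemma prd_pos_leaf {p : List ℕ} (hl : S.Leaf p m) (x : E) {k : ℕ} (hk : 0 < k) :
    S.prd m a p x k = 0 := by
  obtain ⟨k, rfl⟩ : ∃ k', k = k' + 1 := ⟨k - 1, by omega⟩
  rw [prd_succ', if_pos hl, zero_mul]

/-- **closed form of the walk** -/
theorem swk_eq (n : ℕ) : ∀ (p : List ℕ) (x : E), S.swk m a b e n p x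
    = (∑ k ∈ Finset.range n, S.prd m a p x k *
        (open Classical in if S.Leaf (S.nb p m x k) m then e (S.nb p m x k) x
          else b (S.nb p m x (k + 1)) x)) + S.prd m a p x n * e (S.nb p m x n) x := by
  induction n with
  | zero => intro p x; simp [prd_zero, swk_zero, nb_zero]
  | succ n ih =>
    intro p x
    rw [Finset.sum_range_succ']
    by_cases hl : S.Leaf p m
    · rw [swk_leaf hl, if_pos (show S.Leaf (S.nb p m x 0) m from hl)]
      have h1 : ∀ k, S.prd m a p x (k + 1) = 0 := fun k => prd_pos_leaf hl x (Nat.succ_pos k)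
      simp only [h1, zero_mul, Finset.sum_const_zero, prd_zero, one_mul, zero_add, add_zero]
      rfl
    · rw [swk_succ hl, ih, if_neg (show ¬ S.Leaf (S.nb p m x 0) m from hl), mul_add,
        Finset.mul_sum, add_comm (b _ x), add_right_comm, prd_zero, one_mul]
      have e1 : ∀ k, S.prd m a p x (k + 1)
          = a (S.kl p m x :: p) x * S.prd m a (S.kl p m x :: p) x k := fun k => by
        rw [prd_succ', if_neg hl]
      have e2 : S.prd m a p x (n + 1) * e (S.nb p m x (n + 1)) x
          = a (S.kl p m x :: p) x * (S.prd m a (S.kl p m x :: p) x n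
            * e (S.nb (S.kl p m x :: p) m x n) x) := by
        rw [e1, nb_succ' p, mul_assoc]
      rw [e2]
      congr 1
      congr 1
      refine Finset.sum_congr rfl fun k _ => ?_
      rw [e1, nb_succ' p, nb_succ' p, ← mul_assoc]

/-- the factors `a ≤ C` on a set, `0` outside: region form -/
lemma prd_le {C : ℝ≥0∞} {Y : List ℕ → Set E} (p : List ℕ) (x : E)
    (h : ∀ r, a r x ≤ C * (Y r).indicator 1 x) (k : ℕ) :
    S.prd m a p x k ≤ C ^ k *
      iw {y | (∀ i < k, ¬ S.Leaf (S.nb p m y i) m) ∧ ∀ i < k, y ∈ Y (S.nb p m y (i + 1))} x := by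
  by_cases hx : (∀ i < k, ¬ S.Leaf (S.nb p m x i) m) ∧ ∀ i < k, x ∈ Y (S.nb p m x (i + 1))
  · rw [iw, indicator_of_mem (show x ∈ {y | (∀ i < k, ¬ S.Leaf (S.nb p m y i) m) ∧
      ∀ i < k, y ∈ Y (S.nb p m y (i + 1))} from hx)]
    simp only [Pi.one_apply, mul_one]
    unfold prd
    refine le_trans (Finset.prod_le_pow_card _ _ C fun i hi => ?_) (by simp)
    rw [if_neg (hx.1 i (Finset.mem_range.1 hi))]
    refine (h _).trans ?_
    rw [indicator_of_mem (hx.2 i (Finset.mem_range.1 hi))]
    simp
  · have : S.prd m a p x k = 0 := by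
      rw [not_and_or] at hx
      unfold prd
      rw [Finset.prod_eq_zero_iff]
      rcases hx with hx | hx
      · push Not at hx
        obtain ⟨i, hi, h1⟩ := hx
        exact ⟨i, Finset.mem_range.2 hi, by rw [if_pos h1]⟩
      · push Not at hx
        obtain ⟨i, hi, h1⟩ := hx
        refine ⟨i, Finset.mem_range.2 hi, ?_⟩
        split_ifs
        · rfl
        · refine le_antisymm ((h _).trans ?_) zero_le
          rw [indicator_of_notMem h1, mul_zero]
    rw [this]; exact zero_le

end Vale.Agent.P262.M2.Sys
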