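import Vale.Agent.P262.H924.Num
import Vale.Agent.P262.H44.L2Cst

/-!
# P262, milestone 2: the numerical hypotheses of the blocks follow from `Sys.Sm`
-/

set_option linter.all false

open MeasureTheory ProbabilityTheory Set
open scoped ENNReal RealInnerProductSpace
open Module (finrank)

namespace Vale.Agent.P262.M2

open Real

/-! ### real numbers -/

lemma num_exp50 : 2 * (sqrt 2 * exp (-(200 / 4))) ≤ 1 / 41 := by
  have h1 : sqrt 2 ≤ 2 := by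
    rw [sqrt_le_left (by norm_num)]; norm_num
  have h2 : (1000 : ℝ) ≤ exp 50 := by
    have e1 : exp (50 : ℝ) = exp 25 * exp 25 := by rw [← exp_add]; norm_num
    have e2 : (26 : ℝ) ≤ exp 25 := by
      have := add_one_le_exp (25 : ℝ)
      linarith
    have e3 : (2 : ℝ) ≤ exp 1 := by
      have := add_one_le_exp (1 : ℝ)
      linarith
    have e4 : exp (25 : ℝ) = exp 1 ^ 25 := by
      rw [← exp_nat_mul]; norm_num
    have e5 : (2 : ℝ) ^ 25 ≤ exp 25 := by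
      rw [e4]; exact pow_le_pow_left₀ (by norm_num) e3 25
    have e6 : (1000 : ℝ) ≤ 2 ^ 25 := by norm_num
    have e7 : 0 < exp (25 : ℝ) := exp_pos _
    rw [e1]
    nlinarith
  have h3 : exp (-(200 / 4) : ℝ) ≤ 1 / 1000 := by
    rw [show (-(200 / 4) : ℝ) = -50 by norm_num, exp_neg, ← one_div]
    exact one_div_le_one_div_of_le (by norm_num) h2
  have h4 : 0 ≤ exp (-(200 / 4) : ℝ) := (exp_pos _).le
  nlinarith [sqrt_nonneg (2 : ℝ)]

lemma num_q0 : 2 * ENNReal.ofReal (exp (-1420)) ≤ ENNReal.ofReal (exp (-1418)) := by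
  have h : (2 : ℝ≥0∞) = ENNReal.ofReal 2 := by norm_num
  rw [h, ← ENNReal.ofReal_mul (by norm_num)]
  apply ENNReal.ofReal_le_ofReal
  have h1 : exp (-1418 : ℝ) = exp 1 * exp 1 * exp (-1420) := by
    rw [← exp_add, ← exp_add]; norm_num
  have h2 : (2 : ℝ) ≤ exp 1 := by
    have := add_one_le_exp (1 : ℝ)
    linarith
  have h3 := exp_pos (-1420 : ℝ)
  have h4 : (2 : ℝ) ≤ exp 1 * exp 1 := by nlinarith
  rw [h1]
  exact mul_le_mul_of_nonneg_right h4 h3.le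

lemma num_q1 : exp (-1420 : ℝ) ≤ 1 / 40 := by
  have h2 : (40 : ℝ) ≤ exp 1420 := by
    have := add_one_le_exp (1420 : ℝ)
    linarith
  rw [exp_neg, ← one_div]
  exact one_div_le_one_div_of_le (by norm_num) h2

lemma num_et {M : ℝ} (hM : 4 * 11522 ^ 2 ≤ M) :
    ∃ et : ℝ, 0 ≤ et ∧ et ≤ 1 ∧ 1 ≤ et * ((M / 4) ^ (1 - (1 / 2) : ℝ) - 2) ∧
      640 * 18 * et ≤ 1 := by
  refine ⟨1 / 11520, by norm_num, by norm_num, ?_, by norm_num⟩
  have h1 : (11522 : ℝ) ≤ (M / 4) ^ (1 - (1 / 2) : ℝ) := by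
    rw [show (1 - (1 / 2) : ℝ) = 1 / 2 by norm_num, ← sqrt_eq_rpow]
    apply le_sqrt_of_sq_le
    linarith
  linarith

namespace Sys.Sm

variable {E : Type*} [NormedAddCommGroup E] [InnerProductSpace ℝ E] [FiniteDimensional ℝ E]
  [MeasurableSpace E] [BorelSpace E] {S : Sys E} {K : ℝ} {n : ℕ} {Lam : ℝ}

lemma qq41 (h : S.Sm K n Lam) : 2 * (sqrt 2 * exp (-(S.qq / 4))) ≤ 1 / 41 := by
  rw [h.qq]; exact num_exp50

/-- `K kap ≤ b0` -/
lemma K_kap_b0 (h : S.Sm K n Lam) (hK : 0 ≤ K) (hL : 1 ≤ Lam) (hn : 1 ≤ n) :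
    K * S.kap ≤ S.b0 := by
  have hb := h.b0_pos
  have h1 := h.master hK hL (X := K * (1 / S.b0)) (s := 1) (a := 0) (b := 0) (c := 0) (d := 1)
    (e := 0) (Nat.zero_le _) (Nat.zero_le _) (Nat.zero_le _) hn (Nat.zero_le _)
    (h.one_div_le_half.trans (by norm_num)) (by simp)
  rw [rpow_one] at h1
  have h2 := mul_le_mul_of_nonneg_right h1 hb.le
  have h3 : K * (1 / S.b0) * S.kap * S.b0 = K * S.kap := by field_simp
  rw [h3, one_mul] at h2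
  exact h2

lemma consC (h : S.Sm K n Lam) (hK : 100 ≤ K) (hL : 1 ≤ Lam) : S.ConsC := by
  refine ⟨h.qq41, ?_, ?_⟩
  · have h1 := h.K_kap (by linarith) hL
    have := S.hkap
    rw [le_div_iff₀ (by norm_num)]
    nlinarith
  · rw [h.q0]; exact num_q0

lemma thrC (h : S.Sm K n Lam) (hK : 100 ≤ K) (hL : 1 ≤ Lam) : H431.ThrC S := by
  refine ⟨?_, ?_, ?_, ?_⟩
  · rw [h.qq]; norm_num
  · rw [h.th]
  · exact (h.consC hK hL).kap
  · exact (h.consC hK hL).q0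

lemma kap_th_le (h : S.Sm K n Lam) (hK : 1000 ≤ K) (hL : 1 ≤ Lam) : S.kap ^ S.th ≤ S.ρ := by
  have h1 := h.K_kap_th (by linarith) hL
  have h2 := rpow_nonneg S.hkap.le S.th
  rw [h.ρ, le_div_iff₀ (by norm_num)]
  nlinarith

lemma kp_eq (_h : S.Sm K n Lam) : (S.M + 1) * S.kp 1 = 2 * S.kap / S.b0 := by
  have hb0 := S.b0_pos_f
  have hM : 0 < S.M + 1 := by linarith [S.hM]
  unfold Sys.kp Sys.cc
  field_simp

lemma kpA (h : S.Sm K n Lam) (hK : 32 ≤ K) (hL : 1 ≤ Lam) (hn : 1 ≤ n) :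
    16 * (S.M + 1) * S.kp 1 ≤ 1 := by
  have hb0 := S.b0_pos_f
  have hk := S.hkap
  have h1 := h.K_kap_b0 (by linarith) hL hn
  have h2 : 16 * (S.M + 1) * S.kp 1 = 32 * S.kap / S.b0 := by
    rw [mul_assoc, h.kp_eq]; ring
  rw [h2, div_le_one hb0]
  nlinarith

lemma kp8 (h : S.Sm K n Lam) (hK : 32 ≤ K) (hL : 1 ≤ Lam) (hn : 1 ≤ n) : S.kp 1 ≤ 1 / 8 := by
  have h1 := h.kpA hK hL hn
  have h2 : 0 ≤ S.kp 1 := kp_nonneg 1
  have h3 := S.hM
  nlinarith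

/-- **RIM** -/
lemma rimC (h : S.Sm K n Lam) {L : ℝ} (hL : L ≤ K) : S.RimC L := by
  have hd := S.hd2
  have h1 := h.rad (finrank ℝ E - 1) (by omega)
  unfold Sys.RimC
  rw [Nat.cast_sub (by omega), Nat.cast_one] at h1
  linarith

lemma δ_le (h : S.Sm K n Lam) : S.δ ≤ 1 / 160000 := by rw [h.δ]; norm_num

lemma et (h : S.Sm K n Lam) (hK : 4 * 11522 ^ 2 ≤ K) :
    ∃ et : ℝ, 0 ≤ et ∧ et ≤ 1 ∧ 1 ≤ et * ((S.M / 4) ^ (1 - S.th) - 2) ∧ 640 * 18 * et ≤ 1 := by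
  rw [h.th]
  exact num_et (hK.trans h.M0)


/-- the small quantity of the linear system -/
noncomputable def X0 (S : Sys E) (Lam : ℝ) : ℝ :=
  Lam * S.M * (1 / S.c0) * (1 / S.b0) ^ 2 * S.kap ^ (1 / 8 : ℝ)

lemma K_X0 (h : S.Sm K n Lam) (hK : 0 ≤ K) (hL : 1 ≤ Lam) (hn : 6 ≤ n) : K * X0 S Lam ≤ 1 := by
  have hs : 1 / ((n : ℝ) + 2) ≤ 1 / 8 := by
    have : (6 : ℝ) ≤ n := by exact_mod_cast hn
    apply one_div_le_one_div_of_le <;> linarith only [this]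
  have h1 := h.master hK hL (X := K * (Lam ^ 1 * S.M ^ 1 * (1 / S.c0) ^ 1 * (1 / S.b0) ^ 2 *
    (1 / S.A0) ^ 0)) (s := 1 / 8) (a := 1) (b := 1) (c := 1) (d := 2) (e := 0) (by omega)
    (by omega) (by omega) (by omega) (by omega) hs le_rfl
  have e : K * X0 S Lam = K * (Lam ^ 1 * S.M ^ 1 * (1 / S.c0) ^ 1 * (1 / S.b0) ^ 2 *
    (1 / S.A0) ^ 0) * S.kap ^ (1 / 8 : ℝ) := by
    unfold X0; ring
  rw [e]
  exact h1

lemma X0_nonneg (h : S.Sm K n Lam) (hL : 1 ≤ Lam) : 0 ≤ X0 S Lam := by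
  have h1 := h.one_le_M
  have h2 := h.one_le_inv_c0
  have h3 := rpow_nonneg S.hkap.le (1 / 8)
  have h4 : 0 ≤ (1 / S.b0) ^ 2 := sq_nonneg _
  unfold X0
  have h5 : 0 ≤ Lam * S.M * (1 / S.c0) := by
    have : 0 ≤ S.M := by linarith only [h1]
    have h6 : 0 ≤ 1 / S.c0 := by linarith only [h2]
    have h7 : 0 ≤ Lam := by linarith only [hL]
    positivity
  positivity

/-- products bounded by `X0` -/
lemma le_X0 (h : S.Sm K n Lam) (hL : 1 ≤ Lam) {l m c b x : ℝ} (hl0 : 0 ≤ l) (hm0 : 0 ≤ m)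
    (hc0 : 0 ≤ c) (hb0 : 0 ≤ b) (hx0 : 0 ≤ x) (hl : l ≤ Lam) (hm : m ≤ S.M)
    (hc : c ≤ 1 / S.c0) (hb : b ≤ (1 / S.b0) ^ 2) (hx : x ≤ S.kap ^ (1 / 8 : ℝ)) :
    l * m * c * b * x ≤ X0 S Lam := by
  have h1 : 0 ≤ Lam := by linarith only [hL]
  have h2 : 0 ≤ S.M := hm0.trans hm
  have h3 : 0 ≤ 1 / S.c0 := hc0.trans hc
  have h4 : 0 ≤ (1 / S.b0) ^ 2 := sq_nonneg _
  unfold X0
  exact mul_le_mul (mul_le_mul (mul_le_mul (mul_le_mul hl hm hm0 h1) hc hc0 (mul_nonneg h1 h2))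
    hb hb0 (mul_nonneg (mul_nonneg h1 h2) h3)) hx hx0
    (mul_nonneg (mul_nonneg (mul_nonneg h1 h2) h3) h4)

lemma kap_half_le (_h : S.Sm K n Lam) : S.kap ^ (1 / 2 : ℝ) ≤ S.kap ^ (1 / 8 : ℝ) :=
  rpow_le_rpow_of_exponent_ge S.hkap S.hkap1 (by norm_num)

/-- the parameter of the rotations -/
lemma w_le (h : S.Sm K n Lam) (hL : 1 ≤ Lam) {C2 : ℝ} (hC2 : 1 ≤ C2) :
    (C2 * Lam * S.kap ^ S.th) ^ (1 / 4 : ℝ) ≤ C2 * (Lam * S.kap ^ (1 / 8 : ℝ)) := by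
  have hk := S.hkap
  have h1 : 1 ≤ C2 * Lam := by nlinarith only [hL, hC2]
  rw [h.th, mul_rpow (by linarith only [h1]) (rpow_nonneg hk.le _), ← rpow_mul hk.le,
    show (1 / 2 * (1 / 4) : ℝ) = 1 / 8 by norm_num]
  have h2 : (C2 * Lam) ^ (1 / 4 : ℝ) ≤ (C2 * Lam) ^ (1 : ℝ) :=
    rpow_le_rpow_of_exponent_le h1 (by norm_num)
  rw [rpow_one] at h2
  calc (C2 * Lam) ^ (1 / 4 : ℝ) * S.kap ^ (1 / 8 : ℝ) ≤ C2 * Lam * S.kap ^ (1 / 8 : ℝ) :=
        mul_le_mul_of_nonneg_right h2 (rpow_nonneg hk.le _)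
    _ = _ := by ring

lemma lam_kap_le (h : S.Sm K n Lam) (hL : 1 ≤ Lam) : Lam * S.kap ^ (1 / 8 : ℝ) ≤ X0 S Lam := by
  have h1 := h.one_le_M
  have h2 := h.one_le_inv_c0
  have h3 : 1 ≤ (1 / S.b0) ^ 2 := one_le_pow₀ h.one_le_inv_b0
  have := h.le_X0 hL (l := Lam) (m := 1) (c := 1) (b := 1) (x := S.kap ^ (1 / 8 : ℝ))
    (by linarith only [hL]) (by norm_num) (by norm_num) (by norm_num) (rpow_nonneg S.hkap.le _)
    le_rfl h1 h2 h3 le_rfl
  simpa using this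

lemma w_pow (h : S.Sm K n Lam) (hL : 1 ≤ Lam) {C2 : ℝ} (hC2 : 1 ≤ C2) :
    ((C2 * Lam * S.kap ^ S.th) ^ (1 / 4 : ℝ)) ^ 4 = C2 * Lam * S.kap ^ S.th := by
  have hk := rpow_nonneg S.hkap.le S.th
  have h1 : 0 ≤ C2 * Lam * S.kap ^ S.th := by
    have : 0 ≤ C2 * Lam := by nlinarith only [hL, hC2]
    positivity
  rw [← rpow_natCast, ← rpow_mul h1]
  norm_num

lemma kV_le (h : S.Sm K n Lam) (hL : 1 ≤ Lam) :
    S.kV ≤ 1000 * (14 * Cons493.cCons + 8) * (S.M * (1 / S.b0) * S.kap ^ (1 / 2 : ℝ)) := by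
  have hb := h.b0_pos
  have hb1 := h.b0_le_one
  have hM := S.hM
  have hib := h.one_le_inv_b0
  have hcC := Cons493.cCons_pos
  have hk := rpow_nonneg S.hkap.le (1 / 2)
  have e1 : (1 / S.b0) ^ (1 / 2 : ℝ) ≤ 1 / S.b0 := by
    have := rpow_le_rpow_of_exponent_le hib (show (1 / 2 : ℝ) ≤ 1 by norm_num)
    rwa [rpow_one] at this
  have e2 : S.b0 ^ (1 - 1 / 2 : ℝ) ≤ 1 := rpow_le_one hb.le hb1 (by norm_num)
  have e3 : Cons493.kR S.th (S.M + 1) S.b0 ≤ 7 * (S.M * (1 / S.b0)) := by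
    unfold Cons493.kR
    rw [h.th]
    have e4 : 3 * (S.M + 1) * S.b0 ^ (1 - 1 / 2 : ℝ) ≤ 3 * (S.M + 1) * 1 :=
      mul_le_mul_of_nonneg_left e2 (by linarith only [hM])
    have e5 : S.M ≤ S.M * (1 / S.b0) := by nlinarith only [hM, hib]
    have e6 : 1 / S.b0 ≤ S.M * (1 / S.b0) := by nlinarith only [hM, hib]
    nlinarith only [e1, e4, e5, e6, hM]
  have e7 : S.CVc ≤ (14 * Cons493.cCons + 8) * (S.M * (1 / S.b0)) := by
    unfold Sys.CVc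
    have e6 : 1 / S.b0 ≤ S.M * (1 / S.b0) := by nlinarith only [hM, hib]
    have e8 := mul_le_mul_of_nonneg_right e3 hcC.le
    have e9 : 8 / S.b0 = 8 * (1 / S.b0) := by ring
    rw [e9]
    nlinarith only [e6, e8]
  unfold Sys.kV
  rw [h.th, h.ρ]
  have e10 := mul_le_mul_of_nonneg_right e7 (show 0 ≤ 1000 * S.kap ^ (1 / 2 : ℝ) by positivity)
  calc S.CVc * (S.kap ^ (1 / 2 : ℝ) / (1 / 1000)) = S.CVc * (1000 * S.kap ^ (1 / 2 : ℝ)) := by
        ring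
    _ ≤ _ := e10
    _ = _ := by ring

end Sys.Sm

/-! ### all numerical hypotheses -/

/-- **all numerical hypotheses of the blocks**, for absolute `Ca, a, CT1, C2`: there is an absolute
`K0` such that `Sm K n Lam` with `K ≥ K0`, `n ≥ 6` implies them. -/
theorem exists_num {Ca a CT1 C2 : ℝ} (hCa : 0 ≤ Ca) (ha : 1 ≤ a) (hCT : 0 ≤ CT1) (hC2 : 1 ≤ C2) :
    ∃ K0 K1 : ℝ, 1 ≤ K0 ∧ 0 ≤ K1 ∧ ∀ K : ℝ, K0 ≤ K → ∀ n : ℕ, 6 ≤ n →
      ∀ (E : Type) [NormedAddCommGroup E] [InnerProductSpace ℝ E] [FiniteDimensional ℝ E]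
      [MeasurableSpace E] [BorelSpace E] (S : Sys E) (Lam : ℝ), 1 ≤ Lam → S.Sm K n Lam →
      S.Num (K1 / S.c0) (Ca * (S.M + 1) / S.b0) a (CT1 / S.b0)
        ((C2 * Lam * S.kap ^ S.th) ^ (1 / 4 : ℝ)) := by
  obtain ⟨c, J, c1, HL⟩ := Sys.exists_lblCst (q₀ := exp (-1420)) (exp_pos _) num_q1
  have hq0 := HL.q0
  have hcp := HL.cp
  have hc1 := HL.c1p
  have hcC := Cons493.cCons_pos
  obtain ⟨K1, hK1⟩ : ∃ K1 : ℝ, K1 = 64 * 10 ^ 15 + 320 * 2 ^ J / c + 4 / exp (-1420) := ⟨_, rfl⟩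
  have hK10 : 0 ≤ K1 := by rw [hK1]; positivity
  obtain ⟨K3, hK3⟩ : ∃ K3 : ℝ, K3 = 4326 * K1 + 721 := ⟨_, rfl⟩
  have hK30 : 0 ≤ K3 := by rw [hK3]; positivity
  obtain ⟨K4, hK4⟩ : ∃ K4 : ℝ, K4 = 42 * Ca * CT1 * a * C2 + 4000 * (14 * Cons493.cCons + 8) :=
    ⟨_, rfl⟩
  have ha0 : 0 ≤ a := by linarith only [ha]
  have hC20 : 0 ≤ C2 := by linarith only [hC2]
  have hK40 : 0 ≤ K4 := by rw [hK4]; positivity
  obtain ⟨K0, hK0⟩ : ∃ K0 : ℝ, K0 = 4 * 11522 ^ 2 + 64 * 10 ^ 10 + 1 / c1 +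
      8 / ((exp (-1420) / 2000) ^ 2 * (1 / 40)) + 3000 * C2 + 4 * a * C2 +
      2 * (K3 * (2000 * a * Cons493.cCons + 3 * K4)) + 256 * (K3 * K4) := ⟨_, rfl⟩
  have p1 : 0 ≤ 1 / c1 := by positivity
  have p2 : 0 ≤ 8 / ((exp (-1420 : ℝ) / 2000) ^ 2 * (1 / 40)) := by positivity
  have p3 : 0 ≤ 4 * a * C2 := by positivity
  have p4 : 0 ≤ 2 * (K3 * (2000 * a * Cons493.cCons + 3 * K4)) := by positivity
  have p5 : 0 ≤ 256 * (K3 * K4) := by positivity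
  refine ⟨K0, K1, ?_, hK10, ?_⟩
  · rw [hK0]; linarith only [p1, p2, p3, p4, p5, hC2]
  intro K hK n hn E _ _ _ _ _ S Lam hL h
  rw [hK0] at hK
  have hKp : 0 ≤ K := by linarith only [hK, p1, p2, p3, p4, p5, hC2]
  have hK5 : 4 * 11522 ^ 2 ≤ K := by linarith only [hK, p1, p2, p3, p4, p5, hC2]
  have hn1 : 1 ≤ n := by omega
  have hb := h.b0_pos
  have hM := h.one_le_M
  have hib := h.one_le_inv_b0
  have hic := h.one_le_inv_c0
  have hk := S.hkap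
  have hc0 := S.hc0
  have hX := h.K_X0 hKp hL hn
  have hX0 := h.X0_nonneg hL
  obtain ⟨X, hXe⟩ : ∃ X : ℝ, X = Sys.Sm.X0 S Lam := ⟨_, rfl⟩
  obtain ⟨w, hw⟩ : ∃ w : ℝ, w = (C2 * Lam * S.kap ^ S.th) ^ (1 / 4 : ℝ) := ⟨_, rfl⟩
  have hwX : w ≤ C2 * X := by
    rw [hw, hXe]
    exact (h.w_le hL hC2).trans (mul_le_mul_of_nonneg_left (h.lam_kap_le hL) hC20)
  have hw0 : 0 ≤ w := by
    rw [hw]
    refine rpow_nonneg ?_ _
    have := rpow_nonneg hk.le S.th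
    have h1 : 0 ≤ C2 * Lam := by nlinarith only [hL, hC2]
    positivity
  have hwl := h.w_le hL hC2
  rw [← hw] at hwl ⊢
  rw [← hXe] at hX hX0
  have hX1 : X ≤ 1 := by nlinarith only [hX, hX0, hK5]
  have hKX : ∀ {y : ℝ}, y ≤ K → y * X ≤ 1 := fun hy =>
    (mul_le_mul_of_nonneg_right hy hX0).trans hX
  -- the constant of the blocks
  have hKU : Sys.kL S.c0 (exp (-1420)) c J ≤ K1 / S.c0 := by
    unfold Sys.kL
    rw [hK1]
    have e1 : 320 * 2 ^ J / (c * S.c0) = 320 * 2 ^ J / c * (1 / S.c0) := by field_simp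
    have e2 : 4 / exp (-1420) ≤ 4 / exp (-1420) * (1 / S.c0) := by
      have : 0 ≤ 4 / exp (-1420 : ℝ) := by positivity
      nlinarith only [this, hic]
    rw [e1, div_eq_mul_one_div (64 * 10 ^ 15) S.c0, div_eq_mul_one_div (_ + _ + _) S.c0]
    linarith only [e2, show (64 * 10 ^ 15 + 320 * 2 ^ J / c + 4 / exp (-1420)) * (1 / S.c0)
      = 64 * 10 ^ 15 * (1 / S.c0) + 320 * 2 ^ J / c * (1 / S.c0) + 4 / exp (-1420) * (1 / S.c0)
      by ring]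
  have hKK : Sys.KKn (K1 / S.c0) + 1 ≤ K3 * (1 / S.c0) := by
    unfold Sys.KKn
    rw [hK3, div_eq_mul_one_div K1 S.c0]
    nlinarith only [hic]
  have hKK0 : 0 ≤ Sys.KKn (K1 / S.c0) + 1 := by
    unfold Sys.KKn
    positivity
  -- prices
  have hkh0 := rpow_nonneg hk.le (1 / 2)
  have hk80 := rpow_nonneg hk.le (1 / 8)
  have hkC : S.kC ≤ 1000 * Cons493.cCons * S.kap ^ (1 / 8 : ℝ) := by
    unfold Sys.kC
    rw [h.th, h.ρ]
    have := mul_le_mul_of_nonneg_left h.kap_half_le (show 0 ≤ 1000 * Cons493.cCons by positivity)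
    calc Cons493.cCons * (S.kap ^ (1 / 2 : ℝ) / (1 / 1000))
        = 1000 * Cons493.cCons * S.kap ^ (1 / 2 : ℝ) := by ring
      _ ≤ _ := this
  have hkC0 : 0 ≤ S.kC := by
    unfold Sys.kC
    have := S.hρ
    have := rpow_nonneg hk.le S.th
    positivity
  have hkV0 : 0 ≤ S.kV := by
    unfold Sys.kV
    have h1 := Sys.CVc_nonneg (S := S)
    have h3 := S.hρ
    positivity
  have hMb0 : 0 ≤ S.M * (1 / S.b0) := by
    have : 0 ≤ S.M := by linarith only [hM]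
    have : 0 ≤ 1 / S.b0 := by linarith only [hib]
    positivity
  have hkV : S.kV ≤ 1000 * (14 * Cons493.cCons + 8) *
      (S.M * (1 / S.b0) ^ 2 * (Lam * S.kap ^ (1 / 8 : ℝ))) := by
    refine (h.kV_le hL).trans (mul_le_mul_of_nonneg_left ?_ (by positivity))
    have e1 : S.M * (1 / S.b0) ≤ S.M * (1 / S.b0) ^ 2 := by
      have : S.M * (1 / S.b0) ^ 2 = S.M * (1 / S.b0) * (1 / S.b0) := by ring
      rw [this]
      nlinarith only [hMb0, hib]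
    have e2 : S.kap ^ (1 / 2 : ℝ) ≤ Lam * S.kap ^ (1 / 8 : ℝ) := by
      have := h.kap_half_le
      nlinarith only [this, hk80, hL]
    exact mul_le_mul e1 e2 hkh0 (hMb0.trans e1)
  have hpi : 2 * Real.pi * S.c0 / S.δ ≤ 7 := by
    have hδ := S.hδ
    rw [div_le_iff₀ hδ]
    have h1 := Real.pi_lt_d2
    have h2 := S.hc0δ
    have h3 := Real.pi_pos
    nlinarith only [h1, h2, h3, hc0]
  have hpi0 : 0 ≤ 2 * Real.pi * S.c0 / S.δ := by
    have hδ := S.hδ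
    have h3 := Real.pi_pos
    positivity
  have hZ0 : 0 ≤ S.M * (1 / S.b0) ^ 2 * (Lam * S.kap ^ (1 / 8 : ℝ)) := by
    have : 0 ≤ S.M := by linarith only [hM]
    have : 0 ≤ Lam := by linarith only [hL]
    positivity
  have hep : S.epn (Ca * (S.M + 1) / S.b0) a (CT1 / S.b0) w ≤
      K4 * (S.M * (1 / S.b0) ^ 2 * (Lam * S.kap ^ (1 / 8 : ℝ))) := by
    unfold Sys.epn
    have e1 : 3 * (Ca * (S.M + 1) / S.b0) * (CT1 / S.b0) * a * w * (2 * Real.pi * S.c0 / S.δ) ≤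
        42 * Ca * CT1 * a * C2 * (S.M * (1 / S.b0) ^ 2 * (Lam * S.kap ^ (1 / 8 : ℝ))) := by
      have f1 : 3 * (Ca * (S.M + 1) / S.b0) * (CT1 / S.b0) * a * w * (2 * Real.pi * S.c0 / S.δ) =
          3 * Ca * CT1 * a * (1 / S.b0) ^ 2 * ((S.M + 1) * (w * (2 * Real.pi * S.c0 / S.δ))) := by
        ring
      have f2 : w * (2 * Real.pi * S.c0 / S.δ) ≤ C2 * (Lam * S.kap ^ (1 / 8 : ℝ)) * 7 :=
        mul_le_mul hwl hpi hpi0 (hw0.trans hwl)
      have f3 : (S.M + 1) * (w * (2 * Real.pi * S.c0 / S.δ)) ≤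
          (2 * S.M) * (C2 * (Lam * S.kap ^ (1 / 8 : ℝ)) * 7) :=
        mul_le_mul (by linarith only [hM]) f2 (mul_nonneg hw0 hpi0) (by linarith only [hM])
      have f4 : 0 ≤ 3 * Ca * CT1 * a * (1 / S.b0) ^ 2 := by positivity
      rw [f1]
      refine (mul_le_mul_of_nonneg_left f3 f4).trans (le_of_eq ?_)
      ring
    rw [hK4]
    linarith only [e1, hkV]
  have hep0 : 0 ≤ S.epn (Ca * (S.M + 1) / S.b0) a (CT1 / S.b0) w := by
    unfold Sys.epn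
    have : 0 ≤ S.M := by linarith only [hM]
    positivity
  -- all bounded by `X`
  have hZX : 1 / S.c0 * (S.M * (1 / S.b0) ^ 2 * (Lam * S.kap ^ (1 / 8 : ℝ))) = X := by
    rw [hXe]; unfold Sys.Sm.X0; ring
  have hk8X : 1 / S.c0 * S.kap ^ (1 / 8 : ℝ) ≤ X := by
    have := h.le_X0 hL (l := 1) (m := 1) (c := 1 / S.c0) (b := 1) (x := S.kap ^ (1 / 8 : ℝ))
      (by norm_num) (by norm_num) (by linarith only [hic]) (by norm_num) hk80 hL hM le_rfl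
      (one_le_pow₀ hib) le_rfl
    rw [hXe]
    calc _ = 1 * 1 * (1 / S.c0) * 1 * S.kap ^ (1 / 8 : ℝ) := by ring
      _ ≤ _ := this
  refine
    { th := h.th
      consC := h.consC (by linarith only [hK5]) hL
      thrC := h.thrC (by linarith only [hK5]) hL
      kr := h.kap_th_le (by linarith only [hK5]) hL
      qq41 := h.qq41
      kp8 := h.kp8 (by linarith only [hK5]) hL hn1
      kpA := h.kpA (by linarith only [hK5]) hL hn1
      rim := h.rimC (by linarith only [hK5])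
      δ := h.δ_le
      lbl := ⟨exp (-1420), c, J, ?_, hKU⟩
      KU0 := by positivity
      Cr0 := by
        have : 0 ≤ S.M := by linarith only [hM]
        positivity
      a1 := ha
      CT0 := by positivity
      w0 := hw0
      w1 := ?_
      aw := ?_
      wρ := ?_
      et := h.et hK5
      big := ?_
      big2 := ?_ }
  · rw [Sys.kp_eta]
    refine HL.num ?_ ?_ h.q0 ?_ ?_
    · rw [h.ρ]; norm_num
    · have h1 := h.c0
      have h2 : 1 / c1 * S.c0 ≤ K * S.c0 :=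
        mul_le_mul_of_nonneg_right (by linarith only [hK, p2, p3, p4, p5, hC2]) hc0.le
      have h3 : 1 / c1 * S.c0 ≤ 1 := h2.trans h1
      rw [one_div, inv_mul_le_iff₀ hc1, mul_one] at h3
      exact h3
    · refine le_trans (mul_le_mul_of_nonneg_right ?_ hk.le) (h.K_kap_b0 hKp hL hn1)
      linarith only [hK, p1, p2, p3, p4, p5, hC2]
    · have h1 := h.K_kap hKp hL
      have h2 : 8 / ((exp (-1420 : ℝ) / 2000) ^ 2 * (1 / 40)) * S.kap ≤ 1 :=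
        (mul_le_mul_of_nonneg_right (by linarith only [hK, p1, p3, p4, p5, hC2]) hk.le).trans h1
      rw [div_mul_eq_mul_div, div_le_one (by positivity)] at h2
      exact h2
  · refine hwX.trans (hKX ?_)
    linarith only [hK, p1, p2, p3, p4, p5, hC2]
  · have h1 : 2 * a * w ≤ 2 * a * (C2 * X) := mul_le_mul_of_nonneg_left hwX (by linarith only [ha])
    have h2 : (4 * a * C2) * X ≤ 1 := hKX (by linarith only [hK, p1, p2, p3, p4, p5, hC2])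
    linarith only [h1, h2, show 2 * a * (C2 * X) = (4 * a * C2) * X / 2 by ring]
  · rw [h.ρ]
    have h2 : (3000 * C2) * X ≤ 1 := hKX (by linarith only [hK, p1, p2, p3, p4, p5, hC2])
    linarith only [hwX, h2]
  · have h1 : 2 * a * S.kC ≤ 2000 * a * Cons493.cCons * S.kap ^ (1 / 8 : ℝ) := by
      have := mul_le_mul_of_nonneg_left hkC (show 0 ≤ 2 * a by linarith only [ha])
      linarith only [this]
    have h2 : 0 ≤ 2 * a * S.kC := by positivity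
    have h3 : (Sys.KKn (K1 / S.c0) + 1) *
        (2 * a * S.kC + 3 * S.epn (Ca * (S.M + 1) / S.b0) a (CT1 / S.b0) w) ≤
        K3 * (1 / S.c0) * (2000 * a * Cons493.cCons * S.kap ^ (1 / 8 : ℝ) +
          3 * (K4 * (S.M * (1 / S.b0) ^ 2 * (Lam * S.kap ^ (1 / 8 : ℝ))))) := by
      refine mul_le_mul hKK ?_ ?_ (hKK0.trans hKK)
      · linarith only [h1, hep]
      · linarith only [h2, hep0]
    have h4 : K3 * (1 / S.c0) * (2000 * a * Cons493.cCons * S.kap ^ (1 / 8 : ℝ) +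
          3 * (K4 * (S.M * (1 / S.b0) ^ 2 * (Lam * S.kap ^ (1 / 8 : ℝ))))) =
        K3 * (2000 * a * Cons493.cCons * (1 / S.c0 * S.kap ^ (1 / 8 : ℝ)) +
          3 * K4 * (1 / S.c0 * (S.M * (1 / S.b0) ^ 2 * (Lam * S.kap ^ (1 / 8 : ℝ))))) := by ring
    rw [h4, hZX] at h3
    have h5 : 2000 * a * Cons493.cCons * (1 / S.c0 * S.kap ^ (1 / 8 : ℝ)) ≤
        2000 * a * Cons493.cCons * X := mul_le_mul_of_nonneg_left hk8X (by positivity)
    have h6 : K3 * (2000 * a * Cons493.cCons * (1 / S.c0 * S.kap ^ (1 / 8 : ℝ)) + 3 * K4 * X) ≤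
        K3 * (2000 * a * Cons493.cCons * X + 3 * K4 * X) :=
      mul_le_mul_of_nonneg_left (by linarith only [h5]) hK30
    have h7 : (2 * (K3 * (2000 * a * Cons493.cCons + 3 * K4))) * X ≤ 1 :=
      hKX (by linarith only [hK, p1, p2, p3, p5, hC2])
    linarith only [h3, h6, h7, show K3 * (2000 * a * Cons493.cCons * X + 3 * K4 * X)
      = (2 * (K3 * (2000 * a * Cons493.cCons + 3 * K4))) * X / 2 by ring]
  · have h3 : (Sys.KKn (K1 / S.c0) + 1) * S.epn (Ca * (S.M + 1) / S.b0) a (CT1 / S.b0) w ≤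
        K3 * (1 / S.c0) * (K4 * (S.M * (1 / S.b0) ^ 2 * (Lam * S.kap ^ (1 / 8 : ℝ)))) :=
      mul_le_mul hKK hep hep0 (hKK0.trans hKK)
    have h4 : K3 * (1 / S.c0) * (K4 * (S.M * (1 / S.b0) ^ 2 * (Lam * S.kap ^ (1 / 8 : ℝ)))) =
        K3 * K4 * (1 / S.c0 * (S.M * (1 / S.b0) ^ 2 * (Lam * S.kap ^ (1 / 8 : ℝ)))) := by ring
    rw [h4, hZX] at h3
    have h7 : (256 * (K3 * K4)) * X ≤ 1 := hKX (by linarith only [hK, p1, p2, p3, p4, hC2])
    linarith only [h3, h7]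

end Vale.Agent.P262.M2
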