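import Vale.Agent.P262.H924.Closed
import Vale.Agent.P262.M2.Param2

/-!
# P262, milestone 2: the plug
-/

set_option linter.all false

open MeasureTheory ProbabilityTheory Set
open scoped ENNReal
open Vale.Agent.P262.Cons493 (cCons cCons_pos)

namespace Vale.Agent.P262.M2

open Real

/-- `Cr = 48 (M+1)/b0` is large enough -/
lemma CR_le {E : Type*} [NormedAddCommGroup E] [InnerProductSpace ℝ E] [FiniteDimensional ℝ E]
    [MeasurableSpace E] [BorelSpace E] {S : Sys E} {K : ℝ} {n : ℕ} {Lam : ℝ}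
    (h : S.Sm K n Lam) : 48 * S.CR ≤ 48 * (S.M + 1) / S.b0 ∧ 8 * (S.M + 1) ≤ 48 * (S.M + 1) / S.b0 := by
  have hb := h.b0_pos
  have hb1 := h.b0_le_one
  have hM := h.one_le_M
  have q := h.one_le_inv_b0
  have e : 48 * (S.M + 1) / S.b0 = 48 * ((S.M + 1) * (1 / S.b0)) := by ring
  have h1 : S.M + 1 ≤ (S.M + 1) * (1 / S.b0) := le_mul_of_one_le_right (by linarith) q
  have h2 : S.b0 ^ (-S.th) ≤ (S.M + 1) * (1 / S.b0) := by
    rw [h.th]
    have h3 : S.b0 ^ (-(1 / 2) : ℝ) ≤ S.b0 ^ (-1 : ℝ) :=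
      rpow_le_rpow_of_exponent_ge hb hb1 (by norm_num)
    have h4 : S.b0 ^ (-1 : ℝ) = 1 / S.b0 := by rw [rpow_neg_one, one_div]
    have h5 : 1 / S.b0 ≤ (S.M + 1) * (1 / S.b0) := le_mul_of_one_le_left (by linarith) (by linarith)
    calc S.b0 ^ (-(1 / 2) : ℝ) ≤ _ := h3
      _ = _ := h4
      _ ≤ _ := h5
  rw [e]
  refine ⟨?_, by linarith⟩
  have : S.CR ≤ (S.M + 1) * (1 / S.b0) := by
    unfold Sys.CR
    exact max_le h1 h2
  linarith

/-- **the closed root estimate** from the smallness of the constants and the throughput -/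
theorem exists_closed {CT0 C2 : ℝ} (hCT0 : 0 ≤ CT0) (hC2 : 1 ≤ C2) :
    ∃ K0 : ℝ, 1 ≤ K0 ∧ ∀ K : ℝ, K0 ≤ K → ∀ n : ℕ, 6 ≤ n →
      ∀ (E : Type) [NormedAddCommGroup E] [InnerProductSpace ℝ E] [FiniteDimensional ℝ E]
      [MeasurableSpace E] [BorelSpace E] (S : Sys E) (Lam : ℝ), 1 ≤ Lam →
      S.Sm K n Lam → (∀ k ≤ S.mT, S.Healthy k) →
      S.THR CT0 (C2 * Lam * S.kap ^ S.th) → S.De [] S.mT 0 ≤ ENNReal.ofReal (2 * S.A0) := by
  have hc := cCons_pos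
  obtain ⟨K0, K1, hK0, hK1, H⟩ := exists_num (Ca := 48) (a := 17)
    (CT1 := 184 * cCons + CT0) (C2 := C2) (by norm_num) (by norm_num) (by positivity) hC2
  refine ⟨K0, hK0, fun K hK n hn E _ _ _ _ _ S Lam hL hS hH hT => ?_⟩
  have N := H K hK n hn E S Lam hL hS
  have hw := hS.w_pow hL hC2
  have hb := hS.b0_pos
  have q := hS.one_le_inv_b0
  have hk : 0 ≤ S.kap ^ S.th := rpow_nonneg S.hkap.le _
  have hCL : 1 ≤ C2 * Lam := by nlinarith
  have e1 : 184 * cCons / S.b0 ≤ (184 * cCons + CT0) / S.b0 := by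
    gcongr
    linarith
  have e2 : CT0 ≤ (184 * cCons + CT0) / S.b0 := by
    have h1 : (184 * cCons + CT0) * 1 ≤ (184 * cCons + CT0) * (1 / S.b0) :=
      mul_le_mul_of_nonneg_left q (by positivity)
    have h2 : (184 * cCons + CT0) / S.b0 = (184 * cCons + CT0) * (1 / S.b0) := by ring
    rw [h2]
    linarith
  obtain ⟨g1, g2⟩ := CR_le hS
  refine Sys.closed_of N hH g2 g1 le_rfl e1 ?_ ?_ (hS.start (hK0.trans hK) hL (by omega) 0)
  · rw [hw]
    exact le_mul_of_one_le_left hk hCL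
  · rw [hw]
    exact Sys.THR.mono hT hCT0 e2 (by positivity) le_rfl

/-- the root is healthy -/
lemma root_ne {E : Type*} [NormedAddCommGroup E] [InnerProductSpace ℝ E] [FiniteDimensional ℝ E]
    [MeasurableSpace E] [BorelSpace E] {S : Sys E} (hH : ∀ k ≤ S.mT, S.Healthy k) :
    ∀ m < S.mT, ∀ x : E, S.kl [] m x ≠ 0 := fun m hm => Sys.blk_root hH m hm.le

/-- **M2'**: `σ(d) ≤ C √d √(1 + log (1 + log (d + 1)))` -/
theorem sigma_loglog :
    ∃ C : ℝ, 0 < C ∧ ∀ d : ℕ, 1 ≤ d →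
      signedConst d ≤ ENNReal.ofReal (C * (sqrt d * sqrt (1 + log (1 + log ((d : ℝ) + 1))))) := by
  obtain ⟨K0, hK0, H⟩ := exists_closed (CT0 := Sys.cTA (1 / 2)) (C2 := 4)
    (Sys.cTA_nonneg (by norm_num)) (by norm_num)
  refine sigma_fam (K := max K0 100) (n := 6) fun E _ _ _ _ _ S Lam hL hcm hS hH => ?_
  have hk : 0 ≤ S.kap ^ S.th := rpow_nonneg S.hkap.le _
  have hcm' : (S.cm : ℝ) + 1 ≤ Lam := by
    have h0 : (0 : ℝ) ≤ S.cm := Nat.cast_nonneg _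
    have h1 : (S.cm : ℝ) + 1 ≤ max K0 100 * (S.cm + 1) :=
      le_mul_of_one_le_left (by linarith) (hK0.trans (le_max_left _ _))
    linarith
  refine H _ (le_max_left _ _) 6 le_rfl E S Lam hL hS hH ?_
  have hT := Sys.thr_A' (hS.thrC (le_max_right _ _) hL) (root_ne hH)
  rw [hS.th] at hT
  rw [hS.th]
  rw [hS.th] at hk
  refine Sys.THR.mono hT (Sys.cTA_nonneg (by norm_num)) le_rfl (by positivity) ?_
  exact mul_le_mul_of_nonneg_right (by linarith) hk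

/-- **M2**, from the throughput with absolute constants -/
theorem sigma_sqrt_of {CT0 C2 K2 : ℝ} {n2 : ℕ} (hCT0 : 0 ≤ CT0) (hC2 : 1 ≤ C2)
    (thr : ∀ (E : Type) [NormedAddCommGroup E] [InnerProductSpace ℝ E]
    [FiniteDimensional ℝ E] [MeasurableSpace E] [BorelSpace E] (S : Sys E) (K : ℝ) (n : ℕ),
      K2 ≤ K → n2 ≤ n → S.Sm K n 1 → (∀ k ≤ S.mT, S.Healthy k) →
      S.THR CT0 (C2 * S.kap ^ S.th)) :
    ∃ C : ℝ, 0 < C ∧ ∀ d : ℕ, 1 ≤ d → signedConst d ≤ ENNReal.ofReal (C * sqrt d) := by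
  obtain ⟨K0, hK0, H⟩ := exists_closed (CT0 := CT0) (C2 := C2) hCT0 hC2
  refine sigma_of (K := max K0 K2) (n := max 6 n2) (Lam := 1) le_rfl
    fun E _ _ _ _ _ S hS hH => ?_
  refine H _ (le_max_left _ _) _ (le_max_left _ _) E S 1 le_rfl hS hH ?_
  rw [mul_one]
  exact thr E S _ _ (le_max_right _ _) (le_max_right _ _) hS hH

end Vale.Agent.P262.M2
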