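import Vale.Agent.P262.M2.Sigma
import Vale.Agent.P262.H837.AsmC

/-!
# P262, milestone 2: the plug, with the throughput of the good parents
-/

set_option linter.all false

open MeasureTheory ProbabilityTheory Set
open scoped ENNReal

namespace Vale.Agent.P262.M2

open Real

/-- **M2**, from the throughput for parents of class `0` -/
theorem sigma_sqrt_of0 {CT0 C2 K2 : ℝ} {n2 : ℕ} (hCT0 : 0 ≤ CT0) (hC2 : 0 ≤ C2)
    (thr : ∀ (E : Type) [NormedAddCommGroup E] [InnerProductSpace ℝ E]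
    [FiniteDimensional ℝ E] [MeasurableSpace E] [BorelSpace E] (S : Sys E) (K : ℝ) (n : ℕ),
      K2 ≤ K → n2 ≤ n → S.Sm K n 1 → (∀ k ≤ S.mT, S.Healthy k) →
      S.THR0 CT0 (C2 * S.kap ^ S.th)) :
    ∃ C : ℝ, 0 < C ∧ ∀ d : ℕ, 1 ≤ d → signedConst d ≤ ENNReal.ofReal (C * sqrt d) := by
  refine sigma_sqrt_of (CT0 := max CT0 192160) (C2 := max C2 6144) (K2 := max K2 256) (n2 := n2)
    (le_trans hCT0 (le_max_left _ _)) (le_trans (by norm_num) (le_max_right _ _))
    fun E _ _ _ _ _ S K n hK hn hS hH => ?_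
  have hk : 0 ≤ S.kap ^ S.th := rpow_nonneg S.hkap.le _
  have hkq : S.kq ≤ 1 := by
    have h1 := hS.K_kap_th (le_trans (le_trans (by norm_num) (le_max_right _ _)) hK) le_rfl
    rw [hS.th] at h1
    rw [hS.th] at hk
    have h2 : 256 * S.kap ^ (1 / 2 : ℝ) ≤ K * S.kap ^ (1 / 2 : ℝ) :=
      mul_le_mul_of_nonneg_right ((le_max_right _ _).trans hK) hk
    unfold Sys.kq
    linarith
  refine Sys.THR_of S ?_ ?_
  · have h1 := Sys.thrp hS.th hkq
    refine Sys.THRp.mono9 h1 (by norm_num) (le_max_right _ _) ?_ ?_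
    · have := S.K0_nonneg
      positivity
    · rw [Sys.K0, hS.th]
      rw [hS.th] at hk
      have := mul_le_mul_of_nonneg_right (le_max_right C2 6144) hk
      linarith
  · refine Sys.THR0.mono (thr E S K n ((le_max_left _ _).trans hK) hn hS hH) hCT0
      (le_max_left _ _) (by positivity) ?_
    exact mul_le_mul_of_nonneg_right (le_max_left _ _) hk

end Vale.Agent.P262.M2
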