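import Vale.Agent.P262.M2.Sigma2
import Vale.Agent.P262.H439.PaySys4

/-!
# P262, milestone 2: `σ(d) ≤ C √d`
-/

set_option linter.all false

open MeasureTheory ProbabilityTheory Set
open scoped ENNReal

namespace Vale.Agent.P262.M2

open Real

/-- **The full bound**: the signed series constant of `ℓ²ᵈ` is at most `C √d`. -/
theorem sigma_sqrt :
    ∃ C : ℝ, 0 < C ∧ ∀ d : ℕ, 1 ≤ d → signedConst d ≤ ENNReal.ofReal (C * sqrt d) := by
  refine sigma_sqrt_of0 (CT0 := max 0 (2 * H431.cThr + 48000 * H439.cPay)) (C2 := 12288)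
    (K2 := 256) (n2 := 0) (le_max_left _ _) (by norm_num) fun E _ _ _ _ _ S K n hK _ hS hH => ?_
  have hkq : S.kq ≤ 1 := by
    have h1 := hS.K_kap_th (le_trans (by norm_num) hK) le_rfl
    have hk : 0 ≤ S.kap ^ S.th := rpow_nonneg S.hkap.le _
    rw [hS.th] at h1 hk
    have h2 : 256 * S.kap ^ (1 / 2 : ℝ) ≤ K * S.kap ^ (1 / 2 : ℝ) :=
      mul_le_mul_of_nonneg_right hK hk
    unfold Sys.kq
    linarith
  exact H439.THR0_B (hS.thrC (le_trans (by norm_num) hK) le_rfl) hS.th hkq (root_ne hH)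
    (le_max_right _ _) (by rw [hS.th])

end Vale.Agent.P262.M2
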