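import Vale.Agent.P262.M2.Blocks

/-!
# P262, milestone 2: the sum over the rotations of one block
-/

set_option linter.all false

open MeasureTheory ProbabilityTheory Set
open scoped ENNReal RealInnerProductSpace
open Vale.Agent.P262.H118 (Iv st en K2 El2 paths Cl cl_paths mem_paths iv_st iv_en)
open Vale.Agent.P262.H274 (Slow Cost)
open Vale.Agent.P262.H395 (fib Inv)

namespace Vale.Agent.P262.M2.Sys

variable {E : Type*} [NormedAddCommGroup E] [InnerProductSpace ℝ E] [FiniteDimensional ℝ E]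
  [MeasurableSpace E] [BorelSpace E] {S : Sys E}

/-- **regrouping of the moves into blocks**, for one point. -/
lemma regroup {n : ℕ} {b e : ℕ → ℕ} (hb : ∀ m < n, b m ≤ m) (hbb : ∀ m < n, b (b m) = b m)
    (he : ∀ m < n, m ≤ e (b m)) (F : ℕ → ℝ≥0∞) :
    ∑ m ∈ Finset.range n, F m ≤
      ∑ a ∈ Finset.range n, if b a = a then ∑ m ∈ Finset.Ico a (e a + 1), F m else 0 := by
  classical
  have h1 : ∀ m ∈ Finset.range n, F m = ∑ a ∈ Finset.range n, if b m = a then F m else 0 := by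
    intro m hm
    rw [Finset.mem_range] at hm
    rw [Finset.sum_ite_eq, if_pos (Finset.mem_range.2 ((hb m hm).trans_lt hm))]
  rw [Finset.sum_congr rfl h1, Finset.sum_comm]
  refine Finset.sum_le_sum fun a ha => ?_
  rw [Finset.mem_range] at ha
  split_ifs with h
  · rw [← Finset.sum_filter]
    refine Finset.sum_le_sum_of_subset fun m hm => ?_
    rw [Finset.mem_filter, Finset.mem_range] at hm
    rw [Finset.mem_Ico, ← hm.2]
    exact ⟨hb m hm.1, Nat.lt_succ_of_le (he m hm.1)⟩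
  · refine le_of_eq (Finset.sum_eq_zero fun m hm => ?_)
    rw [Finset.mem_range] at hm
    rw [if_neg]
    intro h2
    apply h
    rw [← h2, hbb m hm]

open Classical in
/-- **rotations of the child inside one block**: `∑ w ^ k * angle ≤ (π N_c / δ) Cost`. -/
theorem rot_block {p : List ℕ} {m0 : ℕ} {x : E} (hm0 : S.mv.tm m0 < S.T) (hl : ¬ S.Leaf p m0)
    (hG : S.kl p m0 x :: p ∈ paths S.cm (Module.finrank ℝ E)) {w : ℝ} (hw : 0 ≤ w)
    (hwρ : 3 * w ≤ S.ρ) :
    ∑ m ∈ Finset.Ico (S.bs p m0 x) (S.be p m0 x + 1),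
      (if S.mv.IsRot m ∧ S.mv.jj m = S.kl p m0 x :: p then
        ENNReal.ofReal (w ^ S.kr m * S.mv.ph m) else 0) ≤
      ENNReal.ofReal (Real.pi * S.N (S.kl p m0 x) / S.δ) * S.cst p m0 x := by
  set c := S.kl p m0 x with hc
  have h0 := S.K.zero_mem_B p c
  have hiv : Iv (S.K.B p c) S.T (S.ts p m0 x) (S.te p m0 x) := by
    unfold Sys.te Sys.ts Sys.BB
    exact (iv_st h0 hm0).1
  have hN : 0 ≤ S.N c := by
    rw [S.hN]; have := S.hc0; positivity
  have hts : S.mv.tm (S.bs p m0 x) = S.ts p m0 x := by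
    unfold Sys.bs Sys.ts; exact S.mv.tm_n _
  have h2 : 2 ≤ Module.finrank ℝ (S.K.W p (S.ts p m0 x))ᗮ := by
    have h3 : S.W p (S.bs p m0 x) = S.W p m0 :=
      (show S.Same (S.BB p m0 x) m0 (S.bs p m0 x) from
        ⟨le_rfl, (bs_le p m0 x).trans (le_be p x hm0)⟩).W (nw_sub_BB p m0 x) hm0
    unfold Sys.W at h3
    rw [hts] at h3
    rw [h3]
    unfold Sys.Leaf Sys.W at hl
    omega
  have key := S.mv.rot_sum S.hδ (p := p) (c := c) hG hN h2 hiv hw hwρ (g := fun _ => 1)
    (g0 := 1) zero_le_one fun _ _ _ _ => le_rfl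
  rw [one_mul] at key
  -- the sum of the left side
  have e1 : S.be p m0 x + 1 = S.mv.n (S.te p m0 x) := by
    have h4 : 0 < S.mv.n (S.te p m0 x) := by
      have h5 := S.mv.n_strictMono hiv.2.1
      omega
    show S.mv.n (en (S.BB p m0 x) S.T (st (S.BB p m0 x) (S.mv.tm m0))) - 1 + 1 = _
    have h6 : S.te p m0 x = en (S.BB p m0 x) S.T (st (S.BB p m0 x) (S.mv.tm m0)) := rfl
    rw [← h6]
    omega
  have e0 : S.bs p m0 x = S.mv.n (S.ts p m0 x) := rfl
  rw [e1, e0, S.mv.sum_steps _ hiv.2.1.le]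
  have e2 : ∀ t ∈ Finset.Ico (S.ts p m0 x) (S.te p m0 x),
      ∑ m ∈ Finset.Ico (S.mv.n t) (S.mv.n (t + 1)), (if S.mv.IsRot m ∧ S.mv.jj m = c :: p then
        ENNReal.ofReal (w ^ S.kr m * S.mv.ph m) else 0) =
      ENNReal.ofReal (∑ m ∈ Finset.Ico (S.mv.n t + 1) (S.mv.n (t + 1) - 1),
        (if S.mv.jj m = c :: p then w ^ S.K.kd (c :: p) t * S.mv.ph m * 1 else 0)) := by
    intro t _
    rw [S.mv.sum_step]
    have hn := S.mv.n_succ t
    have a1 : ¬ (S.mv.IsRot (S.mv.n t) ∧ S.mv.jj (S.mv.n t) = c :: p) := fun h => by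
      have h1 := h.1.1
      rw [S.mv.tm_n] at h1
      exact lt_irrefl _ h1
    have a2 : ¬ (S.mv.IsRot (S.mv.n (t + 1) - 1) ∧ S.mv.jj (S.mv.n (t + 1) - 1) = c :: p) :=
      fun h => by
        have h1 := h.1.2
        rw [S.mv.tm_eq (t := t) (by omega) (by omega)] at h1
        omega
    rw [if_neg a1, if_neg a2, zero_add, add_zero, ENNReal.ofReal_sum_of_nonneg]
    · refine Finset.sum_congr rfl fun m hm => ?_
      rw [Finset.mem_Ico] at hm
      have ht : S.mv.tm m = t := S.mv.tm_eq (by omega) (by omega)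
      have hr : S.mv.IsRot m := by
        unfold H118.El2.IsRot
        rw [ht]
        omega
      by_cases hj : S.mv.jj m = c :: p
      · rw [if_pos ⟨hr, hj⟩, if_pos hj, mul_one]
        unfold Sys.kr
        rw [hj, ht]
      · rw [if_neg fun h => hj h.2, if_neg hj, ENNReal.ofReal_zero]
    · intro m _
      have := S.mv.ph_nonneg m
      split_ifs <;> positivity
  rw [Finset.sum_congr rfl e2, ← ENNReal.ofReal_sum_of_nonneg]
  · unfold Sys.cst
    rw [← hc, ← ENNReal.ofReal_mul (by have := S.hδ; have := Real.pi_pos; positivity)]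
    exact ENNReal.ofReal_le_ofReal key
  · intro t _
    refine Finset.sum_nonneg fun m _ => ?_
    have := S.mv.ph_nonneg m
    split_ifs <;> positivity

/-- the factor `2 ^ kl` is compensated by the class constant. -/
lemma N_s2 {p : List ℕ} {m : ℕ} {x : E} :
    ENNReal.ofReal (Real.pi * S.N (S.kl p m x) / S.δ) * S.s2 p m x ≤
      ENNReal.ofReal (2 * Real.pi * S.c0 / S.δ) := by
  have hpi := Real.pi_pos
  have hδ := S.hδ
  have hc0 := S.hc0
  unfold Sys.s2
  have h1 : (2 : ℝ≥0∞) ^ S.kl p m x = ENNReal.ofReal (2 ^ S.kl p m x) := by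
    rw [ENNReal.ofReal_pow (by norm_num)]
    norm_num
  rw [h1, S.hN, ← ENNReal.ofReal_mul (by positivity)]
  apply ENNReal.ofReal_le_ofReal
  have h2 : Real.pi * (S.c0 / 2 ^ S.kl p m x) / S.δ * 2 ^ S.kl p m x = Real.pi * S.c0 / S.δ := by
    have : (2 : ℝ) ^ S.kl p m x ≠ 0 := by positivity
    field_simp
  rw [h2, div_le_div_iff_of_pos_right hδ]
  nlinarith [mul_pos hpi hc0]

end Vale.Agent.P262.M2.Sys
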