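import Vale.Agent.P262.M2.Defs
import Vale.Agent.P262.M1.TopG
import Vale.Agent.P262.H502.Mom
import Vale.Agent.P262.H502.Small

/-!
# P262, milestone 2: existence of the system, the root, the top theorem

`Cst` = the constants of milestone 2; `Sys.Has S c` = the system `S` has these constants
and radius `C0 * sqrt (dim E)`.  `final_one`: one dimension.  `final_of`: the closed root estimate
for all systems with the absolute constants `c` implies `sigma(d) ≤ C sqrt d`.  `final_fam`: the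
constants may depend on the dimension (`C0 d ≤ g d`): `sigma(d) ≤ C sqrt d * g d`.
-/

set_option linter.all false

open MeasureTheory ProbabilityTheory Set
open scoped ENNReal RealInnerProductSpace
open Vale.Agent.P262.H118 (Iv st en ON rotE tau wd wrd Mg Piece K2 El2 paths)
open Vale.Agent.P262.H274 (Slow Cost)
open Vale.Agent.P262.H395 (fib mix Inv)
open Vale.Agent.P262.H493 (star)

namespace Vale.Agent.P262.M2

/-- absolute constants of milestone 2 -/
structure Cst where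
  δ : ℝ
  c0 : ℝ
  ρ : ℝ
  M : ℝ
  th : ℝ
  A0 : ℝ
  kap : ℝ
  qq : ℝ
  b0 : ℝ
  q0 : ℝ≥0∞
  C0 : ℝ
  hδ : 0 < δ
  hδ1 : δ ≤ 1 / 200
  hc0 : 0 < c0
  hc0δ : c0 < δ
  hρ : 0 < ρ
  hρ1 : ρ < 1 / 3
  hM : 2 ≤ M
  hth : 0 < th
  hth1 : th < 1
  hA0 : 0 < A0
  hA1 : A0 ≤ 1 / 400
  hkap : 0 < kap
  hkap1 : kap ≤ 1
  hqq : 0 < qq
  hAb : A0 ≤ b0
  hMb : 2 * (M + 1) * b0 ≤ 1 / 16
  hq0 : 0 < q0
  hq1 : q0 ≤ 1 / 8
  hC1 : 1 ≤ C0
  hC0 : 2 * Real.exp (-(3 / 8 * C0 ^ 2)) ≤ A0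

/-- thresholds tend to zero -/
lemma exists_cm {a : ℝ} (ha : 0 < a) : ∃ n : ℕ, Real.exp (1 - 4 ^ n) / 10 ≤ a := by
  obtain ⟨n, hn⟩ := pow_unbounded_of_one_lt (1 - Real.log (10 * a)) (show (1:ℝ) < 4 by norm_num)
  refine ⟨n, ?_⟩
  rw [div_le_iff₀ (by norm_num)]
  have h1 : (1:ℝ) - 4 ^ n ≤ Real.log (10 * a) := by linarith
  calc Real.exp (1 - 4 ^ n) ≤ Real.exp (Real.log (10 * a)) := Real.exp_le_exp.mpr h1
    _ = a * 10 := by rw [Real.exp_log (by positivity)]; ring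

variable {E : Type*} [NormedAddCommGroup E] [InnerProductSpace ℝ E] [FiniteDimensional ℝ E]
  [MeasurableSpace E] [BorelSpace E]

/-- the system `S` has the constants `c` -/
structure Sys.Has (S : Sys E) (c : Cst) : Prop where
  δ : S.δ = c.δ
  R : S.R = c.C0 * Real.sqrt (Module.finrank ℝ E)
  c0 : S.c0 = c.c0
  ρ : S.ρ = c.ρ
  M : S.M = c.M
  th : S.th = c.th
  A0 : S.A0 = c.A0
  kap : S.kap = c.kap
  qq : S.qq = c.qq
  b0 : S.b0 = c.b0
  q0 : S.q0 = c.q0

/-- **existence of the system** -/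
theorem exists_sys (c : Cst) (hd2 : 2 ≤ Module.finrank ℝ E) {cm : ℕ}
    (hcm : Real.exp (1 - 4 ^ cm) / 10 ≤ c.A0 * c.kap ^ Module.finrank ℝ E)
    (v : ℕ → E) {T : ℕ} (hT : 0 < T) (hv : ∀ t, t < T → ‖v t‖ = c.δ) :
    ∃ S : Sys E, S.v = v ∧ S.T = T ∧ S.cm = cm ∧ S.Has c := by
  have hN0 : ∀ k : ℕ, (0:ℝ) ≤ c.c0 / 2 ^ k := fun k => by have := c.hc0; positivity
  have hNδ : ∀ k : ℕ, c.c0 / 2 ^ k < c.δ := fun k => by
    refine lt_of_le_of_lt ?_ c.hc0δ
    exact div_le_self c.hc0.le (one_le_pow₀ (by norm_num))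
  have hNa : ∀ k : ℕ, c.c0 / 2 ^ (k + 1) ≤ c.c0 / 2 ^ k := fun k => by
    have := c.hc0
    apply div_le_div_of_nonneg_left this.le (by positivity)
    exact pow_le_pow_right₀ (by norm_num) (by omega)
  have hδ1 := c.hδ1
  obtain ⟨K⟩ := H118.exists_K2 (N := fun k => c.c0 / 2 ^ k) c.hδ (by linarith) hv c.hρ c.hρ1 hN0 hNδ
    hNa
  have hn : (1:ℝ) ≤ Real.sqrt (Module.finrank ℝ E) := by
    rw [Real.one_le_sqrt]
    have : (2:ℝ) ≤ (Module.finrank ℝ E : ℝ) := by exact_mod_cast hd2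
    linarith
  have hR : (1:ℝ) ≤ c.C0 * Real.sqrt (Module.finrank ℝ E) := by
    have := c.hC1
    nlinarith
  set Q : ℝ := 5 * ((Module.finrank ℝ E : ℝ) + 2) *
    (c.C0 * Real.sqrt (Module.finrank ℝ E) + 4) ^ 2 with hQ
  have hQ0 : 0 < Q := by positivity
  obtain ⟨mv, hmv⟩ := H502.exists_El2_small K (paths cm (Module.finrank ℝ E)) (et := 1 / Q)
    (by positivity)
  have hph : ∀ m, 5 * ((Module.finrank ℝ E : ℝ) + 2) * mv.ph m *
      (c.C0 * Real.sqrt (Module.finrank ℝ E) + 4) ^ 2 ≤ 1 := by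
    intro m
    have h1 := hmv m
    rw [le_div_iff₀ hQ0] at h1
    calc _ = mv.ph m * Q := by rw [hQ]; ring
      _ ≤ 1 := h1
  let S : Sys E :=
    { v := v
      T := T
      δ := c.δ
      R := c.C0 * Real.sqrt (Module.finrank ℝ E)
      c0 := c.c0
      N := fun k => c.c0 / 2 ^ k
      thr := fun k => ENNReal.ofReal (Real.exp (1 - 4 ^ k) / 10)
      cm := cm
      ρ := c.ρ
      M := c.M
      th := c.th
      A0 := c.A0
      kap := c.kap
      qq := c.qq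
      b0 := c.b0
      q0 := c.q0
      hd2 := hd2
      hT := hT
      hδ := c.hδ
      hδ1 := by linarith
      hR := hR
      hv := hv
      hN := fun _ => rfl
      hc0 := c.hc0
      hc0δ := c.hc0δ
      hthr := fun _ => rfl
      hρ := c.hρ
      hρ1 := c.hρ1
      hM := c.hM
      hth := c.hth
      hth1 := c.hth1
      hA0 := c.hA0
      hkap := c.hkap
      hkap1 := c.hkap1
      hqq := c.hqq
      hAb := c.hAb
      hMb := c.hMb
      hq0 := c.hq0
      hq1 := c.hq1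
      hcm := ENNReal.ofReal_le_ofReal hcm
      K := K
      mv := mv
      hph := hph }
  exact ⟨S, rfl, rfl, rfl,
    ⟨rfl, rfl, rfl, rfl, rfl, rfl, rfl, rfl, rfl, rfl, rfl⟩⟩

namespace Sys

variable (S : Sys E)

/-! ### the root -/

lemma W_root_t (m : ℕ) : S.W [] m = ⊥ := S.K.W_nil _

lemma X_root_t (m : ℕ) : S.X [] m = S.mv.Kb S.Kt m := rfl

lemma De_root_t (m : ℕ) (x : E) : S.De [] m x = stdGaussian E (S.mv.Kb S.Kt m)ᶜ := by
  obtain ⟨t, ht⟩ := S.mv.exists_Kb S.Kt m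
  unfold De
  rw [S.W_root_t, H395.fib_bot, X_root_t, ht,
    lintegral_indicator_one (show MeasurableSet (S.Kt t) from M1.measurableSet_body _ _ _).compl]

lemma Kb_le_t {m : ℕ} (hm : m ≤ S.mT) : ∃ t ≤ S.T, S.mv.Kb S.Kt m = S.Kt t := by
  have hn : 0 < S.mv.n S.T := by
    have := S.mv.n_strictMono S.hT
    omega
  have h1 : S.mv.tm m < S.T := S.mv.tm_lt_of_lt (by unfold mT at hm; omega)
  unfold H118.El2.Kb
  split_ifs
  · exact ⟨_, h1.le, rfl⟩
  · exact ⟨_, h1, rfl⟩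

lemma Kb_mT_t : S.mv.Kb S.Kt S.mT = S.Kt S.T := by
  have hT := S.hT
  have h2 := S.mv.n_succ (S.T - 1)
  rw [Nat.sub_add_cancel hT] at h2
  have h3 := S.mv.Kb_after S.Kt (t := S.T - 1) (m := S.mT) (by unfold mT; omega)
    (by rw [Nat.sub_add_cancel hT]; unfold mT; omega)
  rw [h3, Nat.sub_add_cancel hT]

/-- all states are healthy if all bodies are -/
lemma healthy_of (h : ∀ t, t ≤ S.T → (stdGaussian E).real (M1.body S.v S.R t)ᶜ ≤ 1 / 25) :
    ∀ k ≤ S.mT, S.Healthy k := by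
  intro k hk
  obtain ⟨t, ht, e⟩ := S.Kb_le_t hk
  unfold Healthy
  rw [S.De_root_t, e, ← ENNReal.ofReal_toReal (measure_ne_top (stdGaussian E) (S.Kt t)ᶜ)]
  refine ENNReal.ofReal_le_ofReal ?_
  have h1 : (stdGaussian E (S.Kt t)ᶜ).toReal ≤ 1 / 25 := h t ht
  linarith

/-- the root at the end -/
lemma deficit_of {c : ℝ} (hc : 0 ≤ c) (h : S.De [] S.mT 0 ≤ ENNReal.ofReal c) :
    (stdGaussian E).real (M1.body S.v S.R S.T)ᶜ ≤ c := by
  rw [S.De_root_t, S.Kb_mT_t] at h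
  exact ENNReal.toReal_le_of_le_ofReal hc h

end Sys

/-! ### the tail of the ball -/

lemma ball_tail {C0 a : ℝ} (hn : 1 ≤ Module.finrank ℝ E)
    (hC : 2 * Real.exp (-(3 / 8 * C0 ^ 2)) ≤ a) (ha : a ≤ 1) (hC0 : 0 ≤ C0) :
    (stdGaussian E).real (Metric.closedBall (0 : E) (C0 * Real.sqrt (Module.finrank ℝ E)))ᶜ
      ≤ a := by
  set n := Module.finrank ℝ E with hnn
  have h1 := H502.tail_proj (⊤ : Submodule ℝ E) (C0 ^ 2 * n)
  have h2 : (Metric.closedBall (0 : E) (C0 * Real.sqrt n))ᶜ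
      ⊆ {z | C0 ^ 2 * n < ‖(⊤ : Submodule ℝ E).starProjection z‖ ^ 2} := by
    intro z hz
    simp only [mem_compl_iff, Metric.mem_closedBall, dist_zero_right, not_le] at hz
    simp only [mem_setOf_eq]
    have e : (⊤ : Submodule ℝ E).starProjection z = z :=
      Submodule.starProjection_eq_self_iff.mpr trivial
    rw [e]
    have h3 : 0 ≤ C0 * Real.sqrt n := by positivity
    have h4 : (C0 * Real.sqrt n) ^ 2 < ‖z‖ ^ 2 := by gcongr
    have h5 : (C0 * Real.sqrt n) ^ 2 = C0 ^ 2 * n := by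
      rw [mul_pow, Real.sq_sqrt (Nat.cast_nonneg n)]
    linarith
  have h3 : stdGaussian E (Metric.closedBall (0 : E) (C0 * Real.sqrt n))ᶜ
      ≤ ENNReal.ofReal a := by
    refine (measure_mono h2).trans (h1.trans ?_)
    rw [finrank_top, ← hnn]
    have e : (2 : ℝ≥0∞) ^ n * ENNReal.ofReal (Real.exp (-(3 / 8 * (C0 ^ 2 * n))))
        = ENNReal.ofReal ((2 * Real.exp (-(3 / 8 * C0 ^ 2))) ^ n) := by
      rw [mul_pow, ← Real.exp_nat_mul, ENNReal.ofReal_mul (by positivity),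
        ENNReal.ofReal_pow (by norm_num)]
      congr 3
      · simp
      · ring
    rw [e]
    refine ENNReal.ofReal_le_ofReal ?_
    have h4 : 0 ≤ 2 * Real.exp (-(3 / 8 * C0 ^ 2)) := by positivity
    calc (2 * Real.exp (-(3 / 8 * C0 ^ 2))) ^ n ≤ (2 * Real.exp (-(3 / 8 * C0 ^ 2))) ^ 1 :=
          pow_le_pow_of_le_one h4 (hC.trans ha) hn
      _ ≤ a := by rw [pow_one]; exact hC
  have ha0 : 0 ≤ a := le_trans (by positivity) hC
  exact ENNReal.toReal_le_of_le_ofReal ha0 h3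

/-- the root at the start -/
theorem Sys.De_start {S : Sys E} {c : Cst} (h : S.Has c) (x : E) :
    S.De [] 0 x ≤ ENNReal.ofReal S.A0 := by
  have hA := c.hA0
  have hA1 := c.hA1
  have hC1 := c.hC1
  have hd2 := S.hd2
  have e : S.mv.Kb S.Kt 0 = Metric.closedBall 0 S.R := by
    have h1 := S.mv.Kb_start S.Kt 0
    rw [S.mv.n_zero] at h1
    rw [h1]
    show M1.body S.v S.R 0 = _
    rw [M1.body]
  rw [S.De_root_t, e, h.R, h.A0,
    ← ENNReal.ofReal_toReal (measure_ne_top (stdGaussian E) _)]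
  exact ENNReal.ofReal_le_ofReal (ball_tail (by omega) c.hC0 (by linarith) (by linarith))

/-! ### induction on the length -/

/-- small deficits stay small (general health threshold `h`). -/
theorem deficit_of_closed' {R δ c h : ℝ} (hδ0 : 0 ≤ δ) (hc : 4 * δ + 4 * c ≤ h)
    (h0 : (stdGaussian E).real (Metric.closedBall (0 : E) R)ᶜ ≤ c)
    (H : ∀ (v : ℕ → E) (T : ℕ), 0 < T → (∀ t, t < T → ‖v t‖ = δ) →
      (∀ t, t ≤ T → (stdGaussian E).real (M1.body v R t)ᶜ ≤ h) →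
      (stdGaussian E).real (M1.body v R T)ᶜ ≤ c)
    (v : ℕ → E) (T : ℕ) (hv : ∀ t, t < T → ‖v t‖ = δ) :
    (stdGaussian E).real (M1.body v R T)ᶜ ≤ c := by
  induction T using Nat.strong_induction_on with
  | _ T ih =>
    rcases Nat.eq_zero_or_pos T with rfl | hT
    · rw [M1.body]; exact h0
    refine H v T hT hv fun t ht => ?_
    have hc0 : 0 ≤ c := measureReal_nonneg.trans h0
    rcases Nat.lt_or_ge t T with h1 | h1
    · have := ih t h1 fun s hs => hv s (hs.trans h1)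
      linarith
    · have hTt : t = T := le_antisymm ht h1
      obtain ⟨T', rfl⟩ := Nat.exists_eq_add_of_lt hT
      rw [Nat.zero_add] at hTt hv ih
      subst hTt
      have h1 := M1.body_succ_deficit v R T'
      have h2 := ih T' (by omega) fun s hs => hv s (by omega)
      have h3 := hv T' (by omega)
      rw [h3] at h1
      linarith

lemma finrank_wl (d : ℕ) :
    Module.finrank ℝ (WithLp 2 (EuclideanSpace ℝ (Fin d) × ℝ)) = d + 1 := by
  rw [(WithLp.linearEquiv 2 ℝ (EuclideanSpace ℝ (Fin d) × ℝ)).finrank_eq]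
  simp

/-- **One dimension**: the constants `c` and the class bound `cm` may depend on `d`. -/
theorem final_one (c : Cst) {d cm : ℕ} (hd : 1 ≤ d)
    (hcm : Real.exp (1 - 4 ^ cm) / 10 ≤ c.A0 * c.kap ^ (d + 1))
    (H : ∀ S : Sys (WithLp 2 (EuclideanSpace ℝ (Fin d) × ℝ)), S.Has c → S.cm = cm →
      (∀ k ≤ S.mT, S.Healthy k) → S.De [] S.mT 0 ≤ ENNReal.ofReal (2 * c.A0)) :
    signedConst d ≤ ENNReal.ofReal (4 * c.C0 / c.δ * Real.sqrt d) := by
  have hC1 := c.hC1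
  have hδ := c.hδ
  have hδ1 := c.hδ1
  have hA := c.hA0
  have hA1 := c.hA1
  have hfin := finrank_wl d
  set R := c.C0 * Real.sqrt (Module.finrank ℝ (WithLp 2 (EuclideanSpace ℝ (Fin d) × ℝ))) with hR
  have h1 : signedConst d ≤ ENNReal.ofReal (2 * R / c.δ) := by
    refine M1.signedConst_le hδ (M1.good_of_health (c := 2 * c.A0) (by linarith) fun v T hv =>
      deficit_of_closed' (h := 1 / 25) hδ.le (by linarith) ?_ ?_ v T hv)
    · exact ball_tail (by rw [hfin]; omega) (by linarith [c.hC0]) (by linarith) (by linarith)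
    · intro v T hT hv hh
      obtain ⟨S, hSv, hST, hScm, hS⟩ :=
        exists_sys (E := WithLp 2 (EuclideanSpace ℝ (Fin d) × ℝ)) c
        (by rw [hfin]; omega) (cm := cm) (by rw [hfin]; exact hcm) v hT hv
      have h2 : ∀ k ≤ S.mT, S.Healthy k := by
        apply S.healthy_of
        intro t ht
        rw [hSv, hS.R]
        exact hh t (by rw [← hST]; exact ht)
      have h3 := S.deficit_of (by linarith) (H S hS hScm h2)
      rw [hSv, hST, hS.R] at h3
      exact h3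
  refine h1.trans (ENNReal.ofReal_le_ofReal ?_)
  rw [div_mul_eq_mul_div]
  apply div_le_div_of_nonneg_right _ hδ.le
  have h4 : Real.sqrt ((d : ℝ) + 1) ≤ 2 * Real.sqrt d := by
    rw [Real.sqrt_le_left (by positivity)]
    rw [mul_pow, Real.sq_sqrt (Nat.cast_nonneg d)]
    have : (1:ℝ) ≤ d := by exact_mod_cast hd
    linarith
  rw [hR, hfin]
  push_cast
  nlinarith [Real.sqrt_nonneg (d:ℝ)]

/-- **The top theorem of milestone 2**, absolute constants. -/
theorem final_of (c : Cst)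
    (H : ∀ (E : Type) [NormedAddCommGroup E] [InnerProductSpace ℝ E] [FiniteDimensional ℝ E]
      [MeasurableSpace E] [BorelSpace E] (S : Sys E), S.Has c → (∀ k ≤ S.mT, S.Healthy k) →
      S.De [] S.mT 0 ≤ ENNReal.ofReal (2 * c.A0)) :
    ∃ C : ℝ, 0 < C ∧ ∀ d : ℕ, 1 ≤ d → signedConst d ≤ ENNReal.ofReal (C * Real.sqrt d) := by
  have hC1 := c.hC1
  have hδ := c.hδ
  refine ⟨4 * c.C0 / c.δ, by positivity, fun d hd => ?_⟩
  obtain ⟨cm, hcm⟩ := exists_cm (a := c.A0 * c.kap ^ (d + 1))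
    (by have := c.hA0; have := c.hkap; positivity)
  exact final_one c hd hcm fun S hS _ hh => H _ S hS hh

/-- **constants depending on the dimension** (`sigma(d) ≤ C sqrt d * g d`). -/
theorem final_fam (c : ℕ → Cst) (cm : ℕ → ℕ) {δ K : ℝ} {g : ℕ → ℝ} (hδ : 0 < δ) (hK : 0 < K)
    (hcδ : ∀ d, (c d).δ = δ) (hC : ∀ d, 1 ≤ d → (c d).C0 ≤ K * g d)
    (hcm : ∀ d, 1 ≤ d → Real.exp (1 - 4 ^ cm d) / 10 ≤ (c d).A0 * (c d).kap ^ (d + 1))
    (H : ∀ (d : ℕ), 1 ≤ d → ∀ S : Sys (WithLp 2 (EuclideanSpace ℝ (Fin d) × ℝ)), S.Has (c d) →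
      S.cm = cm d → (∀ k ≤ S.mT, S.Healthy k) →
      S.De [] S.mT 0 ≤ ENNReal.ofReal (2 * (c d).A0)) :
    ∃ C : ℝ, 0 < C ∧ ∀ d : ℕ, 1 ≤ d →
      signedConst d ≤ ENNReal.ofReal (C * (Real.sqrt d * g d)) := by
  refine ⟨4 * K / δ, by positivity, fun d hd => ?_⟩
  refine (final_one (c d) hd (hcm d hd) (H d hd)).trans (ENNReal.ofReal_le_ofReal ?_)
  rw [hcδ d]
  have h1 := hC d hd
  have h2 := Real.sqrt_nonneg (d : ℝ)
  calc 4 * (c d).C0 / δ * Real.sqrt d ≤ 4 * (K * g d) / δ * Real.sqrt d := by gcongr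
    _ = 4 * K / δ * (Real.sqrt d * g d) := by ring

end Vale.Agent.P262.M2
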